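import Vale.Agent.P249.MathlibUsed
import Vale.Agent.P249.Defs

set_option linter.all false

section

section

open scoped BigOperators

namespace Vale.Agent.P249

/-- The `ℓ_P` distance between the values of `f` at two points, in coordinates. -/
noncomputable def lpd (P : ℝ) {V : Type*} {N : ℕ} (f : V → Fin N → ℝ) (x y : V) : ℝ :=
  (∑ i, |f x i - f y i| ^ P) ^ (1 / P)

/-- Partition function `Z_b(x) = ∑_y exp(- b * δ x y)`. -/
noncomputable def Zf {V : Type*} [Fintype V] (b : ℝ) (δ : V → V → ℝ) (x : V) : ℝ :=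
  ∑ y, Real.exp (-(b * δ x y))

/-- `K` is a stochastic matrix on `V`. -/
def IsStoch {V : Type*} [Fintype V] (K : V → V → ℝ) : Prop :=
  (∀ x y, 0 ≤ K x y) ∧ ∀ x, ∑ y, K x y = 1

/-- Kernels at all dyadic scales with small total variation between points at distance `≤ 2 ^ j`
and with the `P`-th moments of `ρ / 2 ^ j` summing up to at most `U`. -/
def HasKernels (P : ℝ) {V : Type*} [Fintype V] (ρ : V → V → ℝ) (U : ℝ) : Prop :=
  ∀ J : Finset ℤ, ∃ K : ℤ → V → V → ℝ, (∀ j, IsStoch (K j)) ∧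
    (∀ j ∈ J, ∀ x x', ρ x x' ≤ (2 : ℝ) ^ j → ∑ y, |K j x y - K j x' y| ≤ 1 / 2) ∧
    ∀ x, ∑ j ∈ J, ∑ y, K j x y * (ρ x y / (2 : ℝ) ^ j) ^ P ≤ U

section lpd

variable {P : ℝ} {V : Type*} {N : ℕ} (f : V → Fin N → ℝ)

theorem lpd_nonneg (x y : V) : 0 ≤ lpd P f x y :=
  Real.rpow_nonneg (Finset.sum_nonneg fun _ _ => Real.rpow_nonneg (abs_nonneg _) _) _

theorem lpd_self (hP : 0 < P) (x : V) : lpd P f x x = 0 := by
  simp only [lpd, sub_self, abs_zero, Real.zero_rpow hP.ne', Finset.sum_const_zero, one_div,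
    ne_eq, inv_eq_zero, hP.ne', not_false_eq_true, Real.zero_rpow]

theorem lpd_comm (x y : V) : lpd P f x y = lpd P f y x := by
  simp only [lpd, abs_sub_comm]

theorem lpd_rpow (hP : 0 < P) (x y : V) : lpd P f x y ^ P = ∑ i, |f x i - f y i| ^ P := by
  rw [lpd, ← Real.rpow_mul (Finset.sum_nonneg fun _ _ => Real.rpow_nonneg (abs_nonneg _) _),
    one_div, inv_mul_cancel₀ hP.ne', Real.rpow_one]

theorem lpd_triangle (hP : 1 ≤ P) (x y z : V) : lpd P f x z ≤ lpd P f x y + lpd P f y z := by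
  have h := Real.Lp_add_le Finset.univ (fun i => f x i - f y i) (fun i => f y i - f z i) hP
  simpa only [lpd, one_div, ge_iff_le, sub_add_sub_cancel] using h

theorem abs_le_lpd (hP : 0 < P) (x y : V) (i : Fin N) : |f x i - f y i| ≤ lpd P f x y := by
  have h1 : |f x i - f y i| ^ P ≤ lpd P f x y ^ P := by
    rw [lpd_rpow f hP]
    exact Finset.single_le_sum (f := fun i => |f x i - f y i| ^ P)
      (fun _ _ => Real.rpow_nonneg (abs_nonneg _) _) (Finset.mem_univ i)
  exact (Real.rpow_le_rpow_iff (abs_nonneg _) (lpd_nonneg f x y) hP).1 h1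

end lpd

section Zf

variable {V : Type*} [Fintype V] (δ : V → V → ℝ)

theorem Zf_pos [Nonempty V] (b : ℝ) (x : V) : 0 < Zf b δ x :=
  Finset.sum_pos (fun _ _ => Real.exp_pos _) Finset.univ_nonempty

theorem one_le_Zf (b : ℝ) (x : V) (h0 : δ x x = 0) : 1 ≤ Zf b δ x := by
  have h := Finset.single_le_sum (f := fun y => Real.exp (-(b * δ x y)))
    (fun _ _ => (Real.exp_pos _).le) (Finset.mem_univ x)
  simpa only [Zf, ge_iff_le, h0, mul_zero, neg_zero, Real.exp_zero] using h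

theorem Zf_le_card (b : ℝ) (hb : 0 ≤ b) (x : V) (hδ : ∀ y, 0 ≤ δ x y) :
    Zf b δ x ≤ Fintype.card V := by
  have : Zf b δ x ≤ ∑ _y : V, (1:ℝ) := by
    refine Finset.sum_le_sum fun y _ => ?_
    rw [Real.exp_le_one_iff]
    have := mul_nonneg hb (hδ y)
    linarith
  simpa only [ge_iff_le, Finset.sum_const, Finset.card_univ, nsmul_eq_mul, mul_one] using this

theorem Zf_anti {b b' : ℝ} (hb : b ≤ b') (x : V) (hδ : ∀ y, 0 ≤ δ x y) :
    Zf b' δ x ≤ Zf b δ x := by
  refine Finset.sum_le_sum fun y _ => Real.exp_le_exp.2 ?_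
  have := mul_le_mul_of_nonneg_right hb (hδ y)
  linarith

/-- Telescoping over the dyadic scales: if `L : ℤ → ℝ` is nondecreasing with values in
`[0, B]`, then for every finite set `J` of integers and `k : ℕ` we have
`∑_{j ∈ J} (L (j + k) - L j) ≤ k * B`. -/
theorem sum_telescope_le (L : ℤ → ℝ) (hL : Monotone L) (B : ℝ) (h0 : ∀ j, 0 ≤ L j)
    (hB : ∀ j, L j ≤ B) (k : ℕ) (J : Finset ℤ) :
    ∑ j ∈ J, (L (j + k) - L j) ≤ k * B := by
  classical
  -- reduce to an interval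
  have h1 : ∀ (a : ℤ) (m : ℕ), ∑ i ∈ Finset.range m, (L (a + i + 1) - L (a + i)) ≤ B := by
    intro a m
    have : ∑ i ∈ Finset.range m, (L (a + i + 1) - L (a + i)) = L (a + m) - L a := by
      induction m with
      | zero => simp
      | succ m ih =>
        rw [Finset.sum_range_succ, ih]
        push_cast
        rw [← add_assoc]
        ring
    rw [this]
    linarith [h0 a, hB (a + m)]
  have h2 : ∀ J : Finset ℤ, ∑ j ∈ J, (L (j + 1) - L j) ≤ B := by
    intro J
    rcases J.eq_empty_or_nonempty with rfl | hJ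
    · simp only [Finset.sum_sub_distrib, Finset.sum_empty, sub_self]
      exact (h0 0).trans (hB 0)
    · set a := J.min' hJ
      set b := J.max' hJ
      have hsub : J ⊆ (Finset.range (b - a + 1).toNat).image (fun i : ℕ => a + i) := by
        intro j hj
        have haj : a ≤ j := Finset.min'_le _ _ hj
        have hjb : j ≤ b := Finset.le_max' _ _ hj
        rw [Finset.mem_image]
        refine ⟨(j - a).toNat, ?_, ?_⟩
        · rw [Finset.mem_range]; omega
        · omega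
      calc ∑ j ∈ J, (L (j + 1) - L j)
          ≤ ∑ j ∈ (Finset.range (b - a + 1).toNat).image (fun i : ℕ => a + i),
              (L (j + 1) - L j) := by
            refine Finset.sum_le_sum_of_subset_of_nonneg hsub fun j _ _ => ?_
            have := hL (by omega : j ≤ j + 1)
            linarith only [this]
        _ = ∑ i ∈ Finset.range (b - a + 1).toNat, (L (a + i + 1) - L (a + i)) := by
            rw [Finset.sum_image]
            intro i _ i' _ h
            simp only [add_right_inj, Nat.cast_inj] at h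
            exact h
        _ ≤ B := h1 _ _
  -- general k
  induction k with
  | zero => simp
  | succ k ih =>
    have h3 := h2 (J.image (fun j => j + k))
    rw [Finset.sum_image (by intro i _ i' _ h; simpa using h)] at h3
    have h4 : ∑ j ∈ J, (L (j + (k + 1 : ℕ)) - L j)
        = ∑ j ∈ J, (L (j + k + 1) - L (j + k)) + ∑ j ∈ J, (L (j + k) - L j) := by
      rw [← Finset.sum_add_distrib]
      refine Finset.sum_congr rfl fun j _ => ?_
      push_cast
      rw [← add_assoc]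
      ring
    rw [h4]
    push_cast
    linarith only [ih, h3]

end Zf

end Vale.Agent.P249
end
end

section

section

open scoped BigOperators

namespace Vale.Agent.P249

theorem sum_geom_le (y : ℝ) (hy0 : 0 ≤ y) (hy1 : y < 1) (T : Finset ℕ) :
    ∑ j ∈ T, y ^ j ≤ (1 - y)⁻¹ := by
  rw [← tsum_geometric_of_lt_one hy0 hy1]
  exact (summable_geometric_of_lt_one hy0 hy1).sum_le_tsum T (fun j _ => pow_nonneg hy0 j)

/-- geometric sums over integers bounded above -/
theorem sum_zpow_le_of_le (x : ℝ) (hx : 1 < x) (m : ℤ) (S : Finset ℤ) (hS : ∀ k ∈ S, k ≤ m) :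
    ∑ k ∈ S, x ^ k ≤ (1 - x⁻¹)⁻¹ * x ^ m := by
  have hx0 : 0 < x := by linarith
  have h1 : ∑ k ∈ S, x ^ k = ∑ k ∈ S, x ^ m * (x⁻¹) ^ (m - k).toNat := by
    refine Finset.sum_congr rfl fun k hk => ?_
    have hk' : 0 ≤ m - k := by have := hS k hk; omega
    rw [← zpow_natCast, Int.toNat_of_nonneg hk', inv_zpow, ← zpow_neg, ← zpow_add₀ hx0.ne']
    congr 1; ring
  rw [h1, ← Finset.mul_sum, mul_comm]
  refine mul_le_mul_of_nonneg_right ?_ (zpow_nonneg hx0.le _)
  have h2 : ∑ k ∈ S, (x⁻¹) ^ (m - k).toNat = ∑ j ∈ S.image (fun k => (m - k).toNat), (x⁻¹) ^ j := by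
    rw [Finset.sum_image]
    intro k hk k' hk' h
    have h3 := hS k hk
    have h4 := hS k' hk'
    simp only at h
    omega
  rw [h2]
  exact sum_geom_le _ (by positivity) (inv_lt_one_of_one_lt₀ hx) _

/-- geometric sums over integers bounded below -/
theorem sum_zpow_le_of_ge (y : ℝ) (hy0 : 0 < y) (hy1 : y < 1) (m : ℤ) (S : Finset ℤ)
    (hS : ∀ k ∈ S, m ≤ k) : ∑ k ∈ S, y ^ k ≤ (1 - y)⁻¹ * y ^ m := by
  have h := sum_zpow_le_of_le y⁻¹ ((one_lt_inv₀ hy0).2 hy1) (-m) (S.image (fun k => -k)) (by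
    intro k hk
    rw [Finset.mem_image] at hk
    obtain ⟨k', hk', rfl⟩ := hk
    have := hS k' hk'
    omega)
  rw [Finset.sum_image (by intro a _ b _ h; simpa using h)] at h
  simpa only [ge_iff_le, zpow_neg, inv_zpow', inv_inv] using h

/-- the one-dimensional snowflake function -/
noncomputable def snow (P : ℝ) (S : Finset ℤ) (r : ℝ) : ℝ :=
  ∑ k ∈ S, ((2:ℝ) ^ P) ^ k * (2 - 2 * Real.cos ((2:ℝ) ^ (-k) * r))

theorem two_sub_cos_nonneg (u : ℝ) : 0 ≤ 2 - 2 * Real.cos u := by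
  linarith [Real.cos_le_one u]

theorem snow_le {P : ℝ} (hP1 : 1 ≤ P) (hP2 : P < 2) (S : Finset ℤ) (r : ℝ) :
    snow P S r ≤ (8 + 4 * (1 - (2:ℝ) ^ P / 4)⁻¹) * |r| ^ P := by
  classical
  have hP0 : 0 < P := by linarith only [hP1]
  have hx1 : (2:ℝ) ≤ (2:ℝ) ^ P := by
    simpa only [Real.rpow_one] using Real.rpow_le_rpow_of_exponent_le (by norm_num : (1 : ℝ) ≤ 2) hP1
  have hx2 : (2:ℝ) ^ P < 4 := by
    have := Real.rpow_lt_rpow_of_exponent_lt (by norm_num : (1:ℝ) < 2) hP2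
    norm_num at this
    exact this
  set X : ℝ := (2:ℝ) ^ P with hX
  have hX0 : 0 < X := by linarith
  rcases eq_or_ne r 0 with h0 | h0
  · subst h0
    simp only [snow, zpow_neg, mul_zero, Real.cos_zero, mul_one, sub_self, Finset.sum_const_zero,
      abs_zero, Real.zero_rpow hP0.ne', Std.le_refl]
  have hr : 0 < |r| := abs_pos.2 h0
  obtain ⟨m, hm1, hm2⟩ := exists_mem_Ico_zpow hr (one_lt_two : (1:ℝ) < 2)
  have h2m : (0:ℝ) < 2 ^ m := zpow_pos (by norm_num) _
  -- `|r| ^ P ≥ X ^ m`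
  have hXm : X ^ m ≤ |r| ^ P := by
    have h1 : ((2:ℝ) ^ m) ^ P ≤ |r| ^ P := Real.rpow_le_rpow h2m.le hm1 hP0.le
    have h2 : ((2:ℝ) ^ m) ^ P = X ^ m := by
      rw [hX, ← Real.rpow_intCast, ← Real.rpow_intCast, ← Real.rpow_mul (by norm_num),
        ← Real.rpow_mul (by norm_num), mul_comm]
    rwa [h2] at h1
  have hXm0 : 0 < X ^ m := zpow_pos hX0 _
  have hsplit := Finset.sum_filter_add_sum_filter_not S (fun k => k ≤ m)
    (fun k => X ^ k * (2 - 2 * Real.cos ((2:ℝ) ^ (-k) * r)))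
  have hlow : ∑ k ∈ S with k ≤ m, X ^ k * (2 - 2 * Real.cos ((2:ℝ) ^ (-k) * r)) ≤ 8 * X ^ m := by
    calc ∑ k ∈ S with k ≤ m, X ^ k * (2 - 2 * Real.cos ((2:ℝ) ^ (-k) * r))
        ≤ ∑ k ∈ S with k ≤ m, X ^ k * 4 := by
          refine Finset.sum_le_sum fun k _ => ?_
          apply mul_le_mul_of_nonneg_left _ (zpow_nonneg hX0.le _)
          linarith only [Real.neg_one_le_cos ((2:ℝ) ^ (-k) * r)]
      _ = (∑ k ∈ S with k ≤ m, X ^ k) * 4 := by rw [Finset.sum_mul]
      _ ≤ ((1 - X⁻¹)⁻¹ * X ^ m) * 4 := by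
          apply mul_le_mul_of_nonneg_right _ (by norm_num)
          exact sum_zpow_le_of_le X (by linarith only [hx1]) m _ (fun k hk => (Finset.mem_filter.1 hk).2)
      _ ≤ (2 * X ^ m) * 4 := by
          have : (1 - X⁻¹)⁻¹ ≤ 2 := by
            have h3 : X⁻¹ ≤ 1 / 2 := by
              rw [one_div]; exact inv_anti₀ (by norm_num) hx1
            rw [inv_le_comm₀ (by linarith only [h3]) (by norm_num)]
            linarith
          (clear * - this; gcongr)
      _ = 8 * X ^ m := by ring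
  have hhigh : ∑ k ∈ S with ¬ k ≤ m, X ^ k * (2 - 2 * Real.cos ((2:ℝ) ^ (-k) * r)) ≤
      4 * (1 - X / 4)⁻¹ * X ^ m := by
    have hr2 : r ^ 2 ≤ 4 * 4 ^ m := by
      have h1 : |r| ^ 2 ≤ ((2:ℝ) ^ (m + 1)) ^ 2 := pow_le_pow_left₀ (abs_nonneg _) hm2.le 2
      rw [sq_abs] at h1
      refine h1.trans (le_of_eq ?_)
      rw [zpow_add_one₀ (by norm_num), mul_pow, ← zpow_natCast, ← zpow_mul, mul_comm m,
        zpow_mul]
      norm_num
      ring
    calc ∑ k ∈ S with ¬ k ≤ m, X ^ k * (2 - 2 * Real.cos ((2:ℝ) ^ (-k) * r))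
        ≤ ∑ k ∈ S with ¬ k ≤ m, (X / 4) ^ k * r ^ 2 := by
          refine Finset.sum_le_sum fun k _ => ?_
          have h1 := Real.one_sub_sq_div_two_le_cos (x := (2:ℝ) ^ (-k) * r)
          have h2 : (X / 4) ^ k * r ^ 2 = X ^ k * ((2:ℝ) ^ (-k) * r) ^ 2 := by
            rw [div_zpow, mul_pow, ← zpow_natCast ((2:ℝ) ^ (-k)), ← zpow_mul,
              show -k * ((2:ℕ):ℤ) = 2 * (-k) by push_cast; ring, zpow_mul, zpow_neg]
            norm_num
            field_simp
          rw [h2]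
          apply mul_le_mul_of_nonneg_left _ (zpow_nonneg hX0.le _)
          linarith only [h1]
      _ = (∑ k ∈ S with ¬ k ≤ m, (X / 4) ^ k) * r ^ 2 := by rw [Finset.sum_mul]
      _ ≤ ((1 - X / 4)⁻¹ * (X / 4) ^ m) * (4 * 4 ^ m) := by
          have h1 := sum_zpow_le_of_ge (X / 4) (by positivity) (by linarith only [hx2]) m
            (S.filter fun k => ¬ k ≤ m) (fun k hk => by
              have := (Finset.mem_filter.1 hk).2
              omega)
          have h2 : 0 ≤ (1 - X / 4)⁻¹ := inv_nonneg.2 (by linarith only [hx2])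
          exact mul_le_mul h1 hr2 (by positivity) (by (clear * - h2; positivity))
      _ = 4 * (1 - X / 4)⁻¹ * X ^ m := by
          rw [div_zpow]; (clear * - hx1; field_simp)
  have hfin : snow P S r ≤ (8 + 4 * (1 - X / 4)⁻¹) * X ^ m := by
    unfold snow
    rw [← hX, ← hsplit]
    linarith
  refine hfin.trans ?_
  have h2 : 0 ≤ (1 - X / 4)⁻¹ := inv_nonneg.2 (by linarith only [hx2])
  exact mul_le_mul_of_nonneg_left hXm (by (clear * - h2; positivity))

theorem le_snow {P : ℝ} (hP1 : 1 ≤ P) (S : Finset ℤ) (r : ℝ)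
    (hS : ∀ m : ℤ, (2:ℝ) ^ m ≤ |r| → |r| < (2:ℝ) ^ (m + 1) → m ∈ S) :
    (8 / 9 * ((2:ℝ) ^ P)⁻¹) * |r| ^ P ≤ snow P S r := by
  have hP0 : 0 < P := by linarith
  have hX0 : (0:ℝ) < 2 ^ P := by positivity
  have hsnow0 : 0 ≤ snow P S r :=
    Finset.sum_nonneg fun k _ => mul_nonneg (zpow_nonneg hX0.le _) (two_sub_cos_nonneg _)
  rcases eq_or_ne r 0 with h0 | h0
  · subst h0
    simpa only [abs_zero, Real.zero_rpow hP0.ne', mul_zero, ge_iff_le] using hsnow0
  have hr : 0 < |r| := abs_pos.2 h0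
  obtain ⟨m, hm1, hm2⟩ := exists_mem_Ico_zpow hr (one_lt_two : (1:ℝ) < 2)
  have hmS := hS m hm1 hm2
  have h1 : ((2:ℝ) ^ P) ^ m * (2 - 2 * Real.cos ((2:ℝ) ^ (-m) * r)) ≤ snow P S r :=
    Finset.single_le_sum (f := fun k => ((2:ℝ) ^ P) ^ k * (2 - 2 * Real.cos ((2:ℝ) ^ (-k) * r)))
      (fun k _ => mul_nonneg (zpow_nonneg hX0.le _) (two_sub_cos_nonneg _)) hmS
  refine le_trans ?_ h1
  have h2m : (0:ℝ) < 2 ^ m := zpow_pos (by norm_num) _
  have hcos : Real.cos ((2:ℝ) ^ (-m) * r) ≤ 5 / 9 := by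
    rw [← Real.cos_abs, abs_mul, abs_of_pos (zpow_pos (by norm_num) _)]
    have h3 : 1 ≤ (2:ℝ) ^ (-m) * |r| := by
      rw [zpow_neg, ← div_eq_inv_mul, le_div_iff₀ h2m, one_mul]; exact hm1
    have h4 : (2:ℝ) ^ (-m) * |r| ≤ 2 := by
      rw [zpow_neg, ← div_eq_inv_mul, div_le_iff₀ h2m]
      rw [zpow_add_one₀ (by norm_num)] at hm2
      linarith only [hm2]
    refine le_trans ?_ Real.cos_one_le
    exact Real.cos_le_cos_of_nonneg_of_le_pi (by norm_num)
      (by linarith [Real.pi_gt_three]) h3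
  have hrP : |r| ^ P ≤ 2 ^ P * ((2:ℝ) ^ P) ^ m := by
    have h5 : |r| ^ P ≤ ((2:ℝ) ^ (m + 1)) ^ P := Real.rpow_le_rpow hr.le hm2.le hP0.le
    refine h5.trans (le_of_eq ?_)
    rw [← Real.rpow_intCast, ← Real.rpow_intCast, ← Real.rpow_mul (by norm_num),
      ← Real.rpow_mul (by norm_num), ← Real.rpow_add (by norm_num)]
    congr 1; push_cast; ring
  calc 8 / 9 * ((2:ℝ) ^ P)⁻¹ * |r| ^ P ≤ 8 / 9 * ((2:ℝ) ^ P)⁻¹ * (2 ^ P * ((2:ℝ) ^ P) ^ m) :=
        mul_le_mul_of_nonneg_left hrP (by positivity)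
    _ = ((2:ℝ) ^ P) ^ m * (8 / 9) := by (clear * -; field_simp)
    _ ≤ ((2:ℝ) ^ P) ^ m * (2 - 2 * Real.cos ((2:ℝ) ^ (-m) * r)) := by
        apply mul_le_mul_of_nonneg_left _ (by positivity)
        linarith only [hcos]

theorem euclid_reindex {V ι : Type*} [Fintype ι] (φ : V → ι → ℝ) :
    ∃ (M : ℕ) (ψ : V → EuclideanSpace ℝ (Fin M)), ∀ x y,
      ‖ψ x - ψ y‖ ^ 2 = ∑ a, (φ x a - φ y a) ^ 2 := by
  refine ⟨Fintype.card ι, fun x => WithLp.toLp 2 (fun j => φ x ((Fintype.equivFin ι).symm j)),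
    fun x y => ?_⟩
  rw [EuclideanSpace.norm_sq_eq, ← (Fintype.equivFin ι).symm.sum_comp]
  refine Finset.sum_congr rfl fun j _ => ?_
  simp

theorem exists_snowflake (P : ℝ) (hP1 : 1 ≤ P) (hP2 : P ≤ 2) :
    ∃ c₁ C₁ : ℝ, 0 < c₁ ∧ c₁ ≤ C₁ ∧ ∀ {V : Type*} [Fintype V] {N : ℕ} (f : V → Fin N → ℝ),
      ∃ (M : ℕ) (φ : V → EuclideanSpace ℝ (Fin M)), ∀ x y,
        c₁ * ∑ i, |f x i - f y i| ^ P ≤ ‖φ x - φ y‖ ^ 2 ∧
          ‖φ x - φ y‖ ^ 2 ≤ C₁ * ∑ i, |f x i - f y i| ^ P := by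
  classical
  rcases hP2.eq_or_lt with h2 | h2
  · subst h2
    refine ⟨1, 1, one_pos, le_rfl, fun {V} _ {N} f => ?_⟩
    obtain ⟨M, ψ, hψ⟩ := euclid_reindex f
    refine ⟨M, ψ, fun x y => ?_⟩
    rw [hψ, one_mul]
    have : ∀ i, |f x i - f y i| ^ (2:ℝ) = (f x i - f y i) ^ 2 := fun i => by
      rw [Real.rpow_two, sq_abs]
    simp only [this]
    exact ⟨le_rfl, le_rfl⟩
  · have hx2 : (2:ℝ) ^ P < 4 := by
      have := Real.rpow_lt_rpow_of_exponent_lt (by norm_num : (1:ℝ) < 2) h2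
      norm_num at this
      exact this
    have hX0 : (0:ℝ) < 2 ^ P := by positivity
    have hX1 : (1:ℝ) ≤ 2 ^ P := Real.one_le_rpow (by norm_num) (by linarith only [hP1])
    have hinv : 0 ≤ (1 - (2:ℝ) ^ P / 4)⁻¹ := inv_nonneg.2 (by linarith only [hx2])
    refine ⟨8 / 9 * ((2:ℝ) ^ P)⁻¹, 8 + 4 * (1 - (2:ℝ) ^ P / 4)⁻¹, by positivity, ?_, ?_⟩
    · have : ((2:ℝ) ^ P)⁻¹ ≤ 1 := inv_le_one_of_one_le₀ hX1
      linarith only [hinv, this]
    intro V _ N f
    -- the set of scales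
    set S : Finset ℤ := (Finset.univ : Finset (V × V × Fin N)).image
      (fun a => Int.log 2 |f a.1 a.2.2 - f a.2.1 a.2.2|) with hSdef
    have hS : ∀ x y i, ∀ m : ℤ, (2:ℝ) ^ m ≤ |f x i - f y i| → |f x i - f y i| < (2:ℝ) ^ (m + 1) →
        m ∈ S := by
      intro x y i m hm1 hm2
      have hr : 0 < |f x i - f y i| := lt_of_lt_of_le (zpow_pos (by norm_num) _) hm1
      have h3 : m ≤ Int.log 2 |f x i - f y i| :=
        (Int.zpow_le_iff_le_log (by norm_num) hr).1 (by exact_mod_cast hm1)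
      have h4 : Int.log 2 |f x i - f y i| < m + 1 :=
        (Int.lt_zpow_iff_log_lt (by norm_num) hr).1 (by exact_mod_cast hm2)
      have h5 : m = Int.log 2 |f x i - f y i| := by omega
      rw [hSdef, Finset.mem_image]
      exact ⟨(x, y, i), Finset.mem_univ _, h5.symm⟩
    obtain ⟨M, ψ, hψ⟩ := euclid_reindex (V := V) (ι := Fin N × S × Bool)
      (fun x a => Real.sqrt (((2:ℝ) ^ P) ^ (a.2.1 : ℤ)) *
        (if a.2.2 then Real.cos ((2:ℝ) ^ (-(a.2.1 : ℤ)) * f x a.1)
          else Real.sin ((2:ℝ) ^ (-(a.2.1 : ℤ)) * f x a.1)))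
    refine ⟨M, ψ, fun x y => ?_⟩
    have hkey : ‖ψ x - ψ y‖ ^ 2 = ∑ i, snow P S (f x i - f y i) := by
      rw [hψ, Fintype.sum_prod_type]
      refine Finset.sum_congr rfl fun i _ => ?_
      rw [Fintype.sum_prod_type]
      unfold snow
      rw [← Finset.sum_coe_sort S]
      refine Finset.sum_congr rfl fun k _ => ?_
      rw [Fintype.sum_bool]
      simp only [if_true, Bool.false_eq_true, if_false]
      rw [← mul_sub, ← mul_sub, mul_pow, mul_pow, Real.sq_sqrt (zpow_nonneg hX0.le _), ← mul_add]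
      congr 1
      have h1 : (2:ℝ) ^ (-(k:ℤ)) * (f x i - f y i) =
          (2:ℝ) ^ (-(k:ℤ)) * f x i - (2:ℝ) ^ (-(k:ℤ)) * f y i := by ring
      rw [h1, Real.cos_sub]
      have h2 := Real.sin_sq_add_cos_sq ((2:ℝ) ^ (-(k:ℤ)) * f x i)
      have h3 := Real.sin_sq_add_cos_sq ((2:ℝ) ^ (-(k:ℤ)) * f y i)
      nlinarith only [h2, h3]
    rw [hkey]
    constructor
    · rw [Finset.mul_sum]
      exact Finset.sum_le_sum fun i _ => le_snow hP1 S _ (hS x y i)
    · rw [Finset.mul_sum]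
      exact Finset.sum_le_sum fun i _ => snow_le hP1 h2 S _

end Vale.Agent.P249
end
end

section

section

open MeasureTheory
open scoped ENNReal BigOperators RealInnerProductSpace

namespace Vale.Agent.P249

section GaussTV

variable {E : Type*} [NormedAddCommGroup E] [InnerProductSpace ℝ E] [FiniteDimensional ℝ E]
  [MeasurableSpace E] [BorelSpace E]

/-- The standard Gaussian density. -/
noncomputable def gd (g : E) : ℝ := Real.exp (-(‖g‖ ^ 2 / 2)) / ∫ v : E, Real.exp (-(‖v‖ ^ 2 / 2))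

theorem gd_integral_pos : 0 < ∫ v : E, Real.exp (-(‖v‖ ^ 2 / 2)) := by
  have h := GaussianFourier.integral_rexp_neg_mul_sq_norm (V := E) (b := 1 / 2) (by norm_num)
  have h2 : ∫ v : E, Real.exp (-(‖v‖ ^ 2 / 2)) = ∫ v : E, Real.exp (-(1 / 2) * ‖v‖ ^ 2) := by
    congr 1
    ext v
    congr 1
    ring
  rw [h2, h]
  positivity

theorem gd_integrable_exp : Integrable (fun v : E => Real.exp (-(‖v‖ ^ 2 / 2))) := by
  by_contra h
  have := gd_integral_pos (E := E)
  rw [integral_undef h] at this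
  exact lt_irrefl _ this

theorem gd_pos (g : E) : 0 < gd g := div_pos (Real.exp_pos _) gd_integral_pos

theorem gd_integrable : Integrable (gd : E → ℝ) := gd_integrable_exp.div_const _

theorem gd_integral : ∫ g : E, gd g = 1 := by
  unfold gd
  rw [integral_div, div_self gd_integral_pos.ne']

theorem gd_sub (g u : E) : gd (g - u) = gd g * Real.exp (⟪u, g⟫ - ‖u‖ ^ 2 / 2) := by
  unfold gd
  rw [div_mul_eq_mul_div, ← Real.exp_add]
  congr 2
  rw [@norm_sub_sq_real, real_inner_comm]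
  ring

theorem gd_exp (c g : E) :
    gd g * Real.exp ⟪c, g⟫ = Real.exp (‖c‖ ^ 2 / 2) * gd (g - c) := by
  rw [gd_sub, mul_left_comm, ← Real.exp_add]
  congr 2
  ring

theorem gd_exp_integrable (c : E) : Integrable (fun g : E => gd g * Real.exp ⟪c, g⟫) := by
  simp only [gd_exp]
  exact (gd_integrable.comp_sub_right c).const_mul _

theorem gd_exp_integral (c : E) : ∫ g : E, gd g * Real.exp ⟪c, g⟫ = Real.exp (‖c‖ ^ 2 / 2) := by
  simp only [gd_exp]
  rw [integral_const_mul, integral_sub_right_eq_self (fun g => gd g) c, gd_integral, mul_one]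

theorem gd_neg (g : E) : gd (-g) = gd g := by simp [gd]

theorem gd_inner_integrable (v : E) : Integrable (fun g : E => gd g * ⟪v, g⟫) := by
  have h1 := gd_exp_integrable v
  have h2 := gd_exp_integrable (-v)
  refine (h1.add h2).mono' ?_ ?_
  · refine (gd_integrable.aestronglyMeasurable).mul ?_
    exact (continuous_const.inner continuous_id).aestronglyMeasurable
  · refine Filter.Eventually.of_forall fun g => ?_
    have hg := gd_pos g
    simp only [Pi.add_apply, inner_neg_left]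
    rw [norm_mul, Real.norm_of_nonneg hg.le, ← mul_add]
    apply mul_le_mul_of_nonneg_left _ hg.le
    rw [Real.norm_eq_abs, abs_le]
    constructor
    · have h3 := Real.add_one_le_exp (-⟪v, g⟫)
      have h4 := Real.exp_pos ⟪v, g⟫
      linarith
    · have h3 := Real.add_one_le_exp (⟪v, g⟫)
      have h4 := Real.exp_pos (-⟪v, g⟫)
      linarith only [h3, h4]

theorem gd_inner_integral (v : E) : ∫ g : E, gd g * ⟪v, g⟫ = 0 := by
  have h := integral_neg_eq_self (fun g : E => gd g * ⟪v, g⟫) volume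
  simp only [gd_neg, inner_neg_right, mul_neg] at h
  rw [integral_neg] at h
  linarith

theorem gd_tv (u : E) : ∫ g : E, |gd g - gd (g - u)| ≤ 2 * ‖u‖ := by
  have hint : Integrable (fun g : E => |gd g - gd (g - u)|) :=
    (gd_integrable.sub (gd_integrable.comp_sub_right u)).abs
  rcases le_or_gt 1 ‖u‖ with hu | hu
  · calc ∫ g : E, |gd g - gd (g - u)| ≤ ∫ g : E, (gd g + gd (g - u)) := by
          apply integral_mono hint (gd_integrable.add (gd_integrable.comp_sub_right u))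
          intro g
          have h1 := gd_pos g
          have h2 := gd_pos (g - u)
          simp only [Pi.add_apply]
          rw [abs_le]
          constructor <;> linarith
      _ = 2 := by
          rw [integral_add gd_integrable (gd_integrable.comp_sub_right u),
            integral_sub_right_eq_self (fun g => gd g) u, gd_integral]
          norm_num
      _ ≤ 2 * ‖u‖ := by linarith
  · rcases eq_or_ne u 0 with rfl | hu0
    · simp
    · have hn : 0 < ‖u‖ := norm_pos_iff.2 hu0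
      have hi2 : Integrable (fun g : E => Real.exp (-‖u‖ ^ 2) * (gd g * Real.exp ⟪(2 : ℝ) • u, g⟫)) :=
        (gd_exp_integrable _).const_mul _
      have hpt : ∀ g : E, |gd g - gd (g - u)| ≤ (‖u‖ / 2) * gd g + (1 / (2 * ‖u‖)) *
          ((gd g - 2 * gd (g - u)) + Real.exp (-‖u‖ ^ 2) * (gd g * Real.exp ⟪(2 : ℝ) • u, g⟫)) := by
        intro g
        have hg := gd_pos g
        set r := Real.exp (⟪u, g⟫ - ‖u‖ ^ 2 / 2) with hr
        have h1 : gd (g - u) = gd g * r := gd_sub g u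
        have h2 : Real.exp (-‖u‖ ^ 2) * (gd g * Real.exp ⟪(2 : ℝ) • u, g⟫) = gd g * r ^ 2 := by
          rw [mul_left_comm, ← Real.exp_add, hr, ← Real.exp_nat_mul]
          congr 2
          rw [real_inner_smul_left]
          push_cast
          ring
        rw [h1, h2]
        have h3 : |gd g - gd g * r| = gd g * |1 - r| := by
          rw [← abs_of_pos hg, ← abs_mul, abs_of_pos hg]
          congr 1
          ring
        rw [h3]
        have h4 : |1 - r| ≤ ‖u‖ / 2 + (1 / (2 * ‖u‖)) * (1 - r) ^ 2 := by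
          have h5 : 0 ≤ (‖u‖ - |1 - r|) ^ 2 := sq_nonneg _
          have h6 : |1 - r| ^ 2 = (1 - r) ^ 2 := sq_abs _
          have h7 : ‖u‖ / 2 + (1 / (2 * ‖u‖)) * (1 - r) ^ 2 - |1 - r| =
              (‖u‖ - |1 - r|) ^ 2 / (2 * ‖u‖) := by
            rw [← h6]
            field_simp
            ring
          have h8 : 0 ≤ (‖u‖ - |1 - r|) ^ 2 / (2 * ‖u‖) := by (clear * - hu0; positivity)
          linarith only [h7, h8]
        calc gd g * |1 - r| ≤ gd g * (‖u‖ / 2 + (1 / (2 * ‖u‖)) * (1 - r) ^ 2) :=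
              mul_le_mul_of_nonneg_left h4 hg.le
          _ = _ := by ring
      have hI : Integrable (fun g : E => (‖u‖ / 2) * gd g + (1 / (2 * ‖u‖)) *
          ((gd g - 2 * gd (g - u)) +
            Real.exp (-‖u‖ ^ 2) * (gd g * Real.exp ⟪(2 : ℝ) • u, g⟫))) := by
        refine (gd_integrable.const_mul _).add (Integrable.const_mul ?_ _)
        exact (gd_integrable.sub ((gd_integrable.comp_sub_right u).const_mul 2)).add hi2
      refine (integral_mono hint hI hpt).trans ?_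
      have hval : ∫ g : E, ((‖u‖ / 2) * gd g + (1 / (2 * ‖u‖)) *
          ((gd g - 2 * gd (g - u)) +
            Real.exp (-‖u‖ ^ 2) * (gd g * Real.exp ⟪(2 : ℝ) • u, g⟫))) =
          ‖u‖ / 2 + (1 / (2 * ‖u‖)) * (Real.exp (‖u‖ ^ 2) - 1) := by
        rw [integral_add (gd_integrable.const_mul _), integral_const_mul, gd_integral,
          integral_const_mul, integral_add, integral_sub gd_integrable, integral_const_mul,
          integral_sub_right_eq_self (fun g => gd g) u, gd_integral, integral_const_mul,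
          gd_exp_integral, ← Real.exp_add, norm_smul]
        · have : -‖u‖ ^ 2 + (‖(2 : ℝ)‖ * ‖u‖) ^ 2 / 2 = ‖u‖ ^ 2 := by
            rw [Real.norm_of_nonneg (by norm_num)]
            ring
          rw [this]
          ring
        · exact (gd_integrable.comp_sub_right u).const_mul 2
        · exact gd_integrable.sub ((gd_integrable.comp_sub_right u).const_mul 2)
        · exact hi2
        · refine Integrable.const_mul ?_ _
          exact (gd_integrable.sub ((gd_integrable.comp_sub_right u).const_mul 2)).add hi2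
      rw [hval]
      have hexp : Real.exp (‖u‖ ^ 2) - 1 ≤ 3 * ‖u‖ ^ 2 := by
        have h0 : 0 ≤ ‖u‖ ^ 2 := sq_nonneg _
        have h1 : ‖u‖ ^ 2 ≤ 1 := by nlinarith only [hu, hn]
        have h2 := Real.abs_exp_sub_one_le (x := ‖u‖ ^ 2) (by rw [abs_of_nonneg h0]; exact h1)
        rw [abs_of_nonneg h0] at h2
        have := le_abs_self (Real.exp (‖u‖ ^ 2) - 1)
        linarith only [h0, h2, this]
      have h9 : (1 / (2 * ‖u‖)) * (Real.exp (‖u‖ ^ 2) - 1) ≤ (1 / (2 * ‖u‖)) * (3 * ‖u‖ ^ 2) :=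
        mul_le_mul_of_nonneg_left hexp (by positivity)
      have h10 : (1 / (2 * ‖u‖)) * (3 * ‖u‖ ^ 2) = 3 / 2 * ‖u‖ := by
        field_simp
      linarith only [h9, h10]

end GaussTV

section Kernel

variable {V : Type*} [Fintype V] [Nonempty V] {E : Type*} [NormedAddCommGroup E]
  [InnerProductSpace ℝ E] [FiniteDimensional ℝ E] [MeasurableSpace E] [BorelSpace E]

/-- Softmax weights. -/
noncomputable def smax (β : ℝ) (φ : V → E) (y : V) (z : E) : ℝ :=
  Real.exp (-(β * ‖z - φ y‖ ^ 2)) / ∑ y', Real.exp (-(β * ‖z - φ y'‖ ^ 2))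

theorem smax_den_pos (β : ℝ) (φ : V → E) (z : E) :
    0 < ∑ y', Real.exp (-(β * ‖z - φ y'‖ ^ 2)) :=
  Finset.sum_pos (fun _ _ => Real.exp_pos _) Finset.univ_nonempty

theorem smax_pos (β : ℝ) (φ : V → E) (y : V) (z : E) : 0 < smax β φ y z :=
  div_pos (Real.exp_pos _) (smax_den_pos β φ z)

theorem smax_sum (β : ℝ) (φ : V → E) (z : E) : ∑ y, smax β φ y z = 1 := by
  unfold smax
  rw [← Finset.sum_div, div_self (smax_den_pos β φ z).ne']

theorem smax_le_one (β : ℝ) (φ : V → E) (y : V) (z : E) : smax β φ y z ≤ 1 := by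
  rw [← smax_sum β φ z]
  exact Finset.single_le_sum (f := fun y => smax β φ y z) (fun y _ => (smax_pos β φ y z).le)
    (Finset.mem_univ y)

theorem smax_continuous (β : ℝ) (φ : V → E) (y : V) : Continuous (smax β φ y) := by
  unfold smax
  apply Continuous.div
  · (clear * -; fun_prop)
  · fun_prop
  · intro z
    exact (smax_den_pos β φ z).ne'

/-- The Gaussian softmax kernel. -/
noncomputable def gker (β s : ℝ) (φ : V → E) (x y : V) : ℝ :=
  ∫ g : E, smax β φ y (φ x + s • g) * gd g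

theorem gker_integrable (β s : ℝ) (φ : V → E) (x y : V) :
    Integrable (fun g : E => smax β φ y (φ x + s • g) * gd g) := by
  refine gd_integrable.mono' ?_ ?_
  · refine AEStronglyMeasurable.mul ?_ gd_integrable.aestronglyMeasurable
    apply Continuous.aestronglyMeasurable
    have := smax_continuous β φ y
    fun_prop
  · refine Filter.Eventually.of_forall fun g => ?_
    have h1 := smax_pos β φ y (φ x + s • g)
    have h2 := smax_le_one β φ y (φ x + s • g)
    have h3 := gd_pos g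
    rw [Real.norm_of_nonneg (mul_pos h1 h3).le]
    nlinarith

theorem gker_isStoch (β s : ℝ) (φ : V → E) : IsStoch (gker β s φ) := by
  constructor
  · intro x y
    apply integral_nonneg
    intro g
    exact (mul_pos (smax_pos β φ y _) (gd_pos g)).le
  · intro x
    unfold gker
    rw [← integral_finset_sum _ (fun y _ => gker_integrable β s φ x y)]
    simp only [← Finset.sum_mul, smax_sum, one_mul, gd_integral]

theorem gker_tv (β s : ℝ) (hs : 0 < s) (φ : V → E) (x x' : V) :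
    ∑ y, |gker β s φ x y - gker β s φ x' y| ≤ 2 * ‖φ x - φ x'‖ / s := by
  set u : E := s⁻¹ • (φ x' - φ x) with hu
  have hx' : ∀ g : E, φ x' + s • g = φ x + s • (g + u) := by
    intro g
    rw [smul_add, hu, smul_smul, mul_inv_cancel₀ hs.ne', one_smul]
    abel
  have h1 : ∀ y, gker β s φ x' y = ∫ g : E, smax β φ y (φ x + s • g) * gd (g - u) := by
    intro y
    unfold gker
    simp only [hx']
    rw [← integral_add_right_eq_self (fun g : E => smax β φ y (φ x + s • g) * gd (g - u)) u]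
    simp
  have hint : ∀ y, Integrable (fun g : E => smax β φ y (φ x + s • g) * gd (g - u)) := by
    intro y
    refine (gd_integrable.comp_sub_right u).mono' ?_ ?_
    · refine AEStronglyMeasurable.mul ?_ (gd_integrable.comp_sub_right u).aestronglyMeasurable
      apply Continuous.aestronglyMeasurable
      have := smax_continuous β φ y
      fun_prop
    · refine Filter.Eventually.of_forall fun g => ?_
      have h1 := smax_pos β φ y (φ x + s • g)
      have h2 := smax_le_one β φ y (φ x + s • g)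
      have h3 := gd_pos (g - u)
      rw [Real.norm_of_nonneg (mul_pos h1 h3).le]
      nlinarith
  have h2 : ∀ y, gker β s φ x y - gker β s φ x' y =
      ∫ g : E, smax β φ y (φ x + s • g) * (gd g - gd (g - u)) := by
    intro y
    rw [h1, gker, ← integral_sub (gker_integrable β s φ x y) (hint y)]
    simp only [mul_sub]
  have hint2 : ∀ y, Integrable (fun g : E =>
      smax β φ y (φ x + s • g) * |gd g - gd (g - u)|) := by
    intro y
    have h := ((gker_integrable β s φ x y).sub (hint y)).abs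
    refine h.congr (Filter.Eventually.of_forall fun g => ?_)
    simp only [Pi.sub_apply]
    rw [← mul_sub, abs_mul, abs_of_pos (smax_pos β φ y _)]
  calc ∑ y, |gker β s φ x y - gker β s φ x' y|
      ≤ ∑ y, ∫ g : E, smax β φ y (φ x + s • g) * |gd g - gd (g - u)| := by
        refine Finset.sum_le_sum fun y _ => ?_
        rw [h2]
        refine (abs_integral_le_integral_abs).trans (le_of_eq ?_)
        congr 1
        ext g
        rw [abs_mul, abs_of_pos (smax_pos β φ y _)]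
    _ = ∫ g : E, |gd g - gd (g - u)| := by
        rw [← integral_finset_sum _ (fun y _ => hint2 y)]
        simp only [← Finset.sum_mul, smax_sum, one_mul]
    _ ≤ 2 * ‖u‖ := gd_tv u
    _ = 2 * ‖φ x - φ x'‖ / s := by
        rw [hu, norm_smul, norm_inv, Real.norm_of_nonneg hs.le, norm_sub_rev]
        field_simp

end Kernel

end Vale.Agent.P249
end
end

section

section

open MeasureTheory
open scoped ENNReal BigOperators RealInnerProductSpace

namespace Vale.Agent.P249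

section Moment

variable {V : Type*} [Fintype V] [Nonempty V] {E : Type*} [NormedAddCommGroup E]
  [InnerProductSpace ℝ E]

theorem smax_eq (β s : ℝ) (φ : V → E) (x y : V) (g : E) :
    smax β φ y (φ x + s • g) =
      Real.exp (-(β * ‖φ x - φ y‖ ^ 2) + ⟪(2 * β * s) • (φ y - φ x), g⟫) /
        ∑ y', Real.exp (-(β * ‖φ x - φ y'‖ ^ 2) + ⟪(2 * β * s) • (φ y' - φ x), g⟫) := by
  have h : ∀ y', Real.exp (-(β * ‖φ x + s • g - φ y'‖ ^ 2)) =
      Real.exp (-(β * (s ^ 2 * ‖g‖ ^ 2))) *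
        Real.exp (-(β * ‖φ x - φ y'‖ ^ 2) + ⟪(2 * β * s) • (φ y' - φ x), g⟫) := by
    intro y'
    rw [← Real.exp_add]
    congr 1
    have h1 : φ x + s • g - φ y' = s • g - (φ y' - φ x) := by abel
    rw [h1, @norm_sub_sq_real, norm_smul, real_inner_smul_left, real_inner_smul_left,
      norm_sub_rev (φ y') (φ x), mul_pow, Real.norm_eq_abs, sq_abs, real_inner_comm g]
    ring
  unfold smax
  simp only [h]
  rw [← Finset.mul_sum, mul_div_mul_left _ _ (Real.exp_pos _).ne']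

theorem jensen_exp (w t : V → ℝ) (hw : ∀ y, 0 ≤ w y) (hw1 : ∑ y, w y = 1) :
    Real.exp (∑ y, w y * t y) ≤ ∑ y, w y * Real.exp (t y) := by
  have := convexOn_exp.map_sum_le (t := Finset.univ) (w := w) (p := t) (fun i _ => hw i) hw1
    (fun _ _ => Set.mem_univ _)
  simpa only [ge_iff_le, smul_eq_mul] using this

theorem moment_pointwise (β s : ℝ) (φ : V → E) (x : V) (g : E) (A : ℝ) (hA : 0 < A) :
    (β / 2) * ∑ y, smax β φ y (φ x + s • g) * ‖φ x - φ y‖ ^ 2 ≤
      (Real.log A + (∑ y, Real.exp (-(β / 2 * ‖φ x - φ y‖ ^ 2)) *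
          Real.exp ⟪(2 * β * s) • (φ y - φ x), g⟫) / A - 1) -
        (Real.log (Zf β (fun x y => ‖φ x - φ y‖ ^ 2) x) +
          ∑ y, Real.exp (-(β * ‖φ x - φ y‖ ^ 2)) / Zf β (fun x y => ‖φ x - φ y‖ ^ 2) x *
            ⟪(2 * β * s) • (φ y - φ x), g⟫) := by
  set t : V → ℝ := fun y => ⟪(2 * β * s) • (φ y - φ x), g⟫ with ht
  set d : V → ℝ := fun y => ‖φ x - φ y‖ ^ 2 with hd
  set S := ∑ y, Real.exp (-(β * d y) + t y) with hS
  set F := ∑ y, Real.exp (-(β / 2 * d y)) * Real.exp (t y) with hF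
  have hS0 : 0 < S := Finset.sum_pos (fun _ _ => Real.exp_pos _) Finset.univ_nonempty
  have hF0 : 0 < F := Finset.sum_pos (fun _ _ => mul_pos (Real.exp_pos _) (Real.exp_pos _))
    Finset.univ_nonempty
  have hZ0 : 0 < Zf β (fun x y => ‖φ x - φ y‖ ^ 2) x := Zf_pos _ _ _
  set Z := Zf β (fun x y => ‖φ x - φ y‖ ^ 2) x with hZ
  have hq : ∀ y, smax β φ y (φ x + s • g) = Real.exp (-(β * d y) + t y) / S :=
    fun y => smax_eq β s φ x y g
  simp only [hq]
  -- first Jensen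
  have h1 : (β / 2) * ∑ y, Real.exp (-(β * d y) + t y) / S * d y ≤ Real.log F - Real.log S := by
    rw [← Real.log_div hF0.ne' hS0.ne']
    rw [Real.le_log_iff_exp_le (div_pos hF0 hS0)]
    have hj := jensen_exp (fun y => Real.exp (-(β * d y) + t y) / S) (fun y => β / 2 * d y)
      (fun y => (div_pos (Real.exp_pos _) hS0).le) (by
        rw [← Finset.sum_div, ← hS, div_self hS0.ne'])
    have e1 : (β / 2) * ∑ y, Real.exp (-(β * d y) + t y) / S * d y =
        ∑ y, Real.exp (-(β * d y) + t y) / S * (β / 2 * d y) := by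
      rw [Finset.mul_sum]
      exact Finset.sum_congr rfl fun y _ => by ring
    have e2 : F / S = ∑ y, Real.exp (-(β * d y) + t y) / S * Real.exp (β / 2 * d y) := by
      rw [hF, Finset.sum_div]
      refine Finset.sum_congr rfl fun y _ => ?_
      have e5 : Real.exp (-(β * d y) + t y) / S * Real.exp (β / 2 * d y) =
          Real.exp (-(β * d y) + t y) * Real.exp (β / 2 * d y) / S := by ring
      rw [e5, ← Real.exp_add, ← Real.exp_add]
      congr 2
      ring
    rw [e1, e2]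
    exact hj
  have h2 : Real.log F ≤ Real.log A + F / A - 1 := by
    have := Real.log_le_sub_one_of_pos (div_pos hF0 hA)
    rw [Real.log_div hF0.ne' hA.ne'] at this
    linarith only [this]
  have h3 : Real.log Z + ∑ y, Real.exp (-(β * d y)) / Z * t y ≤ Real.log S := by
    have e3 : Z = ∑ y, Real.exp (-(β * d y)) := rfl
    have hj := jensen_exp (fun y => Real.exp (-(β * d y)) / Z) t
      (fun y => (div_pos (Real.exp_pos _) hZ0).le) (by
        rw [← Finset.sum_div, ← e3, div_self hZ0.ne'])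
    have e4 : ∑ y, Real.exp (-(β * d y)) / Z * Real.exp (t y) = S / Z := by
      rw [hS, Finset.sum_div]
      refine Finset.sum_congr rfl fun y _ => ?_
      rw [div_mul_eq_mul_div, ← Real.exp_add]
    rw [e4, ← Real.le_log_iff_exp_le (div_pos hS0 hZ0), Real.log_div hS0.ne' hZ0.ne'] at hj
    linarith only [hj]
  linarith

end Moment

section Moment2

variable {V : Type*} [Fintype V] [Nonempty V] {E : Type*} [NormedAddCommGroup E]
  [InnerProductSpace ℝ E] [FiniteDimensional ℝ E] [MeasurableSpace E] [BorelSpace E]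

theorem gker_moment (s : ℝ) (hs : 0 < s) (φ : V → E) (x : V) :
    ∑ y, gker (1 / (8 * s ^ 2)) s φ x y * ‖φ x - φ y‖ ^ 2 ≤ 16 * s ^ 2 *
        (Real.log (Zf (1 / (32 * s ^ 2)) (fun x y => ‖φ x - φ y‖ ^ 2) x) -
          Real.log (Zf (1 / (8 * s ^ 2)) (fun x y => ‖φ x - φ y‖ ^ 2) x)) := by
  set β : ℝ := 1 / (8 * s ^ 2) with hβ
  have hβ0 : 0 < β := by positivity
  set A := Zf (1 / (32 * s ^ 2)) (fun x y => ‖φ x - φ y‖ ^ 2) x with hA
  have hA0 : 0 < A := Zf_pos _ _ _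
  set Z := Zf β (fun x y => ‖φ x - φ y‖ ^ 2) x with hZ
  set v : V → E := fun y => (2 * β * s) • (φ y - φ x) with hv
  -- integrate the pointwise bound against the Gaussian density
  have hL : ∫ g : E, gd g * ((β / 2) * ∑ y, smax β φ y (φ x + s • g) * ‖φ x - φ y‖ ^ 2) =
      (β / 2) * ∑ y, gker β s φ x y * ‖φ x - φ y‖ ^ 2 := by
    have e1 : ∀ g : E, gd g * ((β / 2) * ∑ y, smax β φ y (φ x + s • g) * ‖φ x - φ y‖ ^ 2) =
        ∑ y, ((β / 2) * ‖φ x - φ y‖ ^ 2) * (smax β φ y (φ x + s • g) * gd g) := by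
      intro g
      rw [Finset.mul_sum, Finset.mul_sum]
      exact Finset.sum_congr rfl fun y _ => by ring
    simp only [e1]
    rw [integral_finsetSum _ (fun y _ => (gker_integrable β s φ x y).const_mul _), Finset.mul_sum]
    refine Finset.sum_congr rfl fun y _ => ?_
    rw [integral_const_mul, gker]
    ring
  have hLi : Integrable (fun g : E =>
      gd g * ((β / 2) * ∑ y, smax β φ y (φ x + s • g) * ‖φ x - φ y‖ ^ 2)) := by
    have e1 : ∀ g : E, gd g * ((β / 2) * ∑ y, smax β φ y (φ x + s • g) * ‖φ x - φ y‖ ^ 2) =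
        ∑ y, ((β / 2) * ‖φ x - φ y‖ ^ 2) * (smax β φ y (φ x + s • g) * gd g) := by
      intro g
      rw [Finset.mul_sum, Finset.mul_sum]
      exact Finset.sum_congr rfl fun y _ => by ring
    simp only [e1]
    exact integrable_finsetSum _ fun y _ => (gker_integrable β s φ x y).const_mul _
  have hF : ∀ y, ∫ g : E, gd g * Real.exp ⟪v y, g⟫ =
      Real.exp (β / 4 * ‖φ x - φ y‖ ^ 2) := by
    intro y
    rw [gd_exp_integral]
    congr 1
    simp only [hv]
    rw [norm_smul, norm_sub_rev (φ y) (φ x), mul_pow, Real.norm_eq_abs, sq_abs]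
    have : (2 * β * s) ^ 2 / 2 = β / 4 := by
      rw [hβ]
      field_simp
      norm_num
    rw [mul_div_right_comm, this]
  have hRi : Integrable (fun g : E => gd g * ((Real.log A +
      (∑ y, Real.exp (-(β / 2 * ‖φ x - φ y‖ ^ 2)) * Real.exp ⟪v y, g⟫) / A - 1) -
        (Real.log Z + ∑ y, Real.exp (-(β * ‖φ x - φ y‖ ^ 2)) / Z * ⟪v y, g⟫))) := by
    have e2 : ∀ g : E, gd g * ((Real.log A +
      (∑ y, Real.exp (-(β / 2 * ‖φ x - φ y‖ ^ 2)) * Real.exp ⟪v y, g⟫) / A - 1) -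
        (Real.log Z + ∑ y, Real.exp (-(β * ‖φ x - φ y‖ ^ 2)) / Z * ⟪v y, g⟫)) =
        (Real.log A - 1 - Real.log Z) * gd g +
          (∑ y, (Real.exp (-(β / 2 * ‖φ x - φ y‖ ^ 2)) / A) * (gd g * Real.exp ⟪v y, g⟫) -
            ∑ y, (Real.exp (-(β * ‖φ x - φ y‖ ^ 2)) / Z) * (gd g * ⟪v y, g⟫)) := by
      intro g
      have e3 : ∑ y, (Real.exp (-(β / 2 * ‖φ x - φ y‖ ^ 2)) / A) * (gd g * Real.exp ⟪v y, g⟫) =
          gd g * ((∑ y, Real.exp (-(β / 2 * ‖φ x - φ y‖ ^ 2)) * Real.exp ⟪v y, g⟫) / A) := by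
        rw [Finset.sum_div, Finset.mul_sum]
        exact Finset.sum_congr rfl fun y _ => by ring
      have e4 : ∑ y, (Real.exp (-(β * ‖φ x - φ y‖ ^ 2)) / Z) * (gd g * ⟪v y, g⟫) =
          gd g * ∑ y, Real.exp (-(β * ‖φ x - φ y‖ ^ 2)) / Z * ⟪v y, g⟫ := by
        rw [Finset.mul_sum]
        exact Finset.sum_congr rfl fun y _ => by ring
      rw [e3, e4]
      ring
    simp only [e2]
    refine (gd_integrable.const_mul _).add (Integrable.sub ?_ ?_)
    · exact integrable_finsetSum _ fun y _ => (gd_exp_integrable _).const_mul _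
    · exact integrable_finsetSum _ fun y _ => (gd_inner_integrable _).const_mul _
  have hR : ∫ g : E, gd g * ((Real.log A +
      (∑ y, Real.exp (-(β / 2 * ‖φ x - φ y‖ ^ 2)) * Real.exp ⟪v y, g⟫) / A - 1) -
        (Real.log Z + ∑ y, Real.exp (-(β * ‖φ x - φ y‖ ^ 2)) / Z * ⟪v y, g⟫)) =
        Real.log A - Real.log Z := by
    have e2 : ∀ g : E, gd g * ((Real.log A +
      (∑ y, Real.exp (-(β / 2 * ‖φ x - φ y‖ ^ 2)) * Real.exp ⟪v y, g⟫) / A - 1) -
        (Real.log Z + ∑ y, Real.exp (-(β * ‖φ x - φ y‖ ^ 2)) / Z * ⟪v y, g⟫)) =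
        (Real.log A - 1 - Real.log Z) * gd g +
          (∑ y, (Real.exp (-(β / 2 * ‖φ x - φ y‖ ^ 2)) / A) * (gd g * Real.exp ⟪v y, g⟫) -
            ∑ y, (Real.exp (-(β * ‖φ x - φ y‖ ^ 2)) / Z) * (gd g * ⟪v y, g⟫)) := by
      intro g
      have e3 : ∑ y, (Real.exp (-(β / 2 * ‖φ x - φ y‖ ^ 2)) / A) * (gd g * Real.exp ⟪v y, g⟫) =
          gd g * ((∑ y, Real.exp (-(β / 2 * ‖φ x - φ y‖ ^ 2)) * Real.exp ⟪v y, g⟫) / A) := by
        rw [Finset.sum_div, Finset.mul_sum]
        exact Finset.sum_congr rfl fun y _ => by ring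
      have e4 : ∑ y, (Real.exp (-(β * ‖φ x - φ y‖ ^ 2)) / Z) * (gd g * ⟪v y, g⟫) =
          gd g * ∑ y, Real.exp (-(β * ‖φ x - φ y‖ ^ 2)) / Z * ⟪v y, g⟫ := by
        rw [Finset.mul_sum]
        exact Finset.sum_congr rfl fun y _ => by ring
      rw [e3, e4]
      ring
    simp only [e2]
    rw [integral_add (gd_integrable.const_mul _), integral_const_mul, gd_integral,
      integral_sub, integral_finsetSum _ (fun y _ => (gd_exp_integrable _).const_mul _),
      integral_finsetSum _ (fun y _ => (gd_inner_integrable _).const_mul _)]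
    · have e5 : ∑ y, ∫ g : E, (Real.exp (-(β / 2 * ‖φ x - φ y‖ ^ 2)) / A) *
          (gd g * Real.exp ⟪v y, g⟫) = 1 := by
        have e6 : ∀ y, ∫ g : E, (Real.exp (-(β / 2 * ‖φ x - φ y‖ ^ 2)) / A) *
          (gd g * Real.exp ⟪v y, g⟫) = Real.exp (-(1 / (32 * s ^ 2) * ‖φ x - φ y‖ ^ 2)) / A := by
          intro y
          rw [integral_const_mul, hF, div_mul_eq_mul_div, ← Real.exp_add]
          congr 2
          rw [hβ]
          field_simp
          ring
        simp only [e6]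
        rw [← Finset.sum_div]
        have : ∑ y, Real.exp (-(1 / (32 * s ^ 2) * ‖φ x - φ y‖ ^ 2)) = A := rfl
        rw [this, div_self hA0.ne']
      have e7 : ∑ y, ∫ g : E, (Real.exp (-(β * ‖φ x - φ y‖ ^ 2)) / Z) * (gd g * ⟪v y, g⟫) = 0 := by
        refine Finset.sum_eq_zero fun y _ => ?_
        rw [integral_const_mul, gd_inner_integral, mul_zero]
      rw [e5, e7]
      ring
    · exact integrable_finsetSum _ fun y _ => (gd_exp_integrable _).const_mul _
    · exact integrable_finsetSum _ fun y _ => (gd_inner_integrable _).const_mul _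
    · exact Integrable.sub
        (integrable_finsetSum _ fun y _ => (gd_exp_integrable _).const_mul _)
        (integrable_finsetSum _ fun y _ => (gd_inner_integrable _).const_mul _)
  have hmono := integral_mono hLi hRi (fun g => mul_le_mul_of_nonneg_left
    (moment_pointwise β s φ x g A hA0) (gd_pos g).le)
  rw [hL, hR] at hmono
  have h16 : 16 * s ^ 2 = 2 / β := by
    rw [hβ]
    field_simp
    norm_num
  rw [h16, div_mul_eq_mul_div, le_div_iff₀ hβ0]
  linarith

end Moment2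

theorem gaussian_kernel {V : Type*} [Fintype V] [Nonempty V] {M : ℕ}
    (φ : V → EuclideanSpace ℝ (Fin M)) (s : ℝ) (hs : 0 < s) :
    ∃ K : V → V → ℝ, IsStoch K ∧
      (∀ x x', ∑ y, |K x y - K x' y| ≤ 2 * ‖φ x - φ x'‖ / s) ∧
      ∀ x, ∑ y, K x y * ‖φ x - φ y‖ ^ 2 ≤ 16 * s ^ 2 *
        (Real.log (Zf (1 / (32 * s ^ 2)) (fun x y => ‖φ x - φ y‖ ^ 2) x) -
          Real.log (Zf (1 / (8 * s ^ 2)) (fun x y => ‖φ x - φ y‖ ^ 2) x)) :=
  ⟨gker (1 / (8 * s ^ 2)) s φ, gker_isStoch _ _ _, gker_tv _ _ hs _, gker_moment s hs φ⟩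

end Vale.Agent.P249
end
end

section

section

open scoped ENNReal BigOperators

namespace Vale.Agent.P249

/-- Kernels from a two-sided snowflake map at all dyadic scales. -/
theorem hasKernels_of_snowflake (P : ℝ) (hP1 : 1 ≤ P) (c₁ C₁ : ℝ) (hc₁ : 0 < c₁) (hC₁ : 0 < C₁)
    {V : Type*} [Fintype V] [Nonempty V] {N : ℕ} (f : V → Fin N → ℝ)
    {M : ℕ} (φ : V → EuclideanSpace ℝ (Fin M))
    (hφ : ∀ x y, c₁ * lpd P f x y ^ P ≤ ‖φ x - φ y‖ ^ 2 ∧
      ‖φ x - φ y‖ ^ 2 ≤ C₁ * lpd P f x y ^ P)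
    (hG : ∀ s : ℝ, 0 < s → ∃ K : V → V → ℝ, IsStoch K ∧
      (∀ x x', ∑ y, |K x y - K x' y| ≤ 2 * ‖φ x - φ x'‖ / s) ∧
      ∀ x, ∑ y, K x y * ‖φ x - φ y‖ ^ 2 ≤ 16 * s ^ 2 *
        (Real.log (Zf (1 / (32 * s ^ 2)) (fun x y => ‖φ x - φ y‖ ^ 2) x) -
          Real.log (Zf (1 / (8 * s ^ 2)) (fun x y => ‖φ x - φ y‖ ^ 2) x))) :
    HasKernels P (lpd P f) (512 * C₁ / c₁ * Real.log (Fintype.card V)) := by
  intro J
  have hP0 : 0 < P := by linarith only [hP1]
  set t : ℤ → ℝ := fun j => ((2 : ℝ) ^ j) ^ P with ht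
  have ht0 : ∀ j, 0 < t j := fun j => Real.rpow_pos_of_pos (zpow_pos (by norm_num) j) P
  have htmul : ∀ j, 4 * t j ≤ t (j + 2) := by
    intro j
    have h1 : (2 : ℝ) ^ (j + 2) = (2 : ℝ) ^ j * 4 := by
      rw [zpow_add₀ (by norm_num)]
      norm_num
    have h2 : t (j + 2) = t j * (4 : ℝ) ^ P := by
      simp only [ht]
      rw [h1, Real.mul_rpow (zpow_pos (by norm_num) j).le (by norm_num)]
    rw [h2]
    have h3 : (4 : ℝ) ≤ (4 : ℝ) ^ P := by
      calc (4 : ℝ) = (4 : ℝ) ^ (1 : ℝ) := by rw [Real.rpow_one]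
        _ ≤ (4 : ℝ) ^ P := Real.rpow_le_rpow_of_exponent_le (by norm_num) hP1
    nlinarith only [ht0 j, ht0, h3]
  have htmono : Monotone t := by
    intro i j hij
    exact Real.rpow_le_rpow (zpow_pos (by norm_num) i).le
      (zpow_le_zpow_right₀ (by norm_num) hij) hP0.le
  set s : ℤ → ℝ := fun j => 4 * Real.sqrt (C₁ * t j) with hs
  have hs0 : ∀ j, 0 < s j := fun j =>
    mul_pos (by norm_num) (Real.sqrt_pos.2 (mul_pos hC₁ (ht0 j)))
  have hssq : ∀ j, s j ^ 2 = 16 * (C₁ * t j) := by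
    intro j
    simp only [hs]
    rw [mul_pow, Real.sq_sqrt (mul_pos hC₁ (ht0 j)).le]
    norm_num
  choose K hK1 hK2 hK3 using fun j => hG (s j) (hs0 j)
  refine ⟨K, hK1, ?_, ?_⟩
  · intro j _ x x' hxx
    refine (hK2 j x x').trans ?_
    have h1 : ‖φ x - φ x'‖ ≤ Real.sqrt (C₁ * t j) := by
      apply Real.le_sqrt_of_sq_le
      refine (hφ x x').2.trans ?_
      have : lpd P f x x' ^ P ≤ t j :=
        Real.rpow_le_rpow (lpd_nonneg f x x') hxx hP0.le
      exact mul_le_mul_of_nonneg_left this hC₁.le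
    rw [div_le_iff₀ (hs0 j)]
    simp only [hs]
    linarith only [h1]
  · intro x
    set δ : V → V → ℝ := fun x y => ‖φ x - φ y‖ ^ 2 with hδ
    have hδ0 : ∀ y, 0 ≤ δ x y := fun y => sq_nonneg _
    have hδx : δ x x = 0 := by simp [hδ]
    set b : ℤ → ℝ := fun j => 1 / (8 * s j ^ 2) with hb
    have hb0 : ∀ j, 0 < b j := fun j => by
      have := hs0 j
      simp only [hb]; positivity
    set L : ℤ → ℝ := fun j => Real.log (Zf (b j) δ x) with hL
    have hbanti : ∀ i j, i ≤ j → b j ≤ b i := by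
      intro i j hij
      simp only [hb]
      apply one_div_le_one_div_of_le (by have := hs0 i; positivity)
      rw [hssq, hssq]
      have := mul_le_mul_of_nonneg_left (htmono hij) hC₁.le
      linarith only [this]
    have hLmono : Monotone L := by
      intro i j hij
      exact Real.log_le_log (Zf_pos δ _ x) (Zf_anti δ (hbanti i j hij) x hδ0)
    have hL0 : ∀ j, 0 ≤ L j := fun j => Real.log_nonneg (one_le_Zf δ _ x hδx)
    have hLB : ∀ j, L j ≤ Real.log (Fintype.card V) := fun j =>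
      Real.log_le_log (Zf_pos δ _ x) (Zf_le_card δ _ (hb0 j).le x hδ0)
    have htel := sum_telescope_le L hLmono _ hL0 hLB 2 J
    have hmain : ∀ j, ∑ y, K j x y * (lpd P f x y / (2 : ℝ) ^ j) ^ P ≤
        256 * C₁ / c₁ * (L (j + (2 : ℕ)) - L j) := by
      intro j
      have h3 := hK3 j x
      have h4 : Real.log (Zf (1 / (32 * s j ^ 2)) δ x) ≤ L (j + (2 : ℕ)) := by
        apply Real.log_le_log (Zf_pos δ _ x)
        apply Zf_anti δ _ x hδ0
        simp only [hb]
        have := hs0 j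
        apply one_div_le_one_div_of_le (by positivity)
        rw [hssq, hssq]
        have := mul_le_mul_of_nonneg_left (htmul j) hC₁.le
        push_cast
        linarith only [this]
      have h5 : ∑ y, K j x y * ‖φ x - φ y‖ ^ 2 ≤ 16 * s j ^ 2 * (L (j + (2 : ℕ)) - L j) := by
        refine h3.trans ?_
        apply mul_le_mul_of_nonneg_left _ (by positivity)
        have : L j = Real.log (Zf (1 / (8 * s j ^ 2)) δ x) := rfl
        rw [this]
        linarith only [h4]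
      have h6 : ∀ y, K j x y * (lpd P f x y / (2 : ℝ) ^ j) ^ P ≤
          (1 / (c₁ * t j)) * (K j x y * ‖φ x - φ y‖ ^ 2) := by
        intro y
        have hK0 := (hK1 j).1 x y
        rw [Real.div_rpow (lpd_nonneg f x y) (zpow_pos (by norm_num) j).le]
        have h7 : lpd P f x y ^ P / t j ≤ (1 / (c₁ * t j)) * ‖φ x - φ y‖ ^ 2 := by
          rw [div_mul_eq_mul_div, one_mul, div_le_div_iff₀ (ht0 j) (mul_pos hc₁ (ht0 j))]
          have := mul_le_mul_of_nonneg_right (hφ x y).1 (ht0 j).le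
          linarith only [this]
        calc K j x y * (lpd P f x y ^ P / t j)
            ≤ K j x y * ((1 / (c₁ * t j)) * ‖φ x - φ y‖ ^ 2) :=
              mul_le_mul_of_nonneg_left h7 hK0
          _ = _ := by ring
      calc ∑ y, K j x y * (lpd P f x y / (2 : ℝ) ^ j) ^ P
          ≤ ∑ y, (1 / (c₁ * t j)) * (K j x y * ‖φ x - φ y‖ ^ 2) :=
            Finset.sum_le_sum fun y _ => h6 y
        _ = (1 / (c₁ * t j)) * ∑ y, (K j x y * ‖φ x - φ y‖ ^ 2) := by
            rw [Finset.mul_sum]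
        _ ≤ (1 / (c₁ * t j)) * (16 * s j ^ 2 * (L (j + (2 : ℕ)) - L j)) := by
            apply mul_le_mul_of_nonneg_left h5
            have := mul_pos hc₁ (ht0 j)
            positivity
        _ = 256 * C₁ / c₁ * (L (j + (2 : ℕ)) - L j) := by
            rw [hssq]
            have := (ht0 j).ne'
            field_simp
            ring
    calc ∑ j ∈ J, ∑ y, K j x y * (lpd P f x y / (2 : ℝ) ^ j) ^ P
        ≤ ∑ j ∈ J, 256 * C₁ / c₁ * (L (j + (2 : ℕ)) - L j) :=
          Finset.sum_le_sum fun j _ => hmain j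
      _ = 256 * C₁ / c₁ * ∑ j ∈ J, (L (j + (2 : ℕ)) - L j) := by rw [Finset.mul_sum]
      _ ≤ 256 * C₁ / c₁ * ((2 : ℕ) * Real.log (Fintype.card V)) := by
          apply mul_le_mul_of_nonneg_left htel
          positivity
      _ = 512 * C₁ / c₁ * Real.log (Fintype.card V) := by push_cast; ring

end Vale.Agent.P249
end
end

section

section

open scoped ENNReal BigOperators

namespace Vale.Agent.P249

theorem kernels_le_two (P : ℝ) (hP1 : 1 ≤ P) (hP2 : P ≤ 2) :
    ∃ C : ℝ, 0 < C ∧ ∀ {V : Type*} [Fintype V] [Nonempty V] {N : ℕ} (f : V → Fin N → ℝ),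
      HasKernels P (lpd P f) (C * Real.log (Fintype.card V)) := by
  obtain ⟨c₁, C₁, hc₁, hc, h⟩ := exists_snowflake P hP1 hP2
  have hC₁ : 0 < C₁ := hc₁.trans_le hc
  refine ⟨512 * C₁ / c₁, by positivity, ?_⟩
  intro V _ _ N f
  obtain ⟨M, φ, hφ⟩ := h f
  refine hasKernels_of_snowflake P hP1 c₁ C₁ hc₁ hC₁ f φ ?_ (fun s hs => gaussian_kernel φ s hs)
  intro x y
  rw [lpd_rpow f (by linarith)]
  exact hφ x y

end Vale.Agent.P249
end
end

section

section

open scoped BigOperators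

namespace Vale.Agent.P249

/-- the odd power function `t ↦ sign t * |t| ^ q` -/
noncomputable def mz (q t : ℝ) : ℝ := if 0 ≤ t then t ^ q else -(-t) ^ q

theorem mz_of_nonneg {q t : ℝ} (ht : 0 ≤ t) : mz q t = t ^ q := if_pos ht

theorem mz_neg {q : ℝ} (hq : 0 < q) (t : ℝ) : mz q (-t) = -mz q t := by
  unfold mz
  rcases lt_trichotomy t 0 with h | h | h
  · rw [if_pos (by linarith), if_neg (by linarith)]; ring
  · subst h; simp [Real.zero_rpow hq.ne']
  · rw [if_neg (by linarith), if_pos h.le, neg_neg]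

theorem mz_lower_aux {q : ℝ} (hq : 1 ≤ q) {a b : ℝ} (ha : 0 ≤ a) (hab : b ≤ a) :
    2 ^ (1 - q) * |a - b| ^ q ≤ |mz q a - mz q b| := by
  have hq0 : 0 < q := by linarith only [hq]
  have h2 : (2:ℝ) ^ (1 - q) ≤ 1 := Real.rpow_le_one_of_one_le_of_nonpos (by norm_num) (by linarith)
  rw [abs_of_nonneg (by linarith : 0 ≤ a - b)]
  rcases le_or_gt 0 b with hb | hb
  · rw [mz_of_nonneg ha, mz_of_nonneg hb]
    have h1 := Real.add_rpow_le_rpow_add (by linarith : 0 ≤ a - b) hb hq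
    rw [sub_add_cancel] at h1
    have h3 : 0 ≤ (a - b) ^ q := Real.rpow_nonneg (by linarith) _
    calc 2 ^ (1 - q) * (a - b) ^ q ≤ 1 * (a - b) ^ q := mul_le_mul_of_nonneg_right h2 h3
      _ ≤ a ^ q - b ^ q := by linarith
      _ ≤ |a ^ q - b ^ q| := le_abs_self _
  · obtain ⟨c, hc⟩ : ∃ c : ℝ, c = -b := ⟨_, rfl⟩
    have hc0 : 0 < c := by linarith
    have hbc : b = -c := by linarith
    subst hbc
    rw [mz_neg hq0, mz_of_nonneg ha, mz_of_nonneg hc0.le, sub_neg_eq_add, sub_neg_eq_add,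
      abs_of_nonneg (by positivity)]
    have h1 : (a + c) ^ q ≤ 2 ^ (q - 1) * (a ^ q + c ^ q) := by
      have h := NNReal.rpow_add_le_mul_rpow_add_rpow ⟨a, ha⟩ ⟨c, hc0.le⟩ hq
      have h' := NNReal.coe_le_coe.2 h
      push_cast at h'
      exact h'
    calc 2 ^ (1 - q) * (a + c) ^ q ≤ 2 ^ (1 - q) * (2 ^ (q - 1) * (a ^ q + c ^ q)) :=
          mul_le_mul_of_nonneg_left h1 (by positivity)
      _ = a ^ q + c ^ q := by
          rw [← mul_assoc, ← Real.rpow_add (by norm_num)]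
          simp

theorem mz_lower {q : ℝ} (hq : 1 ≤ q) (a b : ℝ) :
    2 ^ (1 - q) * |a - b| ^ q ≤ |mz q a - mz q b| := by
  have hq0 : 0 < q := by linarith only [hq]
  -- reduce to `b ≤ a` and `0 ≤ a`
  have key : ∀ a b : ℝ, b ≤ a → 2 ^ (1 - q) * |a - b| ^ q ≤ |mz q a - mz q b| := by
    intro a b hab
    rcases le_or_gt 0 a with ha | ha
    · exact mz_lower_aux hq ha hab
    · have h := mz_lower_aux hq (a := -b) (b := -a) (by linarith) (by linarith)
      rw [mz_neg hq0, mz_neg hq0] at h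
      have e1 : -b - -a = a - b := by ring
      have e2 : -mz q b - -mz q a = mz q a - mz q b := by ring
      rwa [e1, e2] at h
  rcases le_total b a with h | h
  · exact key a b h
  · rw [abs_sub_comm a b, abs_sub_comm (mz q a)]
    exact key b a h

theorem mz_upper_aux {q : ℝ} (hq : 1 ≤ q) {a b : ℝ} (ha : 0 ≤ a) (hab : |b| ≤ a) :
    |mz q a - mz q b| ≤ q * a ^ (q - 1) * |a - b| := by
  have hq0 : 0 < q := by linarith only [hq]
  have hba : b ≤ a := (le_abs_self b).trans hab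
  rw [abs_of_nonneg (by linarith : 0 ≤ a - b)]
  rcases ha.eq_or_lt with h0 | h0
  · subst h0
    have : b = 0 := abs_nonpos_iff.1 hab
    subst this
    simp
  have haq : a ^ q = a ^ (q - 1) * a := by
    rw [← Real.rpow_add_one h0.ne']; congr 1; ring
  have hp : 0 < a ^ (q - 1) := Real.rpow_pos_of_pos h0 _
  rcases le_or_gt 0 b with hb | hb
  · rw [mz_of_nonneg ha, mz_of_nonneg hb]
    have hle : b ^ q ≤ a ^ q := Real.rpow_le_rpow hb hba hq0.le
    rw [abs_of_nonneg (by linarith)]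
    have h1 := one_add_mul_self_le_rpow_one_add (s := b / a - 1) (by
      have : 0 ≤ b / a := by positivity
      linarith only [this]) hq
    rw [add_sub_cancel, Real.div_rpow hb ha] at h1
    have h2 : (1 + q * (b / a - 1)) * a ^ q ≤ b ^ q := by
      rwa [← le_div_iff₀ (Real.rpow_pos_of_pos h0 _)]
    have h3 : (1 + q * (b / a - 1)) * a ^ q = a ^ q - q * a ^ (q - 1) * (a - b) := by
      rw [haq]; field_simp; ring
    linarith only [h2, h3]
  · obtain ⟨c, hc⟩ : ∃ c : ℝ, c = -b := ⟨_, rfl⟩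
    have hc0 : 0 < c := by linarith
    have hbc : b = -c := by linarith only [hc]
    subst hbc
    have hca : c ≤ a := by rwa [abs_neg, abs_of_pos hc0] at hab
    rw [mz_neg hq0, mz_of_nonneg ha, mz_of_nonneg hc0.le, sub_neg_eq_add, sub_neg_eq_add,
      abs_of_nonneg (by positivity)]
    have hcq : c ^ q ≤ a ^ (q - 1) * c := by
      have : c ^ q = c ^ (q - 1) * c := by
        rw [← Real.rpow_add_one hc0.ne']; congr 1; ring
      rw [this]
      exact mul_le_mul_of_nonneg_right (Real.rpow_le_rpow hc0.le hca (by linarith)) hc0.le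
    calc a ^ q + c ^ q ≤ a ^ (q - 1) * a + a ^ (q - 1) * c := by linarith
      _ = 1 * (a ^ (q - 1) * (a + c)) := by ring
      _ ≤ q * (a ^ (q - 1) * (a + c)) := mul_le_mul_of_nonneg_right hq (by positivity)
      _ = q * a ^ (q - 1) * (a + c) := by ring

theorem mz_upper {q : ℝ} (hq : 1 ≤ q) (a b : ℝ) :
    |mz q a - mz q b| ≤ q * (max |a| |b|) ^ (q - 1) * |a - b| := by
  have hq0 : 0 < q := by linarith
  have key : ∀ a b : ℝ, |b| ≤ |a| → |mz q a - mz q b| ≤ q * |a| ^ (q - 1) * |a - b| := by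
    intro a b hab
    rcases le_or_gt 0 a with ha | ha
    · rw [abs_of_nonneg ha] at hab ⊢
      exact mz_upper_aux hq ha hab
    · have h := mz_upper_aux hq (a := -a) (b := -b) (by linarith)
        (by rw [abs_neg]; rwa [abs_of_neg ha] at hab)
      rw [mz_neg hq0, mz_neg hq0] at h
      have e1 : |(-a) - -b| = |a - b| := by rw [← abs_neg]; congr 1; ring
      have e2 : |(-mz q a) - -mz q b| = |mz q a - mz q b| := by rw [← abs_neg]; congr 1; ring
      rw [e1, e2] at h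
      rwa [abs_of_neg ha]
  rcases le_total |b| |a| with h | h
  · rw [max_eq_left h]; exact key a b h
  · rw [max_eq_right h, abs_sub_comm (mz q a), abs_sub_comm a b]; exact key b a h

theorem exists_mazur (P : ℝ) (hP : 2 ≤ P) {V : Type*} {N : ℕ} (f : V → Fin N → ℝ)
    (c : V) : ∃ φ : V → EuclideanSpace ℝ (Fin N), ∀ x y,
      2 ^ (2 - P) * lpd P f x y ^ P ≤ ‖φ x - φ y‖ ^ 2 ∧
      ‖φ x - φ y‖ ≤ (P / 2) * (lpd P f x c ^ P + lpd P f y c ^ P) ^ (1 / 2 - 1 / P) *
        lpd P f x y := by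
  have hP0 : 0 < P := by linarith only [hP]
  have hq : 1 ≤ P / 2 := by linarith
  refine ⟨fun x => WithLp.toLp 2 (fun i => mz (P / 2) (f x i - f c i)), fun x y => ?_⟩
  have hnorm : ‖(WithLp.toLp 2 (fun i => mz (P / 2) (f x i - f c i)) : EuclideanSpace ℝ (Fin N)) -
      WithLp.toLp 2 (fun i => mz (P / 2) (f y i - f c i))‖ ^ 2 =
      ∑ i, |mz (P / 2) (f x i - f c i) - mz (P / 2) (f y i - f c i)| ^ 2 := by
    rw [EuclideanSpace.norm_sq_eq]
    simp only [PiLp.sub_apply, Real.norm_eq_abs, sq_abs]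
  constructor
  · rw [hnorm, lpd_rpow f hP0, Finset.mul_sum]
    refine Finset.sum_le_sum fun i _ => ?_
    have h := mz_lower hq (f x i - f c i) (f y i - f c i)
    rw [sub_sub_sub_cancel_right] at h
    have h2 := pow_le_pow_left₀ (by (clear * -; positivity)) h 2
    refine le_trans (le_of_eq ?_) h2
    rw [mul_pow, ← Real.rpow_natCast (2 ^ (1 - P / 2)), ← Real.rpow_mul (by norm_num),
      ← Real.rpow_natCast (|f x i - f y i| ^ (P / 2)), ← Real.rpow_mul (abs_nonneg _)]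
    congr 2
    · push_cast; ring
    · push_cast; ring
  · -- upper bound
    have hsq : ‖(WithLp.toLp 2 (fun i => mz (P / 2) (f x i - f c i)) :
        EuclideanSpace ℝ (Fin N)) - WithLp.toLp 2 (fun i => mz (P / 2) (f y i - f c i))‖ ^ 2 ≤
        ((P / 2) * (lpd P f x c ^ P + lpd P f y c ^ P) ^ (1 / 2 - 1 / P) * lpd P f x y) ^ 2 := by
      rw [hnorm]
      have hterm : ∀ i, |mz (P / 2) (f x i - f c i) - mz (P / 2) (f y i - f c i)| ^ 2 ≤
          (P / 2) ^ 2 * ((|f x i - f c i| ^ P + |f y i - f c i| ^ P) ^ (1 - 2 / P) *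
            |f x i - f y i| ^ 2) := by
        intro i
        have h := mz_upper hq (f x i - f c i) (f y i - f c i)
        rw [sub_sub_sub_cancel_right] at h
        have h2 := pow_le_pow_left₀ (abs_nonneg _) h 2
        refine h2.trans ?_
        rw [mul_pow, mul_pow, mul_assoc]
        refine mul_le_mul_of_nonneg_left (mul_le_mul_of_nonneg_right ?_ (by positivity))
          (by positivity)
        have hM0 : 0 ≤ max |f x i - f c i| |f y i - f c i| := le_max_of_le_left (abs_nonneg _)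
        have e1 : (max |f x i - f c i| |f y i - f c i| ^ (P / 2 - 1)) ^ 2 =
            (max |f x i - f c i| |f y i - f c i| ^ P) ^ (1 - 2 / P) := by
          rw [← Real.rpow_natCast, ← Real.rpow_mul hM0, ← Real.rpow_mul hM0]
          congr 1; push_cast; (clear * - hP; field_simp)
        rw [e1]
        apply Real.rpow_le_rpow (by (clear * -; positivity))
        · rcases le_total |f x i - f c i| |f y i - f c i| with h | h
          · rw [max_eq_right h]
            have : 0 ≤ |f x i - f c i| ^ P := by positivity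
            linarith only [this]
          · rw [max_eq_left h]
            have : 0 ≤ |f y i - f c i| ^ P := by positivity
            linarith only [this]
        · have : 2 / P ≤ 1 := by rw [div_le_one hP0]; exact hP
          linarith only [this]
      refine (Finset.sum_le_sum fun i _ => hterm i).trans ?_
      rw [← Finset.mul_sum, mul_pow, mul_pow, mul_assoc]
      refine mul_le_mul_of_nonneg_left ?_ (by positivity)
      have hS0 : 0 ≤ lpd P f x c ^ P + lpd P f y c ^ P :=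
        add_nonneg (Real.rpow_nonneg (lpd_nonneg f x c) _) (Real.rpow_nonneg (lpd_nonneg f y c) _)
      have e2 : ((lpd P f x c ^ P + lpd P f y c ^ P) ^ (1 / 2 - 1 / P)) ^ 2 =
          (lpd P f x c ^ P + lpd P f y c ^ P) ^ (1 - 2 / P) := by
        rw [← Real.rpow_natCast, ← Real.rpow_mul hS0]
        congr 1; push_cast; ring
      rw [e2]
      rcases hP.eq_or_lt with h2 | h2
      · subst h2
        have h1 := lpd_rpow f (P := 2) (by norm_num) x y
        norm_num at h1 ⊢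
        rw [h1]
      · have hpq : (P / (P - 2)).HolderConjugate (P / 2) := by
          rw [Real.holderConjugate_iff]
          constructor
          · rw [lt_div_iff₀ (by linarith only [h2])]; linarith only []
          · field_simp; ring
        have hH := Real.inner_le_Lp_mul_Lq Finset.univ
          (fun i => (|f x i - f c i| ^ P + |f y i - f c i| ^ P) ^ (1 - 2 / P))
          (fun i => |f x i - f y i| ^ 2) hpq
        refine hH.trans (le_of_eq ?_)
        have hP2 : P - 2 ≠ 0 := by linarith only [h2]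
        congr 1
        · rw [lpd_rpow f hP0, lpd_rpow f hP0, ← Finset.sum_add_distrib]
          have e3 : ∀ i, |(|f x i - f c i| ^ P + |f y i - f c i| ^ P) ^ (1 - 2 / P)| ^ (P / (P - 2))
              = |f x i - f c i| ^ P + |f y i - f c i| ^ P := by
            intro i
            rw [abs_of_nonneg (by (clear * -; positivity)), ← Real.rpow_mul (by (clear * -; positivity))]
            rw [show (1 - 2 / P) * (P / (P - 2)) = 1 by field_simp, Real.rpow_one]
          rw [Finset.sum_congr rfl fun i _ => e3 i]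
          congr 1
          field_simp
        · have e4 : ∀ i, |(|f x i - f y i| ^ 2)| ^ (P / 2) = |f x i - f y i| ^ P := by
            intro i
            rw [abs_of_nonneg (by (clear * -; positivity)), ← Real.rpow_natCast, ← Real.rpow_mul (abs_nonneg _)]
            congr 1; push_cast; field_simp
          rw [Finset.sum_congr rfl fun i _ => e4 i, lpd, ← Real.rpow_natCast,
            ← Real.rpow_mul (Finset.sum_nonneg fun _ _ => Real.rpow_nonneg (abs_nonneg _) _)]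
          congr 1; push_cast; field_simp
    have h0 : 0 ≤ (P / 2) * (lpd P f x c ^ P + lpd P f y c ^ P) ^ (1 / 2 - 1 / P) * lpd P f x y :=
      mul_nonneg (mul_nonneg (by positivity) (Real.rpow_nonneg
        (add_nonneg (Real.rpow_nonneg (lpd_nonneg f x c) _)
          (Real.rpow_nonneg (lpd_nonneg f y c) _)) _)) (lpd_nonneg f x y)
    exact (pow_le_pow_iff_left₀ (norm_nonneg _) h0 (by norm_num)).1 hsq

end Vale.Agent.P249
end
end

section

section

open scoped ENNReal BigOperators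

namespace Vale.Agent.P249

/-- Gaussian kernel with the crude moment bound `16 s² log n`. -/
theorem gauss_kernel_crude {V : Type*} [Fintype V] [Nonempty V] {M : ℕ}
    (φ : V → EuclideanSpace ℝ (Fin M)) (s : ℝ) (hs : 0 < s) :
    ∃ K : V → V → ℝ, IsStoch K ∧
      (∀ x x', ∑ y, |K x y - K x' y| ≤ 2 * ‖φ x - φ x'‖ / s) ∧
      ∀ x, ∑ y, K x y * ‖φ x - φ y‖ ^ 2 ≤ 16 * s ^ 2 * Real.log (Fintype.card V) := by
  obtain ⟨K, hK, hTV, hM⟩ := gaussian_kernel φ s hs
  refine ⟨K, hK, hTV, fun x => (hM x).trans ?_⟩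
  refine mul_le_mul_of_nonneg_left ?_ (by positivity)
  have h1 : Zf (1 / (32 * s ^ 2)) (fun x y => ‖φ x - φ y‖ ^ 2) x ≤ Fintype.card V :=
    Zf_le_card _ _ (by positivity) x fun y => by positivity
  have h2 : 1 ≤ Zf (1 / (8 * s ^ 2)) (fun x y => ‖φ x - φ y‖ ^ 2) x :=
    one_le_Zf _ _ x (by simp)
  have h3 : 0 < Zf (1 / (32 * s ^ 2)) (fun x y => ‖φ x - φ y‖ ^ 2) x := Zf_pos _ _ x
  have h4 := Real.log_le_log h3 h1
  have h5 := Real.log_nonneg h2
  linarith only [h4, h5]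

/-- Composition of a kernel with a family of kernels. -/
theorem comp_isStoch {V : Type*} [Fintype V] {K : V → V → ℝ} (hK : IsStoch K)
    {Q : V → V → V → ℝ} (hQ : ∀ c, IsStoch (Q c)) :
    IsStoch (fun x y => ∑ c, K x c * Q c x y) := by
  refine ⟨fun x y => Finset.sum_nonneg fun c _ => mul_nonneg (hK.1 x c) ((hQ c).1 x y),
    fun x => ?_⟩
  rw [Finset.sum_comm]
  simp only [← Finset.mul_sum, (hQ _).2, mul_one, hK.2]

theorem comp_tv {V : Type*} [Fintype V] {K : V → V → ℝ} (hK : IsStoch K)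
    {Q : V → V → V → ℝ} (hQ : ∀ c, IsStoch (Q c)) (x x' : V) :
    ∑ y, |(∑ c, K x c * Q c x y) - ∑ c, K x' c * Q c x' y| ≤
      ∑ c, |K x c - K x' c| + ∑ c, K x' c * ∑ y, |Q c x y - Q c x' y| := by
  have h1 : ∀ y, |(∑ c, K x c * Q c x y) - ∑ c, K x' c * Q c x' y| ≤
      ∑ c, (|K x c - K x' c| * Q c x y + K x' c * |Q c x y - Q c x' y|) := by
    intro y
    rw [← Finset.sum_sub_distrib]
    refine (Finset.abs_sum_le_sum_abs _ _).trans (Finset.sum_le_sum fun c _ => ?_)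
    have h2 : K x c * Q c x y - K x' c * Q c x' y =
        (K x c - K x' c) * Q c x y + K x' c * (Q c x y - Q c x' y) := by ring
    rw [h2]
    refine (abs_add_le _ _).trans ?_
    rw [abs_mul, abs_mul, abs_of_nonneg ((hQ c).1 x y), abs_of_nonneg (hK.1 x' c)]
  refine (Finset.sum_le_sum fun y _ => h1 y).trans (le_of_eq ?_)
  rw [Finset.sum_comm]
  simp only [Finset.sum_add_distrib, ← Finset.mul_sum, (hQ _).2, mul_one]

/-- Jensen's inequality for the power `κ ∈ [0, 1]`. -/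
theorem sum_mul_rpow_le {V : Type*} [Fintype V] {w a : V → ℝ} (hw : ∀ c, 0 ≤ w c)
    (hw1 : ∑ c, w c = 1) (ha : ∀ c, 0 ≤ a c) {κ : ℝ} (h0 : 0 ≤ κ) (h1 : κ ≤ 1) :
    ∑ c, w c * a c ^ κ ≤ (∑ c, w c * a c) ^ κ := by
  have h := (Real.concaveOn_rpow h0 h1).le_map_sum (t := (Finset.univ : Finset V)) (w := w)
    (p := a) (fun c _ => hw c) hw1 (fun c _ => ha c)
  simpa only [smul_eq_mul] using h

section Step

variable {P : ℝ} {V : Type*} [Fintype V] {N : ℕ} (f : V → Fin N → ℝ)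

/-- Jensen estimate for the Lipschitz constants of the Mazur maps. -/
theorem crude_jensen (hP : 2 < P) {K : V → V → ℝ} (hK : IsStoch K) {S σ : ℝ} (hσ : 0 ≤ σ)
    (hσS : σ ≤ S) (x x' : V) (hxx' : lpd P f x x' ≤ σ)
    (hM : ∑ c, K x' c * lpd P f x' c ^ P ≤ S ^ P) :
    ∑ c, K x' c * (lpd P f x c ^ P + lpd P f x' c ^ P) ^ (1 / 2 - 1 / P) ≤
      2 ^ (P - 2) * S ^ (P / 2 - 1) := by
  have hP0 : 0 < P := by linarith only [hP]
  have hP1 : 1 ≤ P := by linarith
  have hS : 0 ≤ S := hσ.trans hσS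
  have hinv : 1 / P < 1 / 2 := one_div_lt_one_div_of_lt (by norm_num) hP
  have hinv0 : 0 < 1 / P := by positivity
  have hκ0 : 0 ≤ 1 / 2 - 1 / P := by linarith only [hinv]
  have hκ1 : 1 / 2 - 1 / P ≤ 1 := by linarith only [hinv, hinv0]
  have hpt : ∀ c, lpd P f x c ^ P + lpd P f x' c ^ P ≤ 2 ^ P * (lpd P f x' c ^ P + S ^ P) := by
    intro c
    have h0 := lpd_nonneg (P := P) f x' c
    have h1 : lpd P f x c ≤ lpd P f x' c + S := by
      have := lpd_triangle f hP1 x x' c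
      linarith only [hσS, hxx', this]
    have h2 : lpd P f x c ^ P ≤ (lpd P f x' c + S) ^ P :=
      Real.rpow_le_rpow (lpd_nonneg f x c) h1 hP0.le
    have h3 : (lpd P f x' c + S) ^ P ≤ 2 ^ (P - 1) * (lpd P f x' c ^ P + S ^ P) := by
      have h := NNReal.rpow_add_le_mul_rpow_add_rpow ⟨lpd P f x' c, h0⟩ ⟨S, hS⟩ hP1
      have h' := NNReal.coe_le_coe.2 h
      push_cast at h'
      exact h'
    have h4 : (2 : ℝ) ^ P = 2 ^ (P - 1) * 2 := by
      rw [← Real.rpow_add_one (by norm_num)]; congr 1; ring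
    have h5 : (1 : ℝ) ≤ 2 ^ (P - 1) := Real.one_le_rpow (by norm_num) (by linarith only [hP, hinv,
                                                                            hinv0])
    have h6 : 0 ≤ lpd P f x' c ^ P := Real.rpow_nonneg h0 _
    have h7 : 0 ≤ S ^ P := Real.rpow_nonneg hS _
    rw [h4]
    nlinarith only [hinv, hinv0, h2, h3, h5, h6, h7]
  have h1 : ∑ c, K x' c * (lpd P f x c ^ P + lpd P f x' c ^ P) ^ (1 / 2 - 1 / P) ≤
      (∑ c, K x' c * (lpd P f x c ^ P + lpd P f x' c ^ P)) ^ (1 / 2 - 1 / P) :=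
    sum_mul_rpow_le (fun c => hK.1 x' c) (hK.2 x')
      (fun c => add_nonneg (Real.rpow_nonneg (lpd_nonneg f _ _) _)
        (Real.rpow_nonneg (lpd_nonneg f _ _) _)) hκ0 hκ1
  have h2 : ∑ c, K x' c * (lpd P f x c ^ P + lpd P f x' c ^ P) ≤ 2 ^ (P + 1) * S ^ P := by
    calc ∑ c, K x' c * (lpd P f x c ^ P + lpd P f x' c ^ P)
        ≤ ∑ c, K x' c * (2 ^ P * (lpd P f x' c ^ P + S ^ P)) :=
          Finset.sum_le_sum fun c _ => mul_le_mul_of_nonneg_left (hpt c) (hK.1 x' c)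
      _ = 2 ^ P * (∑ c, K x' c * lpd P f x' c ^ P + (∑ c, K x' c) * S ^ P) := by
          rw [Finset.sum_mul, ← Finset.sum_add_distrib, Finset.mul_sum]
          refine Finset.sum_congr rfl fun c _ => ?_
          ring
      _ ≤ 2 ^ P * (S ^ P + 1 * S ^ P) := by
          rw [hK.2 x']
          refine mul_le_mul_of_nonneg_left ?_ (by positivity)
          linarith only [hM]
      _ = 2 ^ (P + 1) * S ^ P := by
          rw [Real.rpow_add_one (by norm_num)]; ring
  have h3 : 0 ≤ ∑ c, K x' c * (lpd P f x c ^ P + lpd P f x' c ^ P) :=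
    Finset.sum_nonneg fun c _ => mul_nonneg (hK.1 x' c)
      (add_nonneg (Real.rpow_nonneg (lpd_nonneg f _ _) _)
        (Real.rpow_nonneg (lpd_nonneg f _ _) _))
  refine h1.trans ((Real.rpow_le_rpow h3 h2 hκ0).trans ?_)
  rw [Real.mul_rpow (by positivity) (Real.rpow_nonneg hS _), ← Real.rpow_mul (by norm_num),
    ← Real.rpow_mul hS]
  have h4 : P * (1 / 2 - 1 / P) = P / 2 - 1 := by field_simp
  rw [h4]
  refine mul_le_mul_of_nonneg_right ?_ (Real.rpow_nonneg hS _)
  refine Real.rpow_le_rpow_of_exponent_le (by norm_num) ?_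
  have h5 : (P + 1) * (1 / 2 - 1 / P) = P / 2 - 1 + (1 / 2 - 1 / P) := by
    rw [add_mul, h4, one_mul]
  rw [h5]
  have h6 : P * (1 / P) = 1 := by field_simp
  nlinarith only [hP, hinv, h4]

/-- One step of the multi-scale construction: from scale `2 σ` to scale `σ`. -/
theorem crude_step [Nonempty V] (hP : 2 < P) {σ R Λ : ℝ} (hσ : 0 < σ) (hR : 1 ≤ R)
    (hΛ : Λ = 16 * P * 2 ^ (P - 2))
    (hRΛ : 4 ^ (P + 1) * Λ ^ 2 * Real.log (Fintype.card V) ≤ R ^ 2)
    {K : V → V → ℝ} (hK : IsStoch K)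
    (hTV : ∀ x x', lpd P f x x' ≤ 2 * σ →
      ∑ y, |K x y - K x' y| ≤ 1 / 16 * (lpd P f x x' / (2 * σ)))
    (hM : ∀ x, ∑ y, K x y * lpd P f x y ^ P ≤ (R * (2 * σ)) ^ P) :
    ∃ K' : V → V → ℝ, IsStoch K' ∧
      (∀ x x', lpd P f x x' ≤ σ → ∑ y, |K' x y - K' x' y| ≤ 1 / 16 * (lpd P f x x' / σ)) ∧
      ∀ x, ∑ y, K' x y * lpd P f x y ^ P ≤ (R * σ) ^ P := by
  classical
  have hP0 : 0 < P := by linarith only [hP]
  have hlog : 0 ≤ Real.log (Fintype.card V) :=
    Real.log_nonneg (by exact_mod_cast Fintype.card_pos)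
  have h2P : 0 < (2 : ℝ) ^ (P - 2) := by positivity
  have hΛ0 : 0 < Λ := by rw [hΛ]; positivity
  set S : ℝ := R * (2 * σ) with hS
  have hS0 : 0 < S := by positivity
  have hSσ : σ ≤ S := by rw [hS]; nlinarith only [hσ, hR, hS0]
  set s : ℝ := Λ * S ^ (P / 2 - 1) * (2 * σ) with hs
  have hSp : 0 < S ^ (P / 2 - 1) := Real.rpow_pos_of_pos hS0 _
  have hs0 : 0 < s := by positivity
  choose φ hφ using fun c => exists_mazur P hP.le f c
  choose Q hQ hQTV hQM using fun c => gauss_kernel_crude (φ c) s hs0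
  refine ⟨fun x y => ∑ c, K x c * Q c x y, comp_isStoch hK hQ, fun x x' hxx' => ?_, fun x => ?_⟩
  · -- total variation
    refine (comp_tv hK hQ x x').trans ?_
    have h1 := hTV x x' (by linarith only [hσ, hxx'])
    have h2 : ∑ c, K x' c * ∑ y, |Q c x y - Q c x' y| ≤
        1 / 16 * (lpd P f x x' / (2 * σ)) := by
      have hκ := crude_jensen f hP hK hσ.le hSσ x x' hxx' (hM x')
      calc ∑ c, K x' c * ∑ y, |Q c x y - Q c x' y|
          ≤ ∑ c, K x' c * (2 * ((P / 2) * (lpd P f x c ^ P + lpd P f x' c ^ P) ^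
              (1 / 2 - 1 / P) * lpd P f x x') / s) := by
            refine Finset.sum_le_sum fun c _ => mul_le_mul_of_nonneg_left ?_ (hK.1 x' c)
            refine (hQTV c x x').trans ?_
            refine div_le_div_of_nonneg_right ?_ hs0.le
            exact mul_le_mul_of_nonneg_left (hφ c x x').2 (by norm_num)
        _ = (P * lpd P f x x' / s) * ∑ c, K x' c *
              (lpd P f x c ^ P + lpd P f x' c ^ P) ^ (1 / 2 - 1 / P) := by
            rw [Finset.mul_sum]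
            refine Finset.sum_congr rfl fun c _ => ?_
            ring
        _ ≤ (P * lpd P f x x' / s) * (2 ^ (P - 2) * S ^ (P / 2 - 1)) := by
            refine mul_le_mul_of_nonneg_left hκ ?_
            have := lpd_nonneg (P := P) f x x'
            (clear * - hP hσ hR hΛ0 this; positivity)
        _ = 1 / 16 * (lpd P f x x' / (2 * σ)) := by
            rw [hs, hΛ]
            field_simp
    calc _ ≤ 1 / 16 * (lpd P f x x' / (2 * σ)) + 1 / 16 * (lpd P f x x' / (2 * σ)) :=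
          add_le_add h1 h2
      _ = 1 / 16 * (lpd P f x x' / σ) := by field_simp; ring
  · -- moment
    have h1 : ∀ c, ∑ y, Q c x y * lpd P f x y ^ P ≤
        2 ^ (P - 2) * (16 * s ^ 2 * Real.log (Fintype.card V)) := by
      intro c
      calc ∑ y, Q c x y * lpd P f x y ^ P
          ≤ ∑ y, Q c x y * (2 ^ (P - 2) * ‖φ c x - φ c y‖ ^ 2) := by
            refine Finset.sum_le_sum fun y _ => mul_le_mul_of_nonneg_left ?_ ((hQ c).1 x y)
            have h2 := (hφ c x y).1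
            have h3 : (2 : ℝ) ^ (P - 2) * 2 ^ (2 - P) = 1 := by
              rw [← Real.rpow_add (by norm_num)]; simp
            calc lpd P f x y ^ P = 2 ^ (P - 2) * (2 ^ (2 - P) * lpd P f x y ^ P) := by
                  rw [← mul_assoc, h3, one_mul]
              _ ≤ _ := mul_le_mul_of_nonneg_left h2 h2P.le
        _ = 2 ^ (P - 2) * ∑ y, Q c x y * ‖φ c x - φ c y‖ ^ 2 := by
            rw [Finset.mul_sum]
            refine Finset.sum_congr rfl fun y _ => ?_
            ring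
        _ ≤ _ := mul_le_mul_of_nonneg_left (hQM c x) h2P.le
    calc ∑ y, (∑ c, K x c * Q c x y) * lpd P f x y ^ P
        = ∑ c, K x c * ∑ y, Q c x y * lpd P f x y ^ P := by
          simp only [Finset.sum_mul, Finset.mul_sum]
          rw [Finset.sum_comm]
          refine Finset.sum_congr rfl fun c _ => Finset.sum_congr rfl fun y _ => ?_
          ring
      _ ≤ ∑ c, K x c * (2 ^ (P - 2) * (16 * s ^ 2 * Real.log (Fintype.card V))) :=
          Finset.sum_le_sum fun c _ => mul_le_mul_of_nonneg_left (h1 c) (hK.1 x c)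
      _ = 2 ^ (P - 2) * (16 * s ^ 2 * Real.log (Fintype.card V)) := by
          rw [← Finset.sum_mul, hK.2, one_mul]
      _ ≤ (R * σ) ^ P := by
          have h2 : s ^ 2 = Λ ^ 2 * S ^ (P - 2) * (2 * σ) ^ 2 := by
            have h3 : (S ^ (P / 2 - 1)) ^ 2 = S ^ (P - 2) := by
              rw [← Real.rpow_natCast, ← Real.rpow_mul hS0.le]
              congr 1
              push_cast
              ring
            rw [hs, mul_pow, mul_pow, h3]
          have h3 : S ^ P = S ^ (P - 2) * S ^ 2 := by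
            rw [← Real.rpow_natCast, ← Real.rpow_add hS0]
            congr 1
            push_cast
            ring
          have h4 : S ^ P = 2 ^ P * (R * σ) ^ P := by
            rw [← Real.mul_rpow (by norm_num) (by positivity), hS]
            congr 1
            ring
          have h5 : (4 : ℝ) ^ (P + 1) = 4 * 2 ^ P * 2 ^ P := by
            have : (4 : ℝ) = 2 ^ (2 : ℝ) := by norm_num
            rw [Real.rpow_add_one (by norm_num), this, ← Real.rpow_mul (by norm_num), two_mul,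
              Real.rpow_add (by norm_num)]
            norm_num
            ring
          have h6 : (2 : ℝ) ^ P = 2 ^ (P - 2) * 4 := by
            have : (2 : ℝ) ^ P = 2 ^ (P - 2) * 2 ^ (2 : ℝ) := by
              rw [← Real.rpow_add (by norm_num)]; congr 1; ring
            rw [this]; norm_num
          have hSP2 : 0 < S ^ (P - 2) := Real.rpow_pos_of_pos hS0 _
          have h2PP : 0 < (2 : ℝ) ^ P := by positivity
          -- multiply by `2 ^ P`
          refine le_of_mul_le_mul_left ?_ h2PP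
          rw [← h4, h3, h2]
          have h7 : S ^ 2 = R ^ 2 * (2 * σ) ^ 2 := by rw [hS]; ring
          calc 2 ^ P * (2 ^ (P - 2) * (16 * (Λ ^ 2 * S ^ (P - 2) * (2 * σ) ^ 2) *
                Real.log (Fintype.card V)))
              = S ^ (P - 2) * ((4 * 2 ^ P * (2 ^ (P - 2) * 4)) * Λ ^ 2 *
                  Real.log (Fintype.card V) * (2 * σ) ^ 2) := by ring
            _ = S ^ (P - 2) * (4 ^ (P + 1) * Λ ^ 2 * Real.log (Fintype.card V) *
                  (2 * σ) ^ 2) := by rw [h5, ← h6]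
            _ ≤ S ^ (P - 2) * (R ^ 2 * (2 * σ) ^ 2) :=
                mul_le_mul_of_nonneg_left
                  (mul_le_mul_of_nonneg_right hRΛ (by positivity)) hSP2.le
            _ = S ^ (P - 2) * S ^ 2 := by rw [h7]

end Step

theorem crude_kernel_aux {P : ℝ} {V : Type*} [Fintype V] [Nonempty V] {N : ℕ}
    (f : V → Fin N → ℝ) (hP : 2 < P) {R Λ : ℝ} (hR : 1 ≤ R) (hΛ : Λ = 16 * P * 2 ^ (P - 2))
    (hRΛ : 4 ^ (P + 1) * Λ ^ 2 * Real.log (Fintype.card V) ≤ R ^ 2) (k : ℕ) :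
    ∀ σ : ℝ, 0 < σ → (∀ x y, lpd P f x y ≤ 2 ^ k * σ) →
      ∃ K : V → V → ℝ, IsStoch K ∧
        (∀ x x', lpd P f x x' ≤ σ → ∑ y, |K x y - K x' y| ≤ 1 / 16 * (lpd P f x x' / σ)) ∧
        ∀ x, ∑ y, K x y * lpd P f x y ^ P ≤ (R * σ) ^ P := by
  classical
  induction k with
  | zero =>
    intro σ hσ hd
    obtain ⟨c⟩ := (inferInstance : Nonempty V)
    refine ⟨fun _ y => if y = c then 1 else 0, ⟨fun x y => by positivity, fun x => by simp⟩,
      fun x x' _ => ?_, fun x => ?_⟩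
    · have := lpd_nonneg (P := P) f x x'
      simp only [sub_self, abs_zero, Finset.sum_const_zero]
      positivity
    · simp only [ite_mul, one_mul, zero_mul, Finset.sum_ite_eq', Finset.mem_univ, if_true]
      refine Real.rpow_le_rpow (lpd_nonneg f x c) ?_ (by linarith only [hP])
      have := hd x c
      rw [pow_zero, one_mul] at this
      nlinarith only [hR, hσ, this]
  | succ k ih =>
    intro σ hσ hd
    obtain ⟨K, hK, hTV, hM⟩ := ih (2 * σ) (by positivity) (fun x y => by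
      have := hd x y
      rw [pow_succ] at this
      linarith only [this])
    exact crude_step f hP hσ hR hΛ hRΛ hK hTV hM

theorem crude_kernel (P : ℝ) (hP : 2 < P) : ∃ C : ℝ, 0 < C ∧
    ∀ {V : Type*} [Fintype V] [Nonempty V] {N : ℕ} (f : V → Fin N → ℝ) (σ : ℝ), 0 < σ →
      ∃ K : V → V → ℝ, IsStoch K ∧
        (∀ x x', lpd P f x x' ≤ σ → ∑ y, |K x y - K x' y| ≤ 1 / 16) ∧
        ∀ x, ∑ y, K x y * (lpd P f x y / σ) ^ P ≤
          C * (1 + Real.log (Fintype.card V)) ^ (P / 2) := by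
  obtain ⟨Λ, hΛ⟩ : ∃ Λ : ℝ, Λ = 16 * P * 2 ^ (P - 2) := ⟨_, rfl⟩
  refine ⟨(1 + 4 ^ (P + 1) * Λ ^ 2) ^ (P / 2), by (clear * -; positivity), ?_⟩
  intro V _ _ N f σ hσ
  have hlog : 0 ≤ Real.log (Fintype.card V) :=
    Real.log_nonneg (by exact_mod_cast Fintype.card_pos)
  set l : ℝ := Real.log (Fintype.card V) with hl
  have hA : 0 ≤ 4 ^ (P + 1) * Λ ^ 2 := by (clear * -; positivity)
  set R : ℝ := Real.sqrt (1 + 4 ^ (P + 1) * Λ ^ 2 * l) with hR
  have hAl : 0 ≤ 4 ^ (P + 1) * Λ ^ 2 * l := mul_nonneg hA hlog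
  have hR2 : R ^ 2 = 1 + 4 ^ (P + 1) * Λ ^ 2 * l := Real.sq_sqrt (by linarith only [hAl])
  have hR1 : 1 ≤ R := by rw [hR, Real.one_le_sqrt]; linarith only [hAl]
  -- the diameter
  obtain ⟨k, hk⟩ : ∃ k : ℕ, ∀ x y, lpd P f x y ≤ 2 ^ k * σ := by
    obtain ⟨k, hk⟩ := pow_unbounded_of_one_lt ((∑ x, ∑ y, lpd P f x y) / σ)
      (one_lt_two : (1 : ℝ) < 2)
    refine ⟨k, fun x y => ?_⟩
    rw [div_lt_iff₀ hσ] at hk
    have h1 : lpd P f x y ≤ ∑ y, lpd P f x y :=
      Finset.single_le_sum (f := fun y => lpd P f x y) (fun y _ => lpd_nonneg f x y)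
        (Finset.mem_univ y)
    have h2 : ∑ y, lpd P f x y ≤ ∑ x, ∑ y, lpd P f x y :=
      Finset.single_le_sum (f := fun x => ∑ y, lpd P f x y)
        (fun x _ => Finset.sum_nonneg fun y _ => lpd_nonneg f x y) (Finset.mem_univ x)
    linarith only [hk, h1, h2]
  obtain ⟨K, hK, hTV, hM⟩ := crude_kernel_aux f hP hR1 hΛ (by rw [hR2]; linarith only []) k σ hσ hk
  refine ⟨K, hK, fun x x' h => (hTV x x' h).trans ?_, fun x => ?_⟩
  · have : lpd P f x x' / σ ≤ 1 := by rw [div_le_one hσ]; exact h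
    linarith only [this]
  · have h1 : ∑ y, K x y * (lpd P f x y / σ) ^ P =
        (∑ y, K x y * lpd P f x y ^ P) / σ ^ P := by
      rw [Finset.sum_div]
      refine Finset.sum_congr rfl fun y _ => ?_
      rw [Real.div_rpow (lpd_nonneg f x y) hσ.le, mul_div_assoc]
    rw [h1]
    have h2 : (R * σ) ^ P / σ ^ P = R ^ P := by
      rw [Real.mul_rpow (by linarith only [hR1]) hσ.le, mul_div_cancel_right₀]
      exact (Real.rpow_pos_of_pos hσ _).ne'
    have h3 : R ^ P = (1 + 4 ^ (P + 1) * Λ ^ 2 * l) ^ (P / 2) := by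
      rw [← hR2, ← Real.rpow_natCast, ← Real.rpow_mul (by linarith only [hR1])]
      congr 1
      push_cast
      ring
    calc (∑ y, K x y * lpd P f x y ^ P) / σ ^ P ≤ (R * σ) ^ P / σ ^ P :=
          div_le_div_of_nonneg_right (hM x) (Real.rpow_nonneg hσ.le _)
      _ = (1 + 4 ^ (P + 1) * Λ ^ 2 * l) ^ (P / 2) := by rw [h2, h3]
      _ ≤ ((1 + 4 ^ (P + 1) * Λ ^ 2) * (1 + l)) ^ (P / 2) := by
          refine Real.rpow_le_rpow (by linarith only [hAl]) ?_ (by linarith only [hP])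
          nlinarith only [hlog, hA]
      _ = _ := Real.mul_rpow (by positivity) (by linarith only [hlog])

end Vale.Agent.P249
end
end

section

section

/-!
# P249: mixing Gibbs kernels with crude kernels
-/

open scoped ENNReal BigOperators

namespace Vale.Agent.P249

/-- polynomial growth against exponential growth -/
theorem exists_rpow_le_exp (P : ℝ) (hP : 1 ≤ P) : ∃ C0 : ℝ, 1 ≤ C0 ∧
    ∀ t : ℝ, 0 ≤ t → t ^ P ≤ C0 * (Real.exp (t / 32) - 1) := by
  set k := ⌈P⌉₊ with hk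
  have hPk : P ≤ k := Nat.le_ceil P
  refine ⟨33 * 32 ^ k * k.factorial, ?_, fun t ht => ?_⟩
  · have h1 : (1 : ℝ) ≤ 32 ^ k := one_le_pow₀ (by norm_num)
    have h2 : (1 : ℝ) ≤ k.factorial := by exact_mod_cast Nat.factorial_pos k
    nlinarith only [h1, h2]
  · have hs : 0 ≤ t / 32 := by positivity
    have h1 : t / 32 + 1 ≤ Real.exp (t / 32) := Real.add_one_le_exp _
    have h32 : (1 : ℝ) ≤ 32 ^ k := one_le_pow₀ (by norm_num)
    have hf : (1 : ℝ) ≤ k.factorial := by exact_mod_cast Nat.factorial_pos k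
    have hc : (32 : ℝ) ≤ 33 * 32 ^ k * k.factorial := by nlinarith only [h32, hf]
    rcases le_total t 1 with h | h
    · have h2 : t ^ P ≤ t := by
        rcases ht.eq_or_lt with rfl | hpos
        · rw [Real.zero_rpow (by linarith only [hP])]
        · have := Real.rpow_le_rpow_of_exponent_ge hpos h hP
          rwa [Real.rpow_one] at this
      calc t ^ P ≤ 32 * (t / 32) := by linarith only [h2]
        _ ≤ 32 * (Real.exp (t / 32) - 1) := by linarith
        _ ≤ _ := mul_le_mul_of_nonneg_right hc (by linarith only [ht, h1])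
    · have h2 : t ^ P ≤ t ^ k := by
        rw [← Real.rpow_natCast]
        exact Real.rpow_le_rpow_of_exponent_le h hPk
      have h3 : (t / 32) ^ k / k.factorial ≤ Real.exp (t / 32) :=
        Real.pow_div_factorial_le_exp _ hs k
      have h4 : Real.exp (t / 32) ≤ 33 * (Real.exp (t / 32) - 1) := by
        have : 1 / 32 ≤ t / 32 := by linarith only [h]
        linarith only [h1, h]
      have hfpos : (0 : ℝ) < k.factorial := by linarith only [hf]
      rw [div_le_iff₀ hfpos] at h3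
      calc t ^ P ≤ t ^ k := h2
        _ = 32 ^ k * (t / 32) ^ k := by rw [div_pow]; (clear * - h; field_simp)
        _ ≤ 32 ^ k * (Real.exp (t / 32) * k.factorial) := by (clear * - h3; gcongr)
        _ ≤ 32 ^ k * (33 * (Real.exp (t / 32) - 1) * k.factorial) := by gcongr
        _ = _ := by ring

theorem exp_sub_one_le_four_mul {u : ℝ} (h0 : 0 ≤ u) (h2 : u ≤ 2) : Real.exp u - 1 ≤ 4 * u := by
  have h1 := convexOn_exp.2 (Set.mem_univ (0 : ℝ)) (Set.mem_univ (2 : ℝ))
    (show 0 ≤ 1 - u / 2 by linarith only [h2]) (show 0 ≤ u / 2 by linarith) (by ring)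
  simp only [smul_eq_mul, mul_zero, zero_add, Real.exp_zero, mul_one] at h1
  have h3 : u / 2 * 2 = u := by ring
  rw [h3] at h1
  have h4 : Real.exp 2 ≤ 9 := by
    have h5 : Real.exp 2 = Real.exp 1 * Real.exp 1 := by
      rw [← Real.exp_add]; norm_num
    have h6 := Real.exp_one_lt_d9
    have h7 := Real.exp_pos 1
    rw [h5]
    nlinarith only [h6, h7]
  nlinarith

section scale

variable {V : Type*} [Fintype V] (ρ : V → V → ℝ)

/-- The Gibbs kernel. -/
noncomputable def gbk (b : ℝ) (x y : V) : ℝ := Real.exp (-(b * ρ x y)) / Zf b ρ x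

variable [Nonempty V]

theorem gbk_stoch (b : ℝ) : IsStoch (gbk ρ b) := by
  refine ⟨fun x y => div_nonneg (Real.exp_pos _).le (Zf_pos ρ b x).le, fun x => ?_⟩
  unfold gbk
  rw [← Finset.sum_div]
  exact div_self (Zf_pos ρ b x).ne'

variable {ρ}

omit [Nonempty V] in
theorem Zf_le_exp_mul (hs : ∀ x y, ρ x y = ρ y x) (ht : ∀ x y z, ρ x z ≤ ρ x y + ρ y z) {b : ℝ}
    (hb : 0 ≤ b) (x x' : V) : Zf b ρ x ≤ Real.exp (b * ρ x x') * Zf b ρ x' := by
  unfold Zf
  rw [Finset.mul_sum]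
  refine Finset.sum_le_sum fun y _ => ?_
  rw [← Real.exp_add, Real.exp_le_exp]
  have h1 := mul_le_mul_of_nonneg_left (ht x' x y) hb
  rw [hs x' x] at h1
  linarith only [h1]

theorem log_Zf_le (hs : ∀ x y, ρ x y = ρ y x) (ht : ∀ x y z, ρ x z ≤ ρ x y + ρ y z) {b : ℝ}
    (hb : 0 ≤ b) (x x' : V) : Real.log (Zf b ρ x) ≤ b * ρ x x' + Real.log (Zf b ρ x') := by
  have h := Real.log_le_log (Zf_pos ρ b x) (Zf_le_exp_mul hs ht hb x x')
  rwa [Real.log_mul (Real.exp_pos _).ne' (Zf_pos ρ b x').ne', Real.log_exp] at h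

theorem gbk_le_exp_mul (hs : ∀ x y, ρ x y = ρ y x) (ht : ∀ x y z, ρ x z ≤ ρ x y + ρ y z) {b : ℝ}
    (hb : 0 ≤ b) (x x' y : V) : gbk ρ b x y ≤ Real.exp (2 * (b * ρ x x')) * gbk ρ b x' y := by
  unfold gbk
  have h1 : Real.exp (-(b * ρ x y)) ≤ Real.exp (b * ρ x x') * Real.exp (-(b * ρ x' y)) := by
    rw [← Real.exp_add, Real.exp_le_exp]
    have h1 := mul_le_mul_of_nonneg_left (ht x' x y) hb
    rw [hs x' x] at h1
    linarith
  have h2 := Zf_le_exp_mul hs ht hb x' x
  rw [hs x' x] at h2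
  have hZ := Zf_pos ρ b x
  have hZ' := Zf_pos ρ b x'
  rw [div_le_iff₀ hZ]
  have h3 : Real.exp (-(b * ρ x' y)) ≤ Real.exp (-(b * ρ x' y)) / Zf b ρ x' *
      (Real.exp (b * ρ x x') * Zf b ρ x) := by
    rw [div_mul_eq_mul_div, le_div_iff₀ hZ']
    exact mul_le_mul_of_nonneg_left h2 (Real.exp_pos _).le
  calc Real.exp (-(b * ρ x y)) ≤ Real.exp (b * ρ x x') * Real.exp (-(b * ρ x' y)) := h1
    _ ≤ Real.exp (b * ρ x x') * (Real.exp (-(b * ρ x' y)) / Zf b ρ x' *
      (Real.exp (b * ρ x x') * Zf b ρ x)) := by gcongr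
    _ = _ := by rw [two_mul, Real.exp_add]; ring

/-- Total variation of the Gibbs kernel. -/
theorem gbk_tv (hs : ∀ x y, ρ x y = ρ y x) (ht : ∀ x y z, ρ x z ≤ ρ x y + ρ y z) {b : ℝ}
    (hb : 0 ≤ b) (x x' : V) (hr : b * ρ x x' ≤ 1 / 16) :
    ∑ y, |gbk ρ b x y - gbk ρ b x' y| ≤ 1 / 7 := by
  have h1 : ∀ y, |gbk ρ b x y - gbk ρ b x' y| ≤ 1 / 7 * gbk ρ b x y := by
    intro y
    have h2 := gbk_le_exp_mul hs ht hb x x' y
    have h3 := gbk_le_exp_mul hs ht hb x' x y
    rw [hs x' x] at h3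
    have hA := (gbk_stoch ρ b).1 x y
    have hA' := (gbk_stoch ρ b).1 x' y
    have h4 : Real.exp (2 * (b * ρ x x')) ≤ 8 / 7 := by
      have h5 : -(2 * (b * ρ x x')) + 1 ≤ Real.exp (-(2 * (b * ρ x x'))) := Real.add_one_le_exp _
      rw [Real.exp_neg] at h5
      have h6 : 7 / 8 ≤ (Real.exp (2 * (b * ρ x x')))⁻¹ := by linarith only [hr, h5]
      rw [le_inv_comm₀ (by norm_num) (Real.exp_pos _)] at h6
      linarith only [h6]
    have h5 : gbk ρ b x y ≤ 8 / 7 * gbk ρ b x' y :=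
      h2.trans (mul_le_mul_of_nonneg_right h4 hA')
    have h6 : gbk ρ b x' y ≤ 8 / 7 * gbk ρ b x y :=
      h3.trans (mul_le_mul_of_nonneg_right h4 hA)
    rw [abs_le]
    constructor <;> linarith only [h6, hA', h5]
  calc ∑ y, |gbk ρ b x y - gbk ρ b x' y| ≤ ∑ y, 1 / 7 * gbk ρ b x y :=
        Finset.sum_le_sum fun y _ => h1 y
    _ = 1 / 7 := by rw [← Finset.mul_sum, (gbk_stoch ρ b).2 x, mul_one]

/-- Exponential moment of the Gibbs kernel. -/
theorem gbk_moment (b : ℝ) (x : V) :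
    ∑ y, gbk ρ b x y * (Real.exp (b / 2 * ρ x y) - 1) =
      Real.exp (Real.log (Zf (b / 2) ρ x) - Real.log (Zf b ρ x)) - 1 := by
  have hZ := Zf_pos ρ b x
  rw [Real.exp_sub, Real.exp_log (Zf_pos ρ (b / 2) x), Real.exp_log hZ]
  have h1 : ∀ y, gbk ρ b x y * (Real.exp (b / 2 * ρ x y) - 1) =
      Real.exp (-(b / 2 * ρ x y)) / Zf b ρ x - gbk ρ b x y := by
    intro y
    unfold gbk
    rw [mul_sub, mul_one, div_mul_eq_mul_div, ← Real.exp_add]
    congr 3
    ring
  simp only [h1]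
  rw [Finset.sum_sub_distrib, (gbk_stoch ρ b).2 x, ← Finset.sum_div]
  rfl

/-- One scale of the mixture. -/
theorem gibbs_mix_scale {P : ℝ} {C0 : ℝ} (hC1 : 1 ≤ C0)
    (hC : ∀ t : ℝ, 0 ≤ t → t ^ P ≤ C0 * (Real.exp (t / 32) - 1)) (h0 : ∀ x, ρ x x = 0)
    (hs : ∀ x y, ρ x y = ρ y x) (ht : ∀ x y z, ρ x z ≤ ρ x y + ρ y z) {B : ℝ} (hB : 0 ≤ B)
    {σ : ℝ} (hσ : 0 < σ) {K' : V → V → ℝ} (hK' : IsStoch K')
    (hTV : ∀ x x', ρ x x' ≤ σ → ∑ y, |K' x y - K' x' y| ≤ 1 / 16)
    (hM : ∀ x, ∑ y, K' x y * (ρ x y / σ) ^ P ≤ B) :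
    ∃ K : V → V → ℝ, IsStoch K ∧ (∀ x x', ρ x x' ≤ σ → ∑ y, |K x y - K x' y| ≤ 1 / 2) ∧
      ∀ x, ∑ y, K x y * (ρ x y / σ) ^ P ≤ (4 * C0 + B) *
        (Real.log (Zf (1 / (16 * σ) / 2) ρ x) - Real.log (Zf (1 / (16 * σ)) ρ x)) := by
  have hρ : ∀ x y, 0 ≤ ρ x y := by
    intro x y
    have h1 := ht x y x
    rw [h0, hs y x] at h1
    linarith only [h1]
  set b : ℝ := 1 / (16 * σ) with hb
  have hb0 : 0 < b := by positivity
  set u : V → ℝ := fun x => Real.log (Zf (b / 2) ρ x) - Real.log (Zf b ρ x) with hu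
  have hu0 : ∀ x, 0 ≤ u x := by
    intro x
    have := Real.log_le_log (Zf_pos ρ b x) (Zf_anti ρ (by linarith only [hb0] : b / 2 ≤ b) x (hρ x))
    simp only [hu]
    linarith only [this]
  set κ : V → ℝ := fun x => max 0 (min 1 (2 - u x)) with hκ
  have hκ0 : ∀ x, 0 ≤ κ x := fun x => le_max_left _ _
  have hκ1 : ∀ x, κ x ≤ 1 := fun x => max_le zero_le_one (min_le_left _ _)
  have hκu : ∀ x x', |κ x - κ x'| ≤ |u x - u x'| := by
    intro x x'
    have h1 : |κ x - κ x'| ≤ |min 1 (2 - u x) - min 1 (2 - u x')| := by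
      simp only [hκ]
      rw [max_comm 0, max_comm 0]
      exact abs_max_sub_max_le_abs _ _ _
    have h2 : |min 1 (2 - u x) - min 1 (2 - u x')| ≤ |(2 - u x) - (2 - u x')| := by
      refine (abs_min_sub_min_le_max _ _ _ _).trans ?_
      rw [sub_self, abs_zero]
      exact max_le (abs_nonneg _) le_rfl
    have h3 : (2 - u x) - (2 - u x') = -(u x - u x') := by ring
    rw [h3, abs_neg] at h2
    exact h1.trans h2
  have huLip : ∀ x x', ρ x x' ≤ σ → |u x - u x'| ≤ 3 / 32 := by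
    intro x x' hr
    have hbr : b * ρ x x' ≤ 1 / 16 := by
      calc b * ρ x x' ≤ b * σ := mul_le_mul_of_nonneg_left hr hb0.le
        _ = 1 / 16 := by rw [hb]; field_simp
    have e1 := log_Zf_le hs ht hb0.le x x'
    have e2 := log_Zf_le hs ht hb0.le x' x
    have e3 := log_Zf_le hs ht (by linarith only [hb0] : 0 ≤ b / 2) x x'
    have e4 := log_Zf_le hs ht (by linarith only [hb0] : 0 ≤ b / 2) x' x
    rw [hs x' x] at e2 e4
    have e5 : b / 2 * ρ x x' ≤ 1 / 32 := by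
      have : b / 2 * ρ x x' = b * ρ x x' / 2 := by ring
      rw [this]
      linarith only [hbr]
    simp only [hu]
    rw [abs_le]
    constructor <;> linarith only [hbr, e1, e4, e2, e3]
  have hK'0 := hK'.1
  have hK's := hK'.2
  have hA0 := (gbk_stoch ρ b).1
  have hAs := (gbk_stoch ρ b).2
  refine ⟨fun x y => κ x * gbk ρ b x y + (1 - κ x) * K' x y, ⟨fun x y => ?_, fun x => ?_⟩,
    fun x x' hr => ?_, fun x => ?_⟩
  · exact add_nonneg (mul_nonneg (hκ0 x) (hA0 x y))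
      (mul_nonneg (sub_nonneg.2 (hκ1 x)) (hK'0 x y))
  · rw [Finset.sum_add_distrib, ← Finset.mul_sum, ← Finset.mul_sum, hAs, hK's]
    ring
  · have hbr : b * ρ x x' ≤ 1 / 16 := by
      calc b * ρ x x' ≤ b * σ := mul_le_mul_of_nonneg_left hr hb0.le
        _ = 1 / 16 := by rw [hb]; field_simp
    have t1 := gbk_tv hs ht hb0.le x x' hbr
    have t2 := hTV x x' hr
    have t3 := (hκu x x').trans (huLip x x' hr)
    have h1 : ∀ y, |κ x * gbk ρ b x y + (1 - κ x) * K' x y -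
        (κ x' * gbk ρ b x' y + (1 - κ x') * K' x' y)| ≤
        κ x * |gbk ρ b x y - gbk ρ b x' y| + (1 - κ x) * |K' x y - K' x' y| +
          |κ x - κ x'| * (gbk ρ b x' y + K' x' y) := by
      intro y
      have e1 : κ x * gbk ρ b x y + (1 - κ x) * K' x y -
        (κ x' * gbk ρ b x' y + (1 - κ x') * K' x' y) =
        κ x * (gbk ρ b x y - gbk ρ b x' y) + (1 - κ x) * (K' x y - K' x' y) +
          (κ x - κ x') * (gbk ρ b x' y - K' x' y) := by ring
      rw [e1]
      refine (abs_add_le _ _).trans (add_le_add ((abs_add_le _ _).trans (add_le_add ?_ ?_)) ?_)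
      · rw [abs_mul, abs_of_nonneg (hκ0 x)]
      · rw [abs_mul, abs_of_nonneg (sub_nonneg.2 (hκ1 x))]
      · rw [abs_mul]
        refine mul_le_mul_of_nonneg_left ?_ (abs_nonneg _)
        refine (abs_sub _ _).trans ?_
        rw [abs_of_nonneg (hA0 x' y), abs_of_nonneg (hK'0 x' y)]
    calc _ ≤ ∑ y, (κ x * |gbk ρ b x y - gbk ρ b x' y| + (1 - κ x) * |K' x y - K' x' y| +
          |κ x - κ x'| * (gbk ρ b x' y + K' x' y)) := Finset.sum_le_sum fun y _ => h1 y
      _ = κ x * ∑ y, |gbk ρ b x y - gbk ρ b x' y| + (1 - κ x) * ∑ y, |K' x y - K' x' y| +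
          |κ x - κ x'| * 2 := by
          rw [Finset.sum_add_distrib, Finset.sum_add_distrib, ← Finset.mul_sum,
            ← Finset.mul_sum, ← Finset.mul_sum, Finset.sum_add_distrib, hAs, hK's]
          norm_num
      _ ≤ κ x * (1 / 7) + (1 - κ x) * (1 / 16) + 3 / 32 * 2 := by
          have a1 := mul_le_mul_of_nonneg_left t1 (hκ0 x)
          have a2 := mul_le_mul_of_nonneg_left t2 (sub_nonneg.2 (hκ1 x))
          linarith
      _ ≤ 1 / 2 := by
          have := hκ0 x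
          have := hκ1 x
          nlinarith only [this]
  · have hnn : ∀ y, 0 ≤ ρ x y / σ := fun y => div_nonneg (hρ x y) hσ.le
    have m1 : ∑ y, gbk ρ b x y * (ρ x y / σ) ^ P ≤ C0 * (Real.exp (u x) - 1) := by
      have e1 := gbk_moment (ρ := ρ) b x
      have e2 : ∑ y, gbk ρ b x y * (ρ x y / σ) ^ P ≤
          ∑ y, C0 * (gbk ρ b x y * (Real.exp (b / 2 * ρ x y) - 1)) := by
        refine Finset.sum_le_sum fun y _ => ?_
        have e3 := hC (ρ x y / σ) (hnn y)
        have e4 : ρ x y / σ / 32 = b / 2 * ρ x y := by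
          rw [hb]
          field_simp
          ring
        rw [e4] at e3
        calc gbk ρ b x y * (ρ x y / σ) ^ P ≤
            gbk ρ b x y * (C0 * (Real.exp (b / 2 * ρ x y) - 1)) :=
              mul_le_mul_of_nonneg_left e3 (hA0 x y)
          _ = _ := by ring
      rw [← Finset.mul_sum, e1] at e2
      exact e2
    have m2 := hM x
    have hsplit : ∑ y, (κ x * gbk ρ b x y + (1 - κ x) * K' x y) * (ρ x y / σ) ^ P =
        κ x * ∑ y, gbk ρ b x y * (ρ x y / σ) ^ P + (1 - κ x) * ∑ y, K' x y * (ρ x y / σ) ^ P := by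
      rw [Finset.mul_sum, Finset.mul_sum, ← Finset.sum_add_distrib]
      refine Finset.sum_congr rfl fun y _ => by ring
    have hux : u x = Real.log (Zf (b / 2) ρ x) - Real.log (Zf b ρ x) := rfl
    change ∑ y, (κ x * gbk ρ b x y + (1 - κ x) * K' x y) * (ρ x y / σ) ^ P ≤ _
    rw [← hux, hsplit]
    have hu0x := hu0 x
    have hk0 := hκ0 x
    have hk1 := hκ1 x
    have p1 : κ x * ∑ y, gbk ρ b x y * (ρ x y / σ) ^ P ≤ 4 * C0 * u x := by
      rcases le_total (u x) 2 with h | h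
      · have q1 := exp_sub_one_le_four_mul hu0x h
        have q2 : 0 ≤ Real.exp (u x) - 1 := by
          have := Real.add_one_le_exp (u x)
          linarith only [hu0x, this]
        calc κ x * ∑ y, gbk ρ b x y * (ρ x y / σ) ^ P ≤ κ x * (C0 * (Real.exp (u x) - 1)) := by
              (clear * - m1; gcongr)
          _ ≤ 1 * (C0 * (Real.exp (u x) - 1)) :=
              mul_le_mul_of_nonneg_right hk1 (mul_nonneg (by linarith only [hC1]) q2)
          _ ≤ 1 * (C0 * (4 * u x)) := by (clear * - hC1 q1; gcongr)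
          _ = 4 * C0 * u x := by ring
      · have hk : κ x = 0 := by
          simp only [hκ]
          rw [min_eq_right (by linarith only [h])]
          exact max_eq_left (by linarith only [h])
        rw [hk, zero_mul]
        (clear * - hC1 h; positivity)
    have p2 : (1 - κ x) * ∑ y, K' x y * (ρ x y / σ) ^ P ≤ B * u x := by
      have q1 : 1 - κ x ≤ u x := by
        rcases le_total (u x) 1 with h | h
        · have hk : κ x = 1 := by
            simp only [hκ]
            rw [min_eq_left (by linarith only [h])]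
            exact max_eq_right zero_le_one
          rw [hk]
          linarith only [hu0x]
        · linarith only [hk0, h]
      calc (1 - κ x) * ∑ y, K' x y * (ρ x y / σ) ^ P ≤ (1 - κ x) * B :=
            mul_le_mul_of_nonneg_left m2 (by linarith only [hk1])
        _ ≤ u x * B := mul_le_mul_of_nonneg_right q1 hB
        _ = B * u x := mul_comm _ _
    calc _ ≤ 4 * C0 * u x + B * u x := add_le_add p1 p2
      _ = _ := by ring

end scale

theorem gibbs_mix (P : ℝ) (hP : 1 ≤ P) : ∃ C : ℝ, 0 < C ∧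
    ∀ {V : Type*} [Fintype V] [Nonempty V] (ρ : V → V → ℝ), (∀ x, ρ x x = 0) →
      (∀ x y, ρ x y = ρ y x) → (∀ x y z, ρ x z ≤ ρ x y + ρ y z) → ∀ B : ℝ, 0 ≤ B →
      (∀ σ : ℝ, 0 < σ → ∃ K : V → V → ℝ, IsStoch K ∧
        (∀ x x', ρ x x' ≤ σ → ∑ y, |K x y - K x' y| ≤ 1 / 16) ∧
        ∀ x, ∑ y, K x y * (ρ x y / σ) ^ P ≤ B) →
      HasKernels P ρ (C * (1 + B) * Real.log (Fintype.card V)) := by
  obtain ⟨C0, hC1, hC⟩ := exists_rpow_le_exp P hP
  refine ⟨4 * C0, by linarith only [hC1], ?_⟩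
  intro V _ _ ρ h0 hs ht B hB hcr
  have hρ : ∀ x y, 0 ≤ ρ x y := by
    intro x y
    have h1 := ht x y x
    rw [h0, hs y x] at h1
    linarith
  have hpow : ∀ j : ℤ, (0 : ℝ) < 2 ^ j := fun j => zpow_pos (by norm_num) j
  have hex : ∀ j : ℤ, ∃ K : V → V → ℝ, IsStoch K ∧
      (∀ x x', ρ x x' ≤ (2 : ℝ) ^ j → ∑ y, |K x y - K x' y| ≤ 1 / 2) ∧
      ∀ x, ∑ y, K x y * (ρ x y / (2 : ℝ) ^ j) ^ P ≤ (4 * C0 + B) *
        (Real.log (Zf (1 / (16 * (2 : ℝ) ^ j) / 2) ρ x) -
          Real.log (Zf (1 / (16 * (2 : ℝ) ^ j)) ρ x)) := by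
    intro j
    obtain ⟨K', hK', hTV, hM⟩ := hcr ((2 : ℝ) ^ j) (hpow j)
    exact gibbs_mix_scale hC1 hC h0 hs ht hB (hpow j) hK' hTV hM
  choose K hK hKTV hKM using hex
  intro J
  refine ⟨K, hK, fun j _ x x' hr => hKTV j x x' hr, fun x => ?_⟩
  set L : ℤ → ℝ := fun j => Real.log (Zf (1 / (16 * (2 : ℝ) ^ j)) ρ x) with hL
  have hLmono : Monotone L := by
    intro i j hij
    refine Real.log_le_log (Zf_pos ρ _ x) (Zf_anti ρ ?_ x (hρ x))
    have h1 : (2 : ℝ) ^ i ≤ 2 ^ j := zpow_le_zpow_right₀ (by norm_num) hij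
    have h2 := hpow i
    exact one_div_le_one_div_of_le (by positivity) (by linarith only [h1])
  have hL0 : ∀ j, 0 ≤ L j := fun j => Real.log_nonneg (one_le_Zf ρ _ x (h0 x))
  have hLB : ∀ j, L j ≤ Real.log (Fintype.card V) := by
    intro j
    refine Real.log_le_log (Zf_pos ρ _ x) (Zf_le_card ρ _ ?_ x (hρ x))
    have := hpow j
    positivity
  have htel := sum_telescope_le L hLmono _ hL0 hLB 1 J
  have hstep : ∀ j : ℤ, Real.log (Zf (1 / (16 * (2 : ℝ) ^ j) / 2) ρ x) = L (j + (1 : ℕ)) := by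
    intro j
    simp only [hL]
    congr 2
    rw [Nat.cast_one, zpow_add_one₀ (by norm_num)]
    have := (hpow j).ne'
    field_simp
  have hlog : 0 ≤ Real.log (Fintype.card V) := (hL0 0).trans (hLB 0)
  calc ∑ j ∈ J, ∑ y, K j x y * (ρ x y / (2 : ℝ) ^ j) ^ P ≤
      ∑ j ∈ J, (4 * C0 + B) * (L (j + (1 : ℕ)) - L j) := by
        refine Finset.sum_le_sum fun j _ => ?_
        rw [← hstep j]
        exact hKM j x
    _ = (4 * C0 + B) * ∑ j ∈ J, (L (j + (1 : ℕ)) - L j) := by rw [Finset.mul_sum]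
    _ ≤ (4 * C0 + B) * ((1 : ℕ) * Real.log (Fintype.card V)) :=
        mul_le_mul_of_nonneg_left htel (by linarith only [hC1, hB])
    _ = (4 * C0 + B) * Real.log (Fintype.card V) := by rw [Nat.cast_one, one_mul]
    _ ≤ 4 * C0 * (1 + B) * Real.log (Fintype.card V) := by
        refine mul_le_mul_of_nonneg_right ?_ hlog
        nlinarith only [hC1, hB]

end Vale.Agent.P249
end
end

section

section

open MeasureTheory
open scoped ENNReal BigOperators

namespace Vale.Agent.P249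

variable {p : ℝ≥0∞}

theorem toReal_pos_of_fact [Fact (1 ≤ p)] (hp : p ≠ ∞) : 0 < p.toReal :=
  ENNReal.toReal_pos (by have := Fact.out (p := 1 ≤ p); intro h; simp [h] at this) hp

theorem one_le_toReal_of_fact [Fact (1 ≤ p)] (hp : p ≠ ∞) : 1 ≤ p.toReal := by
  have h := Fact.out (p := 1 ≤ p)
  have := ENNReal.toReal_mono hp h
  simpa only [ge_iff_le, ENNReal.toReal_one] using this

theorem norm_rpow_eq_sum [Fact (1 ≤ p)] (hp : p ≠ ∞) {ι : Type*} [Fintype ι]
    (v : PiLp p (fun _ : ι => ℝ)) : ‖v‖ ^ p.toReal = ∑ i, |v i| ^ p.toReal := by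
  have h0 := toReal_pos_of_fact (p := p) hp
  rw [PiLp.norm_eq_sum h0, ← Real.rpow_mul (Finset.sum_nonneg fun i _ =>
    Real.rpow_nonneg (norm_nonneg _) _), one_div, inv_mul_cancel₀ h0.ne', Real.rpow_one]
  simp only [Real.norm_eq_abs]

/-- concatenation of two vectors -/
noncomputable def joinL {a b : ℕ} (u : PiLp p (fun _ : Fin a => ℝ))
    (v : PiLp p (fun _ : Fin b => ℝ)) : PiLp p (fun _ : Fin (a + b) => ℝ) :=
  WithLp.toLp p (Fin.append (fun i => u i) (fun i => v i))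

theorem norm_joinL_sub_rpow [Fact (1 ≤ p)] (hp : p ≠ ∞) {a b : ℕ}
    (u u' : PiLp p (fun _ : Fin a => ℝ)) (v v' : PiLp p (fun _ : Fin b => ℝ)) :
    ‖joinL u v - joinL u' v'‖ ^ p.toReal = ‖u - u'‖ ^ p.toReal + ‖v - v'‖ ^ p.toReal := by
  rw [norm_rpow_eq_sum hp, norm_rpow_eq_sum hp, norm_rpow_eq_sum hp, Fin.sum_univ_add]
  simp only [joinL, PiLp.sub_apply, Fin.append_left, Fin.append_right]

/-- stacking a family of vectors -/
noncomputable def stackL {m d : ℕ} (u : Fin m → PiLp p (fun _ : Fin d => ℝ)) :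
    PiLp p (fun _ : Fin (m * d) => ℝ) :=
  WithLp.toLp p (fun i => u (finProdFinEquiv.symm i).1 (finProdFinEquiv.symm i).2)

theorem norm_stackL_sub_rpow [Fact (1 ≤ p)] (hp : p ≠ ∞) {m d : ℕ}
    (u u' : Fin m → PiLp p (fun _ : Fin d => ℝ)) :
    ‖stackL u - stackL u'‖ ^ p.toReal = ∑ t, ‖u t - u' t‖ ^ p.toReal := by
  rw [norm_rpow_eq_sum hp]
  simp_rw [norm_rpow_eq_sum hp]
  rw [← Fintype.sum_prod_type' (f := fun t j => |(u t - u' t) j| ^ p.toReal)]
  rw [← finProdFinEquiv.symm.sum_comp]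
  rfl

/-- padding by zeros -/
noncomputable def padL {a b : ℕ} (u : PiLp p (fun _ : Fin a => ℝ)) :
    PiLp p (fun _ : Fin b => ℝ) :=
  WithLp.toLp p (fun i => if h : (i : ℕ) < a then u ⟨i, h⟩ else 0)

theorem norm_padL_sub [Fact (1 ≤ p)] (hp : p ≠ ∞) {a b : ℕ} (hab : a ≤ b)
    (u u' : PiLp p (fun _ : Fin a => ℝ)) :
    ‖(padL u : PiLp p (fun _ : Fin b => ℝ)) - padL u'‖ = ‖u - u'‖ := by
  have h0 := toReal_pos_of_fact (p := p) hp
  obtain ⟨c, rfl⟩ := Nat.exists_eq_add_of_le hab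
  have : ‖(padL u : PiLp p (fun _ : Fin (a + c) => ℝ)) - padL u'‖ ^ p.toReal
      = ‖u - u'‖ ^ p.toReal := by
    rw [norm_rpow_eq_sum hp, norm_rpow_eq_sum hp, Fin.sum_univ_add]
    simp only [padL, PiLp.sub_apply, Fin.val_castAdd, Fin.is_lt, ↓reduceDIte, Fin.eta,
      Fin.val_natAdd, add_lt_iff_neg_left, not_lt_zero, sub_self, abs_zero, ne_eq, h0.ne',
      not_false_eq_true, Real.zero_rpow, Finset.sum_const_zero, add_zero]
  exact (Real.rpow_left_inj (norm_nonneg _) (norm_nonneg _) h0.ne').1 this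

end Vale.Agent.P249
end
end

section

section
open MeasureTheory
open scoped ENNReal BigOperators
namespace Vale.Agent.P249

namespace EpsSampleAux

/-- one-sample exponential moment -/
theorem mgf_le {N : ℕ} (hN : 0 < N) (Z : Fin N → ℝ) (hZ0 : ∀ i, 0 ≤ Z i) {S M : ℝ}
    (hS : 0 < S) (hZS : ∀ i, Z i ≤ S) (hM : (∑ i, Z i) / N ≤ M) {l : ℝ} (hl : |l| * S ≤ 1) :
    ∑ i, Real.exp (l * (Z i - (∑ i, Z i) / N)) ≤ N * Real.exp (l ^ 2 * S * M) := by
  have hN' : (0 : ℝ) < N := Nat.cast_pos.mpr hN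
  set μ : ℝ := (∑ i, Z i) / N with hμ
  have hμ0 : 0 ≤ μ := div_nonneg (Finset.sum_nonneg (fun i _ => hZ0 i)) hN'.le
  have h1 : ∀ i, Real.exp (l * Z i) ≤ 1 + l * Z i + l ^ 2 * S * Z i := by
    intro i
    have h2 : |l * Z i| ≤ 1 := by
      rw [abs_mul, abs_of_nonneg (hZ0 i)]
      exact le_trans (mul_le_mul_of_nonneg_left (hZS i) (abs_nonneg l)) hl
    have h3 := (abs_le.mp (Real.abs_exp_sub_one_sub_id_le h2)).2
    have h4 : (l * Z i) ^ 2 ≤ l ^ 2 * S * Z i := by
      have h5 : Z i * Z i ≤ S * Z i := mul_le_mul_of_nonneg_right (hZS i) (hZ0 i)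
      have h6 : 0 ≤ l ^ 2 := sq_nonneg l
      nlinarith only [h5]
    linarith only [h3, h4]
  have h2 : ∑ i, Real.exp (l * Z i) ≤ N * Real.exp (l * μ + l ^ 2 * S * M) := by
    have h3 : ∑ i, Z i = N * μ := by
      rw [hμ]
      field_simp
    calc ∑ i, Real.exp (l * Z i) ≤ ∑ i, (1 + l * Z i + l ^ 2 * S * Z i) :=
          Finset.sum_le_sum (fun i _ => h1 i)
      _ = N * (1 + l * μ + l ^ 2 * S * μ) := by
          rw [Finset.sum_add_distrib, Finset.sum_add_distrib, ← Finset.mul_sum, ← Finset.mul_sum,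
            h3]
          simp only [Finset.sum_const, Finset.card_univ, Fintype.card_fin, nsmul_eq_mul, mul_one]
          ring
      _ ≤ N * (1 + (l * μ + l ^ 2 * S * M)) := by
          refine mul_le_mul_of_nonneg_left ?_ hN'.le
          have h4 : l ^ 2 * S * μ ≤ l ^ 2 * S * M :=
            mul_le_mul_of_nonneg_left hM (by (clear * - hS; positivity))
          linarith only [h4]
      _ ≤ N * Real.exp (l * μ + l ^ 2 * S * M) := by
          refine mul_le_mul_of_nonneg_left ?_ hN'.le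
          have := Real.add_one_le_exp (l * μ + l ^ 2 * S * M)
          linarith only [this]
  calc ∑ i, Real.exp (l * (Z i - μ)) = ∑ i, Real.exp (-(l * μ)) * Real.exp (l * Z i) := by
        refine Finset.sum_congr rfl (fun i _ => ?_)
        rw [← Real.exp_add]
        congr 1
        ring
    _ = Real.exp (-(l * μ)) * ∑ i, Real.exp (l * Z i) := (Finset.mul_sum _ _ _).symm
    _ ≤ Real.exp (-(l * μ)) * (N * Real.exp (l * μ + l ^ 2 * S * M)) :=
        mul_le_mul_of_nonneg_left h2 (Real.exp_pos _).le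
    _ = N * (Real.exp (-(l * μ)) * Real.exp (l * μ + l ^ 2 * S * M)) := by ring
    _ = N * Real.exp (l ^ 2 * S * M) := by
        rw [← Real.exp_add]
        congr 2
        ring

theorem mgf_prod {N m : ℕ} (Z : Fin N → ℝ) (μ l : ℝ) :
    ∑ ω : Fin m → Fin N, Real.exp (l * ∑ t, (Z (ω t) - μ)) =
      (∑ i, Real.exp (l * (Z i - μ))) ^ m := by
  rw [Fintype.sum_pow]
  refine Finset.sum_congr rfl (fun ω _ => ?_)
  rw [Finset.mul_sum, Real.exp_sum]

end EpsSampleAux

open EpsSampleAux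

/-! T9 -/
theorem sample_finite {N : ℕ} {P : Type*} [Fintype P] (Z : P → Fin N → ℝ)
    (hZ0 : ∀ a i, 0 ≤ Z a i) (S M δ : ℝ) (hS : 0 < S) (hZS : ∀ a i, Z a i ≤ S)
    (hM : ∀ a, (∑ i, Z a i) / N ≤ M) (hδ : 0 < δ) (hδM : δ ≤ 2 * M) (hN : 0 < N)
    (m : ℕ) (hm0 : 0 < m) (hm : 4 * S * M * Real.log (2 * Fintype.card P + 1) ≤ δ ^ 2 * m) :
    ∃ ω : Fin m → Fin N, ∀ a, |(∑ t, Z a (ω t)) / m - (∑ i, Z a i) / N| ≤ δ := by
  have hM0 : 0 < M := by linarith only [hδ, hδM]
  have hm' : (0 : ℝ) < m := Nat.cast_pos.mpr hm0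
  set l : ℝ := δ / (2 * S * M) with hl
  have hl0 : 0 < l := by positivity
  have hlS : |l| * S ≤ 1 := by
    rw [abs_of_pos hl0, hl]
    rw [div_mul_eq_mul_div, div_le_one (by positivity)]
    nlinarith only [hS, hδM]
  have hlS' : |-l| * S ≤ 1 := by rwa [abs_neg]
  set B : ℝ := Real.exp (l ^ 2 * S * M) with hB
  set μ : P → ℝ := fun a => (∑ i, Z a i) / N with hμ
  set Φ : (Fin m → Fin N) → ℝ := fun ω => ∑ a, (Real.exp (l * ∑ t, (Z a (ω t) - μ a)) +
    Real.exp (-l * ∑ t, (Z a (ω t) - μ a))) with hΦ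
  have htot : ∑ ω, Φ ω ≤ ∑ _ω : Fin m → Fin N, (2 * Fintype.card P * B ^ m : ℝ) := by
    rw [hΦ]
    rw [Finset.sum_comm]
    have h1 : ∀ a, ∑ ω : Fin m → Fin N, (Real.exp (l * ∑ t, (Z a (ω t) - μ a)) +
        Real.exp (-l * ∑ t, (Z a (ω t) - μ a))) ≤ 2 * ((N : ℝ) * B) ^ m := by
      intro a
      rw [Finset.sum_add_distrib, mgf_prod, mgf_prod]
      have h2 := mgf_le hN (Z a) (hZ0 a) hS (hZS a) (hM a) hlS
      have h3 := mgf_le hN (Z a) (hZ0 a) hS (hZS a) (hM a) hlS'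
      rw [neg_sq] at h3
      have h4 : (∑ i, Real.exp (l * (Z a i - μ a))) ^ m ≤ ((N : ℝ) * B) ^ m :=
        pow_le_pow_left₀ (Finset.sum_nonneg (fun i _ => (Real.exp_pos _).le)) h2 m
      have h5 : (∑ i, Real.exp (-l * (Z a i - μ a))) ^ m ≤ ((N : ℝ) * B) ^ m :=
        pow_le_pow_left₀ (Finset.sum_nonneg (fun i _ => (Real.exp_pos _).le)) h3 m
      linarith only [h4, h5]
    refine le_trans (Finset.sum_le_sum (fun a _ => h1 a)) (le_of_eq ?_)
    rw [Finset.sum_const, Finset.sum_const, Finset.card_univ, Finset.card_univ, nsmul_eq_mul,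
      nsmul_eq_mul, Fintype.card_fun, Fintype.card_fin, Fintype.card_fin, mul_pow]
    push_cast
    ring
  have hne : (Finset.univ : Finset (Fin m → Fin N)).Nonempty :=
    ⟨fun _ => ⟨0, hN⟩, Finset.mem_univ _⟩
  obtain ⟨ω, _, hω⟩ := Finset.exists_le_of_sum_le hne htot
  refine ⟨ω, fun a => ?_⟩
  by_contra hcon
  push Not at hcon
  set D : ℝ := ∑ t, (Z a (ω t) - μ a) with hD
  have hD' : (∑ t, Z a (ω t)) / m - (∑ i, Z a i) / N = D / m := by
    rw [hD, Finset.sum_sub_distrib, Finset.sum_const, Finset.card_univ, Fintype.card_fin,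
      nsmul_eq_mul]
    simp only [hμ]
    field_simp
  rw [hD', abs_div, abs_of_pos hm', lt_div_iff₀ hm'] at hcon
  -- the potential at a is large
  have h1 : Real.exp (l * |D|) ≤ Φ ω := by
    have h2 : Real.exp (l * |D|) ≤ Real.exp (l * D) + Real.exp (-l * D) := by
      rcases abs_cases D with ⟨h, _⟩ | ⟨h, _⟩
      · rw [h]
        have := (Real.exp_pos (-l * D)).le
        linarith only [this]
      · rw [h]
        have h3 : l * -D = -l * D := by ring
        rw [h3]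
        have := (Real.exp_pos (l * D)).le
        linarith only [this]
    refine le_trans h2 ?_
    exact Finset.single_le_sum (f := fun a => Real.exp (l * ∑ t, (Z a (ω t) - μ a)) +
      Real.exp (-l * ∑ t, (Z a (ω t) - μ a)))
      (fun a _ => add_nonneg (Real.exp_pos _).le (Real.exp_pos _).le) (Finset.mem_univ a)
  have h2 : Real.exp (l * (δ * m)) < Real.exp (l * |D|) :=
    Real.exp_lt_exp.mpr (mul_lt_mul_of_pos_left hcon hl0)
  have h3 : Real.exp (l * (δ * m)) < 2 * Fintype.card P * B ^ m :=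
    lt_of_lt_of_le (lt_of_lt_of_le h2 h1) hω
  have hlog : Real.log (2 * Fintype.card P + 1) + m * (l ^ 2 * S * M) ≤ l * (δ * m) := by
    have e1 : l ^ 2 * S * M = δ ^ 2 / (4 * S * M) := by
      rw [hl]
      field_simp
      ring
    have e2 : l * (δ * m) = 2 * (δ ^ 2 * m / (4 * S * M)) := by
      rw [hl]
      field_simp
      ring
    have e3 : (m : ℝ) * (δ ^ 2 / (4 * S * M)) = δ ^ 2 * m / (4 * S * M) := by ring
    have e4 : Real.log (2 * Fintype.card P + 1) ≤ δ ^ 2 * m / (4 * S * M) := by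
      rw [le_div_iff₀ (by positivity)]
      linarith only [hm]
    rw [e1, e2, e3]
    linarith only [e4]
  have hP : (0 : ℝ) < 2 * Fintype.card P + 1 := by (clear * -; positivity)
  have h4 : (2 * Fintype.card P + 1) * B ^ m ≤ Real.exp (l * (δ * m)) := by
    calc (2 * Fintype.card P + 1) * B ^ m
        = Real.exp (Real.log (2 * Fintype.card P + 1) + m * (l ^ 2 * S * M)) := by
          rw [Real.exp_add, Real.exp_log hP, hB, ← Real.exp_nat_mul]
      _ ≤ _ := Real.exp_le_exp.mpr hlog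
  have h5 : 0 < B ^ m := by positivity
  nlinarith only [hω, h1, h2, h4, h5]

end Vale.Agent.P249
end
end

section

section

open MeasureTheory
open scoped ENNReal BigOperators

namespace Vale.Agent.P249

variable {p : ℝ≥0∞}

theorem sample_map [Fact (1 ≤ p)] (hp : p ≠ ∞) {V : Type*} [Fintype V] {N m : ℕ}
    (hN : 0 < N) (hm0 : 0 < m) (U : V → PiLp p (fun _ : Fin N => ℝ)) (ρ : V → V → ℝ)
    (hρ : ∀ x y, 0 ≤ ρ x y) (θ : ℝ) (hθ : 0 < θ) (hUi : ∀ x y i, |(U x - U y) i| ≤ θ * ρ x y)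
    (C δ : ℝ) (hC : 0 < C) (hU : ∀ x y, ‖U x - U y‖ ≤ C * ρ x y) (hδ : 0 < δ)
    (hδM : δ ≤ 2 * C ^ p.toReal)
    (hm : 4 * (N * θ ^ p.toReal) * C ^ p.toReal * Real.log (2 * (Fintype.card V : ℝ) ^ 2 + 1)
      ≤ δ ^ 2 * m) :
    ∃ W : V → PiLp p (fun _ : Fin m => ℝ), (∀ x y, U x = U y → W x = W y) ∧
      ∀ x y, |‖W x - W y‖ ^ p.toReal - ‖U x - U y‖ ^ p.toReal| ≤ δ * ρ x y ^ p.toReal := by
  classical
  have hP0 := toReal_pos_of_fact (p := p) hp
  set P := p.toReal with hPdef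
  have hNr : (0:ℝ) < N := by exact_mod_cast hN
  have hmr : (0:ℝ) < m := by exact_mod_cast hm0
  set Z : V × V → Fin N → ℝ := fun a i => N * (|(U a.1 - U a.2) i| / ρ a.1 a.2) ^ P with hZ
  have hZ0 : ∀ a i, 0 ≤ Z a i := fun a i => by
    simp only [hZ]
    exact mul_nonneg hNr.le (Real.rpow_nonneg (div_nonneg (abs_nonneg _) (hρ _ _)) _)
  have hZS : ∀ a i, Z a i ≤ N * θ ^ P := by
    intro a i
    simp only [hZ]
    apply mul_le_mul_of_nonneg_left _ hNr.le
    apply Real.rpow_le_rpow (div_nonneg (abs_nonneg _) (hρ _ _)) _ hP0.le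
    exact div_le_of_le_mul₀ (hρ _ _) hθ.le (hUi _ _ _)
  have hZmean : ∀ a, (∑ i, Z a i) / N = (‖U a.1 - U a.2‖ / ρ a.1 a.2) ^ P := by
    intro a
    simp only [hZ]
    rw [← Finset.mul_sum, mul_div_assoc, mul_comm, div_mul_cancel₀ _ hNr.ne']
    rw [Real.div_rpow (norm_nonneg _) (hρ _ _), norm_rpow_eq_sum hp, Finset.sum_div]
    apply Finset.sum_congr rfl
    intro i _
    rw [Real.div_rpow (abs_nonneg _) (hρ _ _)]
  have hM : ∀ a, (∑ i, Z a i) / N ≤ C ^ P := by
    intro a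
    rw [hZmean]
    apply Real.rpow_le_rpow (div_nonneg (norm_nonneg _) (hρ _ _)) _ hP0.le
    exact div_le_of_le_mul₀ (hρ _ _) hC.le (hU _ _)
  have hcardP : (Fintype.card (V × V) : ℝ) = (Fintype.card V : ℝ) ^ 2 := by
    rw [Fintype.card_prod]; push_cast; ring
  obtain ⟨ω, hω⟩ := sample_finite Z hZ0 (N * θ ^ P) (C ^ P) δ (by positivity) hZS hM hδ hδM hN m hm0
    (by rw [hcardP]; exact hm)
  refine ⟨fun x => WithLp.toLp p (fun t => (N / m : ℝ) ^ (1 / P) * U x (ω t)), ?_, ?_⟩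
  · intro x y hxy
    simp only [hxy]
  · intro x y
    have hW : ‖(WithLp.toLp p (fun t => (N / m : ℝ) ^ (1 / P) * U x (ω t)) :
        PiLp p (fun _ : Fin m => ℝ)) -
        WithLp.toLp p (fun t => (N / m : ℝ) ^ (1 / P) * U y (ω t))‖ ^ P =
        (N / m : ℝ) * ∑ t, |(U x - U y) (ω t)| ^ P := by
      rw [norm_rpow_eq_sum hp, Finset.mul_sum]
      apply Finset.sum_congr rfl
      intro t _
      have : (WithLp.toLp p (fun t => (N / m : ℝ) ^ (1 / P) * U x (ω t)) -
        WithLp.toLp p (fun t => (N / m : ℝ) ^ (1 / P) * U y (ω t)) : PiLp p (fun _ : Fin m => ℝ)) t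
        = (N / m : ℝ) ^ (1 / P) * (U x - U y) (ω t) := by
        simp only [one_div, PiLp.sub_apply, mul_sub]
      rw [this, abs_mul, Real.mul_rpow (abs_nonneg _) (abs_nonneg _),
        abs_of_nonneg (Real.rpow_nonneg (by positivity) _), ← Real.rpow_mul (by positivity),
        one_div, inv_mul_cancel₀ hP0.ne', Real.rpow_one]
    rw [hW]
    rcases (hρ x y).eq_or_lt with h0 | h0
    · have h1 : ∀ i, (U x - U y) i = 0 := by
        intro i
        have := hUi x y i
        rw [← h0, mul_zero] at this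
        exact abs_nonpos_iff.1 this
      have h2 : ‖U x - U y‖ = 0 := by
        have := hU x y
        rw [← h0, mul_zero] at this
        exact le_antisymm this (norm_nonneg _)
      rw [h2, ← h0]
      simp only [h1, abs_zero, ne_eq, hP0.ne', not_false_eq_true, Real.zero_rpow,
        Finset.sum_const_zero, mul_zero, sub_self, Std.le_refl]
    · have hρP : 0 < ρ x y ^ P := Real.rpow_pos_of_pos h0 _
      have h3 := hω (x, y)
      rw [hZmean (x, y)] at h3
      have h4 : (∑ t, Z (x, y) (ω t)) / m = ((N / m : ℝ) * ∑ t, |(U x - U y) (ω t)| ^ P) / ρ x y ^ P := by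
        simp only [hZ]
        rw [← Finset.mul_sum]
        have : ∀ t, (|(U x - U y) (ω t)| / ρ x y) ^ P = |(U x - U y) (ω t)| ^ P / ρ x y ^ P :=
          fun t => Real.div_rpow (abs_nonneg _) (hρ _ _) _
        simp_rw [this]
        rw [← Finset.sum_div]
        (clear * - hN hm0 h0; field_simp)
      rw [h4, Real.div_rpow (norm_nonneg _) (hρ _ _), ← sub_div, abs_div, abs_of_pos hρP,
        div_le_iff₀ hρP] at h3
      exact h3

end Vale.Agent.P249
end
end

section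

section

open scoped BigOperators

namespace Vale.Agent.P249

theorem card_collide_le {N b : ℕ} {i j : Fin N} (hij : j ≠ i) :
    ((Finset.univ.filter (fun π : Fin N → Fin b => π j = π i)).card : ℝ) * b ≤ (b : ℝ) ^ N := by
  have h : ((Finset.univ.filter (fun π : Fin N → Fin b => π j = π i)) ×ˢ
      (Finset.univ : Finset (Fin b))).card ≤ (Finset.univ : Finset (Fin N → Fin b)).card := by
    refine Finset.card_le_card_of_injOn (fun x => Function.update x.1 j x.2)
      (fun _ _ => Finset.mem_coe.2 (Finset.mem_univ _)) ?_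
    rintro ⟨π, c⟩ h1 ⟨π', c'⟩ h2 h
    have hp : π j = π i := by
      simpa only [Finset.coe_product, Finset.coe_filter, Finset.mem_univ, true_and,
        Finset.coe_univ, Set.mem_prod, Set.mem_ofPred_eq, Set.mem_univ, and_true] using h1
    have hp' : π' j = π' i := by
      simpa only [Finset.coe_product, Finset.coe_filter, Finset.mem_univ, true_and,
        Finset.coe_univ, Set.mem_prod, Set.mem_ofPred_eq, Set.mem_univ, and_true] using h2
    have hfun : ∀ k, Function.update π j c k = Function.update π' j c' k := fun k => congrFun h k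
    have hc : c = c' := by
      have := hfun j
      simpa using this
    have hk : ∀ k, k ≠ j → π k = π' k := by
      intro k hk
      have := hfun k
      simpa [Function.update_of_ne hk] using this
    have hπ : π = π' := by
      funext k
      by_cases hkj : k = j
      · subst hkj
        rw [hp, hp']
        exact hk i (Ne.symm hij)
      · exact hk k hkj
    rw [hπ, hc]
  rw [Finset.card_product, Finset.card_univ, Finset.card_univ, Fintype.card_fin,
    Fintype.card_fun, Fintype.card_fin, Fintype.card_fin] at h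
  exact_mod_cast h

theorem sum_pow_load {N b : ℕ} (S : Finset (Fin N)) (Q : ℝ) (β : Fin b) :
    ∑ π : Fin N → Fin b, Q ^ (S.filter (fun i => π i = β)).card
      = (b : ℝ) ^ (N - S.card) * (b - 1 + Q) ^ S.card := by
  have h1 : ∀ π : Fin N → Fin b, Q ^ (S.filter (fun i => π i = β)).card
      = ∏ i, (if i ∈ S then (if π i = β then Q else 1) else 1) := by
    intro π
    rw [Finset.prod_ite_mem, Finset.univ_inter, Finset.prod_ite, Finset.prod_const,
      Finset.prod_const_one, mul_one]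
  have h2 : ∑ π : Fin N → Fin b, ∏ i, (if i ∈ S then (if π i = β then Q else 1) else 1)
      = ∏ i : Fin N, ∑ c : Fin b, (if i ∈ S then (if c = β then Q else 1) else 1) := by
    rw [Finset.prod_univ_sum, Fintype.piFinset_univ]
  have h3 : ∀ i : Fin N, ∑ c : Fin b, (if i ∈ S then (if c = β then Q else 1) else 1)
      = if i ∈ S then (b - 1 + Q) else (b : ℝ) := by
    intro i
    by_cases hi : i ∈ S
    · simp only [hi, if_true]
      rw [Finset.sum_ite, Finset.sum_const, Finset.sum_const, Finset.filter_eq']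
      simp only [Finset.mem_univ, if_true, Finset.card_singleton]
      have : (Finset.univ.filter (fun c : Fin b => ¬ c = β)).card = b - 1 := by
        rw [← Finset.compl_filter, Finset.filter_eq']
        simp only [Finset.mem_univ, ↓reduceIte, Finset.card_compl, Fintype.card_fin,
          Finset.card_singleton]
      rw [this]
      have hb : 1 ≤ b := Fin.pos β
      rw [nsmul_eq_mul, nsmul_eq_mul, Nat.cast_sub hb]
      push_cast
      ring
    · simp [hi]
  simp only [h1]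
  rw [h2]
  simp only [h3]
  rw [Finset.prod_ite, Finset.prod_const, Finset.prod_const]
  have h4 : (Finset.univ.filter (fun i => i ∈ S)).card = S.card := by
    rw [Finset.filter_mem_eq_inter, Finset.univ_inter]
  have h5 : (Finset.univ.filter (fun i => i ∉ S)).card = N - S.card := by
    rw [← Finset.compl_filter, Finset.filter_mem_eq_inter, Finset.univ_inter, Finset.card_compl,
      Fintype.card_fin]
  rw [h4, h5]
  ring

theorem sum_pow_load_le {N b : ℕ} (hb : 0 < b) (S : Finset (Fin N)) (Q : ℝ) (hQ : 1 < Q)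
    (hS : (S.card : ℝ) * Q ≤ b) (β : Fin b) :
    ∑ π : Fin N → Fin b, Q ^ (S.filter (fun i => π i = β)).card
      ≤ (b : ℝ) ^ N * Real.exp 1 := by
  have hb' : (0 : ℝ) < b := Nat.cast_pos.2 hb
  rw [sum_pow_load]
  have hcard : S.card ≤ N := by
    simpa only [Fintype.card_fin] using Finset.card_le_univ S
  have h1 : (b : ℝ) ^ N = (b : ℝ) ^ (N - S.card) * (b : ℝ) ^ S.card := by
    rw [← pow_add, Nat.sub_add_cancel hcard]
  rw [h1, mul_assoc]
  refine mul_le_mul_of_nonneg_left ?_ (by positivity)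
  have h2 : (b - 1 + Q : ℝ) ≤ b * Real.exp ((Q - 1) / b) := by
    have h := Real.add_one_le_exp ((Q - 1) / b)
    calc (b - 1 + Q : ℝ) = b * ((Q - 1) / b + 1) := by field_simp; ring
      _ ≤ _ := mul_le_mul_of_nonneg_left h hb'.le
  have h0 : (0 : ℝ) ≤ b - 1 + Q := by linarith only [hQ, hb']
  calc (b - 1 + Q : ℝ) ^ S.card ≤ (b * Real.exp ((Q - 1) / b)) ^ S.card :=
        pow_le_pow_left₀ h0 h2 _
    _ = (b : ℝ) ^ S.card * Real.exp (S.card * ((Q - 1) / b)) := by
        rw [mul_pow, ← Real.exp_nat_mul]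
    _ ≤ (b : ℝ) ^ S.card * Real.exp 1 := by
        refine mul_le_mul_of_nonneg_left ?_ (by positivity)
        refine Real.exp_le_exp.2 ?_
        rw [← mul_div_assoc, div_le_one hb']
        have : (0 : ℝ) ≤ S.card := Nat.cast_nonneg _
        nlinarith only [hS]

theorem exists_hash {N b : ℕ} (hb : 0 < b) {P : Type*} [Fintype P] (S : P → Finset (Fin N))
    (K Q : ℝ) (hK : ∀ a, ((S a).card : ℝ) ≤ K) (hQ : 1 < Q) (hbK : K * Q ≤ b)
    (q : P → Fin N → ℝ) (hq : ∀ a i, 0 ≤ q a i) (ℓ : ℕ)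
    (hℓ : 2 * Real.exp 1 * (Fintype.card P + 1) * b ≤ Q ^ ℓ) :
    ∃ π : Fin N → Fin b, (∀ a β, ((S a).filter (fun i => π i = β)).card ≤ ℓ) ∧
      ∑ a, ∑ i ∈ (S a).filter (fun i => ∃ j ∈ S a, j ≠ i ∧ π j = π i), q a i
        ≤ (2 / Q) * ∑ a, ∑ i ∈ S a, q a i := by
  classical
  have hb' : (0 : ℝ) < b := Nat.cast_pos.2 hb
  have hQ0 : 0 < Q := by linarith only [hQ]
  have : Nonempty (Fin b) := ⟨⟨0, hb⟩⟩
  set T : ℝ := ∑ a, ∑ i ∈ S a, q a i with hT
  set Φ₁ : (Fin N → Fin b) → ℝ := fun π =>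
    ∑ a, ∑ β, Q ^ ((S a).filter (fun i => π i = β)).card with hΦ₁
  set Φ₂ : (Fin N → Fin b) → ℝ := fun π =>
    ∑ a, ∑ i ∈ (S a).filter (fun i => ∃ j ∈ S a, j ≠ i ∧ π j = π i), q a i with hΦ₂
  have hSQ : ∀ a, ((S a).card : ℝ) * Q ≤ b := fun a =>
    le_trans (mul_le_mul_of_nonneg_right (hK a) hQ0.le) hbK
  -- sums over all hash functions
  have hsum₁ : ∑ π, Φ₁ π ≤ (Fintype.card P * b) * ((b : ℝ) ^ N * Real.exp 1) := by
    rw [hΦ₁]
    simp only
    rw [Finset.sum_comm]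
    calc ∑ a, ∑ π : Fin N → Fin b, ∑ β, Q ^ ((S a).filter (fun i => π i = β)).card
        = ∑ a, ∑ β, ∑ π : Fin N → Fin b, Q ^ ((S a).filter (fun i => π i = β)).card :=
          Finset.sum_congr rfl fun a _ => Finset.sum_comm
      _ ≤ ∑ a : P, ∑ β : Fin b, ((b : ℝ) ^ N * Real.exp 1) :=
          Finset.sum_le_sum fun a _ => Finset.sum_le_sum fun β _ =>
            sum_pow_load_le hb (S a) Q hQ (hSQ a) β
      _ = _ := by
          simp only [Finset.sum_const, Finset.card_univ, Fintype.card_fin, nsmul_eq_mul]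
          ring
  have hsum₂ : ∑ π, Φ₂ π ≤ (b : ℝ) ^ N * (T / Q) := by
    rw [hΦ₂]
    simp only
    rw [Finset.sum_comm, hT, Finset.sum_div, Finset.mul_sum]
    refine Finset.sum_le_sum fun a _ => ?_
    rw [Finset.sum_div, Finset.mul_sum]
    calc ∑ π : Fin N → Fin b,
          ∑ i ∈ (S a).filter (fun i => ∃ j ∈ S a, j ≠ i ∧ π j = π i), q a i
        = ∑ π : Fin N → Fin b,
          ∑ i ∈ S a, (if ∃ j ∈ S a, j ≠ i ∧ π j = π i then q a i else 0) :=
          Finset.sum_congr rfl fun π _ => by rw [Finset.sum_filter]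
      _ = ∑ i ∈ S a, ∑ π : Fin N → Fin b,
            (if ∃ j ∈ S a, j ≠ i ∧ π j = π i then q a i else 0) := Finset.sum_comm
      _ ≤ ∑ i ∈ S a, (b : ℝ) ^ N * (q a i / Q) := by
          refine Finset.sum_le_sum fun i hi => ?_
          have h1 : ∀ π : Fin N → Fin b,
              (if ∃ j ∈ S a, j ≠ i ∧ π j = π i then q a i else 0)
                ≤ ∑ j ∈ (S a).erase i, (if π j = π i then q a i else 0) := by
            intro π
            split_ifs with h
            · obtain ⟨j, hj, hji, hπ⟩ := h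
              calc q a i = (if π j = π i then q a i else 0) := by rw [if_pos hπ]
                _ ≤ _ := Finset.single_le_sum
                    (f := fun j => (if π j = π i then q a i else 0))
                    (fun k _ => by split_ifs; exacts [hq a i, le_rfl])
                    (Finset.mem_erase.2 ⟨hji, hj⟩)
            · exact Finset.sum_nonneg fun k _ => by split_ifs; exacts [hq a i, le_rfl]
          calc ∑ π : Fin N → Fin b, (if ∃ j ∈ S a, j ≠ i ∧ π j = π i then q a i else 0)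
              ≤ ∑ π : Fin N → Fin b, ∑ j ∈ (S a).erase i, (if π j = π i then q a i else 0) :=
                Finset.sum_le_sum fun π _ => h1 π
            _ = ∑ j ∈ (S a).erase i, ∑ π : Fin N → Fin b, (if π j = π i then q a i else 0) :=
                Finset.sum_comm
            _ = ∑ j ∈ (S a).erase i,
                ((Finset.univ.filter (fun π : Fin N → Fin b => π j = π i)).card : ℝ) * q a i := by
                refine Finset.sum_congr rfl fun j _ => ?_
                rw [← Finset.sum_filter, Finset.sum_const, nsmul_eq_mul]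
            _ ≤ ∑ j ∈ (S a).erase i, ((b : ℝ) ^ N / b) * q a i := by
                refine Finset.sum_le_sum fun j hj => ?_
                refine mul_le_mul_of_nonneg_right ?_ (hq a i)
                rw [le_div_iff₀ hb']
                exact card_collide_le (Finset.ne_of_mem_erase hj)
            _ = (((S a).erase i).card : ℝ) * (((b : ℝ) ^ N / b) * q a i) := by
                rw [Finset.sum_const, nsmul_eq_mul]
            _ ≤ ((S a).card : ℝ) * (((b : ℝ) ^ N / b) * q a i) := by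
                refine mul_le_mul_of_nonneg_right ?_
                  (mul_nonneg (by positivity) (hq a i))
                exact Nat.cast_le.2 (Finset.card_erase_le)
            _ ≤ (b : ℝ) ^ N * (q a i / Q) := by
                have h3 : ((S a).card : ℝ) / b ≤ 1 / Q := by
                  rw [div_le_div_iff₀ hb' hQ0, one_mul]
                  exact hSQ a
                calc ((S a).card : ℝ) * (((b : ℝ) ^ N / b) * q a i)
                    = ((b : ℝ) ^ N * q a i) * (((S a).card : ℝ) / b) := by ring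
                  _ ≤ ((b : ℝ) ^ N * q a i) * (1 / Q) :=
                      mul_le_mul_of_nonneg_left h3 (mul_nonneg (by positivity) (hq a i))
                  _ = _ := by ring
  by_contra hcon
  push Not at hcon
  have hΦ₂0 : ∀ π, 0 ≤ Φ₂ π := fun π =>
    Finset.sum_nonneg fun a _ => Finset.sum_nonneg fun i _ => hq a i
  have hΦ₁0 : ∀ π, 0 ≤ Φ₁ π := fun π =>
    Finset.sum_nonneg fun a _ => Finset.sum_nonneg fun β _ => by positivity
  have hT0 : 0 ≤ T := Finset.sum_nonneg fun a _ => Finset.sum_nonneg fun i _ => hq a i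
  set A : ℝ := 2 * Real.exp 1 * (Fintype.card P + 1) * b with hA
  have hA0 : 0 < A := by positivity
  have hcardP : (0 : ℝ) ≤ Fintype.card P := Nat.cast_nonneg _
  -- dichotomy
  have hdich : ∀ π, A < Φ₁ π ∨ 2 / Q * T < Φ₂ π := by
    intro π
    by_cases h : ∀ a β, ((S a).filter (fun i => π i = β)).card ≤ ℓ
    · exact Or.inr (hcon π h)
    · left
      push Not at h
      obtain ⟨a, β, hab⟩ := h
      calc A ≤ Q ^ ℓ := hℓ
        _ < Q ^ ((S a).filter (fun i => π i = β)).card := pow_lt_pow_right₀ hQ hab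
        _ ≤ ∑ β, Q ^ ((S a).filter (fun i => π i = β)).card :=
            Finset.single_le_sum (f := fun β => Q ^ ((S a).filter (fun i => π i = β)).card)
              (fun _ _ => by positivity) (Finset.mem_univ β)
        _ ≤ Φ₁ π :=
            Finset.single_le_sum
              (f := fun a => ∑ β, Q ^ ((S a).filter (fun i => π i = β)).card)
              (fun _ _ => Finset.sum_nonneg fun _ _ => by positivity) (Finset.mem_univ a)
  have hcardfun : (Finset.univ : Finset (Fin N → Fin b)).card = b ^ N := by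
    rw [Finset.card_univ, Fintype.card_fun, Fintype.card_fin, Fintype.card_fin]
  have hbN : (0 : ℝ) < (b : ℝ) ^ N := by positivity
  have hfirst : ∑ π, Φ₁ π / A ≤ (b : ℝ) ^ N * (Fintype.card P / (2 * (Fintype.card P + 1))) := by
    rw [← Finset.sum_div, div_le_iff₀ hA0]
    refine le_trans hsum₁ (le_of_eq ?_)
    rw [hA]
    field_simp
  rcases hT0.eq_or_lt with hT0' | hTpos
  · -- `T = 0`
    have hall : ∀ π, 1 ≤ Φ₁ π / A := by
      intro π
      rcases hdich π with h | h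
      · rw [le_div_iff₀ hA0, one_mul]
        exact h.le
      · exfalso
        rw [← hT0', mul_zero] at h
        have hle : Φ₂ π ≤ T := by
          rw [hΦ₂, hT]
          refine Finset.sum_le_sum fun a _ => ?_
          exact Finset.sum_le_sum_of_subset_of_nonneg (Finset.filter_subset _ _)
            fun i _ _ => hq a i
        linarith only [hT0', h, hle]
    have h1 : (b : ℝ) ^ N ≤ ∑ π, Φ₁ π / A := by
      calc (b : ℝ) ^ N = ∑ π : Fin N → Fin b, (1 : ℝ) := by
            rw [Finset.sum_const, hcardfun, nsmul_eq_mul, mul_one]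
            push_cast
            rfl
        _ ≤ _ := Finset.sum_le_sum fun π _ => hall π
    have h2 : (Fintype.card P : ℝ) / (2 * (Fintype.card P + 1)) < 1 := by
      rw [div_lt_one (by (clear * -; positivity))]
      linarith only []
    nlinarith only [hbN, hfirst, h1, h2]
  · have hall : ∀ π, 1 ≤ Φ₁ π / A + Q * Φ₂ π / (2 * T) := by
      intro π
      have ha : 0 ≤ Φ₁ π / A := div_nonneg (hΦ₁0 π) hA0.le
      have hb2 : 0 ≤ Q * Φ₂ π / (2 * T) := div_nonneg (mul_nonneg hQ0.le (hΦ₂0 π)) (by (clear * - hTpos; positivity))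
      rcases hdich π with h | h
      · have : 1 ≤ Φ₁ π / A := by
          rw [le_div_iff₀ hA0, one_mul]
          exact h.le
        linarith only [hb2, this]
      · have : 1 ≤ Q * Φ₂ π / (2 * T) := by
          rw [le_div_iff₀ (by (clear * - hTpos; positivity)), one_mul]
          have h' : Q * (2 / Q * T) < Q * Φ₂ π := mul_lt_mul_of_pos_left h hQ0
          have h'' : Q * (2 / Q * T) = 2 * T := by
            (clear * - hQ hTpos; field_simp)
          linarith only [h', h'']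
        linarith only [ha, this]
    have h1 : (b : ℝ) ^ N ≤ ∑ π, (Φ₁ π / A + Q * Φ₂ π / (2 * T)) := by
      calc (b : ℝ) ^ N = ∑ π : Fin N → Fin b, (1 : ℝ) := by
            rw [Finset.sum_const, hcardfun, nsmul_eq_mul, mul_one]
            push_cast
            rfl
        _ ≤ _ := Finset.sum_le_sum fun π _ => hall π
    have h3 : ∑ π, Q * Φ₂ π / (2 * T) ≤ (b : ℝ) ^ N * (1 / 2) := by
      rw [← Finset.sum_div, ← Finset.mul_sum, div_le_iff₀ (by (clear * - hTpos; positivity))]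
      calc Q * ∑ π, Φ₂ π ≤ Q * ((b : ℝ) ^ N * (T / Q)) :=
            mul_le_mul_of_nonneg_left hsum₂ hQ0.le
        _ = _ := by field_simp
    rw [Finset.sum_add_distrib] at h1
    have h2 : (Fintype.card P : ℝ) / (2 * (Fintype.card P + 1)) < 1 / 2 := by
      rw [div_lt_div_iff₀ (by (clear * -; positivity)) (by norm_num)]
      linarith only []
    nlinarith only [hbN, hfirst, h1, h3, h2]

end Vale.Agent.P249
end
end

section

section

open scoped ENNReal BigOperators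

namespace Vale.Agent.P249

/-- sum the coordinates in each bucket of `π` -/
noncomputable def hashL {p : ℝ≥0∞} {N b : ℕ} (π : Fin N → Fin b)
    (v : PiLp p (fun _ : Fin N => ℝ)) : PiLp p (fun _ : Fin b => ℝ) :=
  WithLp.toLp p (fun β => ∑ i with π i = β, v i)

theorem hashL_apply {p : ℝ≥0∞} {N b : ℕ} (π : Fin N → Fin b)
    (v : PiLp p (fun _ : Fin N => ℝ)) (β : Fin b) :
    hashL π v β = ∑ i with π i = β, v i := rfl

theorem hashL_sub {p : ℝ≥0∞} {N b : ℕ} (π : Fin N → Fin b) (v v' : PiLp p (fun _ : Fin N => ℝ)) :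
    hashL π (v - v') = hashL π v - hashL π v' := by
  ext β
  simp only [hashL_apply, PiLp.sub_apply, Finset.sum_sub_distrib]

theorem piLp_norm_rpow {p : ℝ≥0∞} [Fact (1 ≤ p)] (hp : p ≠ ∞) {N : ℕ}
    (v : PiLp p (fun _ : Fin N => ℝ)) : ‖v‖ ^ p.toReal = ∑ i, |v i| ^ p.toReal := by
  have hp0 : 0 < p.toReal :=
    ENNReal.toReal_pos (lt_of_lt_of_le zero_lt_one (Fact.out : (1 : ℝ≥0∞) ≤ p)).ne' hp
  rw [PiLp.norm_eq_sum hp0, ← Real.rpow_mul
      (Finset.sum_nonneg fun i _ => Real.rpow_nonneg (norm_nonneg _) _), one_div,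
      inv_mul_cancel₀ hp0.ne', Real.rpow_one]
  simp only [Real.norm_eq_abs]

theorem bucket_sum_eq {N b : ℕ} (π : Fin N → Fin b) (S : Finset (Fin N)) (v : Fin N → ℝ)
    (hv : ∀ i, v i ≠ 0 → i ∈ S) (β : Fin b) :
    ∑ i with π i = β, v i = ∑ i ∈ S.filter (fun i => π i = β), v i := by
  symm
  refine Finset.sum_subset ?_ ?_
  · intro i hi
    rw [Finset.mem_filter] at hi ⊢
    exact ⟨Finset.mem_univ _, hi.2⟩
  · intro i hi hni
    by_contra hne
    exact hni (Finset.mem_filter.2 ⟨hv i hne, (Finset.mem_filter.1 hi).2⟩)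

theorem norm_hashL_le {p : ℝ≥0∞} [Fact (1 ≤ p)] (hp : p ≠ ∞) {N b : ℕ} (π : Fin N → Fin b)
    (S : Finset (Fin N)) (ℓ : ℕ) (hℓ : ∀ β, (S.filter (fun i => π i = β)).card ≤ ℓ)
    (v : PiLp p (fun _ : Fin N => ℝ)) (hv : ∀ i, v i ≠ 0 → i ∈ S) :
    ‖hashL π v‖ ≤ ℓ * ‖v‖ := by
  have hp0 : 0 < p.toReal :=
    ENNReal.toReal_pos (lt_of_lt_of_le zero_lt_one (Fact.out : (1 : ℝ≥0∞) ≤ p)).ne' hp
  have hb : ∀ β : Fin b, |hashL π v β| ^ p.toReal
      ≤ (ℓ : ℝ) ^ p.toReal * ∑ i ∈ S.filter (fun i => π i = β), |v i| ^ p.toReal := by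
    intro β
    rw [hashL_apply, bucket_sum_eq π S v hv β]
    rcases (S.filter (fun i => π i = β)).eq_empty_or_nonempty with h | h
    · rw [h]
      simp [Real.zero_rpow hp0.ne']
    · obtain ⟨i0, hi0, hmax⟩ := Finset.exists_max_image _ (fun i => |v i|) h
      have h1 : |∑ i ∈ S.filter (fun i => π i = β), v i| ≤ ℓ * |v i0| := by
        calc |∑ i ∈ S.filter (fun i => π i = β), v i|
            ≤ ∑ i ∈ S.filter (fun i => π i = β), |v i| := Finset.abs_sum_le_sum_abs _ _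
          _ ≤ ∑ i ∈ S.filter (fun i => π i = β), |v i0| := Finset.sum_le_sum hmax
          _ = (S.filter (fun i => π i = β)).card * |v i0| := by
              rw [Finset.sum_const, nsmul_eq_mul]
          _ ≤ ℓ * |v i0| := by
              refine mul_le_mul_of_nonneg_right ?_ (abs_nonneg _)
              exact Nat.cast_le.2 (hℓ β)
      calc |∑ i ∈ S.filter (fun i => π i = β), v i| ^ p.toReal
          ≤ (ℓ * |v i0|) ^ p.toReal := Real.rpow_le_rpow (abs_nonneg _) h1 hp0.le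
        _ = (ℓ : ℝ) ^ p.toReal * |v i0| ^ p.toReal :=
            Real.mul_rpow (Nat.cast_nonneg _) (abs_nonneg _)
        _ ≤ _ := by
            refine mul_le_mul_of_nonneg_left ?_ (Real.rpow_nonneg (Nat.cast_nonneg _) _)
            exact Finset.single_le_sum (f := fun i => |v i| ^ p.toReal)
              (fun i _ => Real.rpow_nonneg (abs_nonneg _) _) hi0
  have hsum : ∑ β : Fin b, ∑ i ∈ S.filter (fun i => π i = β), |v i| ^ p.toReal
      ≤ ∑ i, |v i| ^ p.toReal := by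
    rw [Finset.sum_fiberwise]
    exact Finset.sum_le_sum_of_subset_of_nonneg (Finset.subset_univ _)
      fun i _ _ => Real.rpow_nonneg (abs_nonneg _) _
  have hpow : ‖hashL π v‖ ^ p.toReal ≤ ((ℓ : ℝ) * ‖v‖) ^ p.toReal := by
    rw [Real.mul_rpow (Nat.cast_nonneg _) (norm_nonneg _), piLp_norm_rpow hp, piLp_norm_rpow hp]
    calc ∑ β, |hashL π v β| ^ p.toReal
        ≤ ∑ β : Fin b, (ℓ : ℝ) ^ p.toReal *
            ∑ i ∈ S.filter (fun i => π i = β), |v i| ^ p.toReal := Finset.sum_le_sum fun β _ => hb β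
      _ = (ℓ : ℝ) ^ p.toReal * ∑ β : Fin b,
            ∑ i ∈ S.filter (fun i => π i = β), |v i| ^ p.toReal := by rw [Finset.mul_sum]
      _ ≤ _ := mul_le_mul_of_nonneg_left hsum (Real.rpow_nonneg (Nat.cast_nonneg _) _)
  exact (Real.rpow_le_rpow_iff (norm_nonneg _) (by positivity) hp0).1 hpow

theorem le_norm_hashL_rpow {p : ℝ≥0∞} [Fact (1 ≤ p)] (hp : p ≠ ∞) {N b : ℕ} (π : Fin N → Fin b)
    (S : Finset (Fin N)) (v : PiLp p (fun _ : Fin N => ℝ)) (hv : ∀ i, v i ≠ 0 → i ∈ S) :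
    ‖v‖ ^ p.toReal - ∑ i ∈ S.filter (fun i => ∃ j ∈ S, j ≠ i ∧ π j = π i), |v i| ^ p.toReal
      ≤ ‖hashL π v‖ ^ p.toReal := by
  have hp0 : 0 < p.toReal :=
    ENNReal.toReal_pos (lt_of_lt_of_le zero_lt_one (Fact.out : (1 : ℝ≥0∞) ≤ p)).ne' hp
  set I : Finset (Fin N) := S.filter (fun i => ¬ ∃ j ∈ S, j ≠ i ∧ π j = π i) with hI
  have h1 : ‖v‖ ^ p.toReal = ∑ i ∈ S, |v i| ^ p.toReal := by
    rw [piLp_norm_rpow hp]
    symm
    refine Finset.sum_subset (Finset.subset_univ _) fun i _ hi => ?_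
    have : v i = 0 := by
      by_contra hne
      exact hi (hv i hne)
    rw [this, abs_zero, Real.zero_rpow hp0.ne']
  have h2 : ∑ i ∈ S, |v i| ^ p.toReal
      = ∑ i ∈ S.filter (fun i => ∃ j ∈ S, j ≠ i ∧ π j = π i), |v i| ^ p.toReal
        + ∑ i ∈ I, |v i| ^ p.toReal :=
    (Finset.sum_filter_add_sum_filter_not _ _ _).symm
  have hiso : ∀ i ∈ I, hashL π v (π i) = v i := by
    intro i hi
    rw [hI, Finset.mem_filter] at hi
    rw [hashL_apply, bucket_sum_eq π S v hv (π i)]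
    have : S.filter (fun j => π j = π i) = {i} := by
      ext j
      rw [Finset.mem_filter, Finset.mem_singleton]
      constructor
      · rintro ⟨hj, hji⟩
        by_contra hne
        exact hi.2 ⟨j, hj, hne, hji⟩
      · rintro rfl
        exact ⟨hi.1, rfl⟩
    rw [this, Finset.sum_singleton]
  have hinj : Set.InjOn π (I : Set (Fin N)) := by
    intro i hi j hj hij
    by_contra hne
    have hi' := (Finset.mem_filter.1 (Finset.mem_coe.1 hi))
    have hj' := (Finset.mem_filter.1 (Finset.mem_coe.1 hj))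
    exact hi'.2 ⟨j, hj'.1, fun h => hne h.symm, hij.symm⟩
  have h3 : ∑ i ∈ I, |v i| ^ p.toReal ≤ ‖hashL π v‖ ^ p.toReal := by
    rw [piLp_norm_rpow hp]
    calc ∑ i ∈ I, |v i| ^ p.toReal = ∑ i ∈ I, |hashL π v (π i)| ^ p.toReal :=
          Finset.sum_congr rfl fun i hi => by rw [hiso i hi]
      _ = ∑ β ∈ I.image π, |hashL π v β| ^ p.toReal :=
          (Finset.sum_image (f := fun β => |hashL π v β| ^ p.toReal) hinj).symm
      _ ≤ _ := Finset.sum_le_sum_of_subset_of_nonneg (Finset.subset_univ _)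
            fun i _ _ => Real.rpow_nonneg (abs_nonneg _) _
  linarith only [h1, h2, h3]

end Vale.Agent.P249
end
end

section

section

open scoped ENNReal BigOperators

namespace Vale.Agent.P249

variable {p : ℝ≥0∞}

lemma exp_le_lin_unit {z : ℝ} (h0 : 0 ≤ z) (h1 : z ≤ 1) : Real.exp z ≤ 1 + 2 * z := by
  have hc := convexOn_exp.2 (Set.mem_univ (0 : ℝ)) (Set.mem_univ (1 : ℝ))
    (by linarith : (0 : ℝ) ≤ 1 - z) h0 (by ring)
  simp only [smul_eq_mul, mul_zero, zero_add, Real.exp_zero, mul_one] at hc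
  have he : Real.exp 1 ≤ 3 := by
    have := Real.exp_one_lt_d9
    linarith only [this]
  nlinarith only [h0, hc, he]

theorem boost_upper {Γ : Type*} {A : Type*} [Fintype A] [Nonempty A] (z : Γ → A → ℝ)
    (hz0 : ∀ π a, 0 ≤ z π a) (hz1 : ∀ π a, z π a ≤ 1) (κ : ℝ) (hκ : 0 ≤ κ)
    (h : ∀ w : A → ℝ, (∀ a, 0 ≤ w a) → ∃ π, ∑ a, w a * z π a ≤ κ * ∑ a, w a) (T : ℕ) :
    ∃ π : Fin T → Γ, ∀ a, ∑ t, z (π t) a ≤ 2 * κ * T + Real.log (Fintype.card A) := by
  have key : ∀ m : ℕ, ∃ i : Fin m → Γ,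
      ∑ a, Real.exp (∑ t, z (i t) a) ≤ Fintype.card A * Real.exp (2 * κ * m) := by
    intro m
    induction m with
    | zero => exact ⟨Fin.elim0, by simp only [Finset.univ_eq_empty, Finset.sum_empty,
                                     Real.exp_zero, Finset.sum_const, Finset.card_univ,
                                     nsmul_eq_mul, mul_one, CharP.cast_eq_zero, mul_zero,
                                     Std.le_refl]⟩
    | succ m ih =>
      obtain ⟨i, hi⟩ := ih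
      set w : A → ℝ := fun a => Real.exp (∑ t, z (i t) a) with hw
      obtain ⟨i0, hi0⟩ := h w (fun a => (Real.exp_pos _).le)
      refine ⟨Fin.snoc i i0, ?_⟩
      have e1 : ∀ a, Real.exp (∑ t, z (Fin.snoc (α := fun _ => Γ) i i0 t) a) =
          w a * Real.exp (z i0 a) := by
        intro a
        rw [Fin.sum_univ_castSucc]
        simp only [Fin.snoc_castSucc, Fin.snoc_last]
        rw [Real.exp_add]
      simp_rw [e1]
      calc ∑ a, w a * Real.exp (z i0 a) ≤ ∑ a, w a * (1 + 2 * z i0 a) := by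
            apply Finset.sum_le_sum
            intro a _
            exact mul_le_mul_of_nonneg_left (exp_le_lin_unit (hz0 i0 a) (hz1 i0 a))
              (Real.exp_pos _).le
        _ = ∑ a, w a + 2 * ∑ a, w a * z i0 a := by
            rw [Finset.mul_sum, ← Finset.sum_add_distrib]
            apply Finset.sum_congr rfl
            intro a _
            ring
        _ ≤ (1 + 2 * κ) * ∑ a, w a := by nlinarith only [hi0]
        _ ≤ Real.exp (2 * κ) * ∑ a, w a := by
            apply mul_le_mul_of_nonneg_right _ (Finset.sum_nonneg fun a _ => (Real.exp_pos _).le)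
            have := Real.add_one_le_exp (2 * κ)
            linarith
        _ ≤ Real.exp (2 * κ) * (Fintype.card A * Real.exp (2 * κ * m)) :=
            mul_le_mul_of_nonneg_left hi (Real.exp_pos _).le
        _ = Fintype.card A * Real.exp (2 * κ * (m + 1 : ℕ)) := by
            rw [mul_left_comm, ← Real.exp_add]
            congr 2
            push_cast
            ring
  obtain ⟨i, hi⟩ := key T
  refine ⟨i, fun a => ?_⟩
  have h1 : Real.exp (∑ t, z (i t) a) ≤ Fintype.card A * Real.exp (2 * κ * T) :=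
    le_trans (Finset.single_le_sum (f := fun a => Real.exp (∑ t, z (i t) a))
      (fun a _ => (Real.exp_pos _).le) (Finset.mem_univ a)) hi
  have hP : (0 : ℝ) < Fintype.card A := by
    exact_mod_cast Fintype.card_pos_iff.mpr ⟨a⟩
  have h2 := Real.log_le_log (Real.exp_pos _) h1
  rw [Real.log_exp, Real.log_mul hP.ne' (Real.exp_pos _).ne', Real.log_exp] at h2
  linarith

theorem norm_hashL_rpow_le [Fact (1 ≤ p)] (hp : p ≠ ∞) {N b : ℕ} (π : Fin N → Fin b)
    (S : Finset (Fin N)) (ℓ : ℕ) (hℓ1 : 1 ≤ ℓ)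
    (hℓ : ∀ β, (S.filter (fun i => π i = β)).card ≤ ℓ)
    (v : PiLp p (fun _ : Fin N => ℝ)) (hv : ∀ i, v i ≠ 0 → i ∈ S) :
    ‖hashL π v‖ ^ p.toReal ≤ ‖v‖ ^ p.toReal + (ℓ : ℝ) ^ p.toReal *
      ∑ i ∈ S.filter (fun i => ∃ j ∈ S, j ≠ i ∧ π j = π i), |v i| ^ p.toReal := by
  have hp0 : 0 < p.toReal := toReal_pos_of_fact hp
  set Cl : Finset (Fin N) := S.filter (fun i => ∃ j ∈ S, j ≠ i ∧ π j = π i) with hCl
  have hb : ∀ β : Fin b, |hashL π v β| ^ p.toReal
      ≤ ∑ i ∈ S.filter (fun i => π i = β), |v i| ^ p.toReal +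
        (ℓ : ℝ) ^ p.toReal * ∑ i ∈ Cl.filter (fun i => π i = β), |v i| ^ p.toReal := by
    intro β
    rw [hashL_apply, bucket_sum_eq π S v hv β]
    have hn1 : 0 ≤ ∑ i ∈ S.filter (fun i => π i = β), |v i| ^ p.toReal :=
      Finset.sum_nonneg fun i _ => Real.rpow_nonneg (abs_nonneg _) _
    have hn2 : 0 ≤ (ℓ : ℝ) ^ p.toReal * ∑ i ∈ Cl.filter (fun i => π i = β), |v i| ^ p.toReal :=
      mul_nonneg (Real.rpow_nonneg (Nat.cast_nonneg _) _)
        (Finset.sum_nonneg fun i _ => Real.rpow_nonneg (abs_nonneg _) _)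
    rcases Nat.lt_or_ge 1 (S.filter (fun i => π i = β)).card with h | h
    · -- at least two elements
      have hsub : Cl.filter (fun i => π i = β) = S.filter (fun i => π i = β) := by
        ext i
        simp only [hCl, Finset.mem_filter]
        constructor
        · rintro ⟨⟨h1, _⟩, h2⟩; exact ⟨h1, h2⟩
        · rintro ⟨h1, h2⟩
          refine ⟨⟨h1, ?_⟩, h2⟩
          obtain ⟨j, hj, hji⟩ := Finset.exists_mem_ne h i
          rw [Finset.mem_filter] at hj
          exact ⟨j, hj.1, hji, hj.2.trans h2.symm⟩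
      obtain ⟨i0, hi0, hmax⟩ := Finset.exists_max_image _ (fun i => |v i|)
        (Finset.card_pos.mp (by omega : 0 < (S.filter (fun i => π i = β)).card))
      have h1 : |∑ i ∈ S.filter (fun i => π i = β), v i| ≤ ℓ * |v i0| := by
        calc |∑ i ∈ S.filter (fun i => π i = β), v i|
            ≤ ∑ i ∈ S.filter (fun i => π i = β), |v i| := Finset.abs_sum_le_sum_abs _ _
          _ ≤ ∑ i ∈ S.filter (fun i => π i = β), |v i0| := Finset.sum_le_sum hmax
          _ = (S.filter (fun i => π i = β)).card * |v i0| := by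
              rw [Finset.sum_const, nsmul_eq_mul]
          _ ≤ ℓ * |v i0| := by
              refine mul_le_mul_of_nonneg_right ?_ (abs_nonneg _)
              exact Nat.cast_le.2 (hℓ β)
      have h2 : |∑ i ∈ S.filter (fun i => π i = β), v i| ^ p.toReal ≤
          (ℓ : ℝ) ^ p.toReal * ∑ i ∈ Cl.filter (fun i => π i = β), |v i| ^ p.toReal := by
        rw [hsub]
        calc |∑ i ∈ S.filter (fun i => π i = β), v i| ^ p.toReal
            ≤ (ℓ * |v i0|) ^ p.toReal := Real.rpow_le_rpow (abs_nonneg _) h1 hp0.le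
          _ = (ℓ : ℝ) ^ p.toReal * |v i0| ^ p.toReal :=
              Real.mul_rpow (Nat.cast_nonneg _) (abs_nonneg _)
          _ ≤ _ := by
              refine mul_le_mul_of_nonneg_left ?_ (Real.rpow_nonneg (Nat.cast_nonneg _) _)
              exact Finset.single_le_sum (f := fun i => |v i| ^ p.toReal)
                (fun i _ => Real.rpow_nonneg (abs_nonneg _) _) hi0
      linarith only [hn1, h2]
    · have h2 : |∑ i ∈ S.filter (fun i => π i = β), v i| ^ p.toReal ≤
          ∑ i ∈ S.filter (fun i => π i = β), |v i| ^ p.toReal := by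
        rcases (S.filter (fun i => π i = β)).eq_empty_or_nonempty with h0 | h0
        · rw [h0]; simp [Real.zero_rpow hp0.ne']
        · have hc : (S.filter (fun i => π i = β)).card = 1 :=
            le_antisymm h (Finset.card_pos.mpr h0)
          obtain ⟨i0, hi0⟩ := Finset.card_eq_one.mp hc
          rw [hi0, Finset.sum_singleton, Finset.sum_singleton]
      linarith only [hn2, h2]
  have hsumS : ∑ β : Fin b, ∑ i ∈ S.filter (fun i => π i = β), |v i| ^ p.toReal
      ≤ ∑ i, |v i| ^ p.toReal := by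
    rw [Finset.sum_fiberwise]
    exact Finset.sum_le_sum_of_subset_of_nonneg (Finset.subset_univ _)
      fun i _ _ => Real.rpow_nonneg (abs_nonneg _) _
  have hsumC : ∑ β : Fin b, ∑ i ∈ Cl.filter (fun i => π i = β), |v i| ^ p.toReal
      = ∑ i ∈ Cl, |v i| ^ p.toReal := by
    rw [Finset.sum_fiberwise]
  rw [norm_rpow_eq_sum hp, norm_rpow_eq_sum hp]
  calc ∑ β, |hashL π v β| ^ p.toReal
      ≤ ∑ β : Fin b, (∑ i ∈ S.filter (fun i => π i = β), |v i| ^ p.toReal +
        (ℓ : ℝ) ^ p.toReal * ∑ i ∈ Cl.filter (fun i => π i = β), |v i| ^ p.toReal) :=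
        Finset.sum_le_sum fun β _ => hb β
    _ = ∑ β : Fin b, ∑ i ∈ S.filter (fun i => π i = β), |v i| ^ p.toReal +
        (ℓ : ℝ) ^ p.toReal * ∑ i ∈ Cl, |v i| ^ p.toReal := by
        rw [Finset.sum_add_distrib, ← Finset.mul_sum, hsumC]
    _ ≤ _ := by linarith only [hsumS]

/-- the share of the colliding coordinates -/
lemma coll_share [Fact (1 ≤ p)] (hp : p ≠ ∞) {N : ℕ} (S : Finset (Fin N))
    (u : PiLp p (fun _ : Fin N => ℝ)) :
    ∑ i ∈ S, |u i| ^ p.toReal ≤ ‖u‖ ^ p.toReal ∧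
    (∑ i ∈ S, |u i| ^ p.toReal) / ‖u‖ ^ p.toReal * ‖u‖ ^ p.toReal =
      ∑ i ∈ S, |u i| ^ p.toReal := by
  have h1 : ∑ i ∈ S, |u i| ^ p.toReal ≤ ‖u‖ ^ p.toReal := by
    rw [norm_rpow_eq_sum hp]
    exact Finset.sum_le_sum_of_subset_of_nonneg (Finset.subset_univ _)
      fun i _ _ => Real.rpow_nonneg (abs_nonneg _) _
  have h0 : 0 ≤ ∑ i ∈ S, |u i| ^ p.toReal :=
    Finset.sum_nonneg fun i _ => Real.rpow_nonneg (abs_nonneg _) _
  refine ⟨h1, ?_⟩
  rcases eq_or_ne (‖u‖ ^ p.toReal) 0 with h | h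
  · rw [h] at h1 ⊢
    rw [mul_zero]
    linarith
  · exact div_mul_cancel₀ _ h

theorem near_hash [Fact (1 ≤ p)] (hp : p ≠ ∞) {V : Type*} [Fintype V] [Nonempty V] {N b T : ℕ}
    (hb : 0 < b) (hT : 0 < T) (G : V → PiLp p (fun _ : Fin N => ℝ)) (s₀ Q : ℝ)
    (hs₀ : ∀ x, ((Finset.univ.filter (fun i => G x i ≠ 0)).card : ℝ) ≤ s₀)
    (hQ : 1 < Q) (hbQ : 2 * s₀ * Q ≤ b) (ℓ : ℕ) (hℓ1 : 1 ≤ ℓ)
    (hℓ : 2 * Real.exp 1 * ((Fintype.card V : ℝ) ^ 2 + 1) * b ≤ Q ^ ℓ) :
    ∃ H : V → PiLp p (fun _ : Fin (T * b) => ℝ), ∀ x y,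
      |‖H x - H y‖ ^ p.toReal - ‖G x - G y‖ ^ p.toReal| ≤
        (ℓ : ℝ) ^ p.toReal * (4 / Q + 2 * Real.log (Fintype.card V) / T) *
          ‖G x - G y‖ ^ p.toReal := by
  classical
  have hp0 : 0 < p.toReal := toReal_pos_of_fact hp
  have hQ0 : 0 < Q := by linarith only [hQ]
  have hT' : (0 : ℝ) < T := Nat.cast_pos.2 hT
  set S : V × V → Finset (Fin N) := fun a =>
    Finset.univ.filter (fun i => G a.1 i ≠ 0) ∪ Finset.univ.filter (fun i => G a.2 i ≠ 0) with hS
  have hScard : ∀ a, ((S a).card : ℝ) ≤ 2 * s₀ := by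
    intro a
    have h0 := Finset.card_union_le (Finset.univ.filter (fun i => G a.1 i ≠ 0))
      (Finset.univ.filter (fun i => G a.2 i ≠ 0))
    have h1 : ((S a).card : ℝ) ≤ ((Finset.univ.filter (fun i => G a.1 i ≠ 0)).card : ℝ) +
        ((Finset.univ.filter (fun i => G a.2 i ≠ 0)).card : ℝ) := by
      rw [← Nat.cast_add]
      exact Nat.cast_le.2 h0
    have h2 := hs₀ a.1
    have h3 := hs₀ a.2
    linarith only [h1, h2, h3]
  have hSsupp : ∀ (a : V × V) (i : Fin N), (G a.1 - G a.2) i ≠ 0 → i ∈ S a := by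
    intro a i hi
    rw [hS]
    simp only [Finset.mem_union, Finset.mem_filter, Finset.mem_univ, true_and]
    by_contra hcon
    push Not at hcon
    apply hi
    rw [PiLp.sub_apply, hcon.1, hcon.2, sub_zero]
  let Γ : Type := {π : Fin N → Fin b // ∀ a β, ((S a).filter (fun i => π i = β)).card ≤ ℓ}
  let Cl : (Fin N → Fin b) → V × V → Finset (Fin N) := fun π a =>
    (S a).filter (fun i => ∃ j ∈ S a, j ≠ i ∧ π j = π i)
  let z : Γ → V × V → ℝ := fun π a =>
    (∑ i ∈ Cl π.1 a, |(G a.1 - G a.2) i| ^ p.toReal) / ‖G a.1 - G a.2‖ ^ p.toReal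
  have hz0 : ∀ π a, 0 ≤ z π a := fun π a =>
    div_nonneg (Finset.sum_nonneg fun i _ => Real.rpow_nonneg (abs_nonneg _) _)
      (Real.rpow_nonneg (norm_nonneg _) _)
  have hz1 : ∀ π a, z π a ≤ 1 := fun π a =>
    div_le_one_of_le₀ (coll_share hp _ _).1 (Real.rpow_nonneg (norm_nonneg _) _)
  have hcardA : (Fintype.card (V × V) : ℝ) = (Fintype.card V : ℝ) ^ 2 := by
    rw [Fintype.card_prod]; push_cast; ring
  obtain ⟨π, hπ⟩ := boost_upper z hz0 hz1 (2 / Q) (by positivity) (by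
    intro w hw
    obtain ⟨π, hπ1, hπ2⟩ := exists_hash hb S (2 * s₀) Q hScard hQ hbQ
      (fun a i => w a * (|(G a.1 - G a.2) i| ^ p.toReal / ‖G a.1 - G a.2‖ ^ p.toReal))
      (fun a i => mul_nonneg (hw a) (div_nonneg (Real.rpow_nonneg (abs_nonneg _) _)
        (Real.rpow_nonneg (norm_nonneg _) _))) ℓ (by rw [hcardA]; exact hℓ)
    refine ⟨⟨π, hπ1⟩, ?_⟩
    have e1 : ∀ a, w a * z ⟨π, hπ1⟩ a = ∑ i ∈ (S a).filter (fun i => ∃ j ∈ S a, j ≠ i ∧ π j = π i),
        w a * (|(G a.1 - G a.2) i| ^ p.toReal / ‖G a.1 - G a.2‖ ^ p.toReal) := by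
      intro a
      rw [← Finset.mul_sum, ← Finset.sum_div]
    simp_rw [e1]
    refine hπ2.trans ?_
    apply mul_le_mul_of_nonneg_left _ (by positivity)
    apply Finset.sum_le_sum
    intro a _
    rw [← Finset.mul_sum, ← Finset.sum_div]
    refine mul_le_of_le_one_right (hw a) ?_
    exact div_le_one_of_le₀ (coll_share hp _ _).1 (Real.rpow_nonneg (norm_nonneg _) _)) T
  refine ⟨fun x => ((T : ℝ) ^ (-(1 / p.toReal))) • stackL (fun t => hashL (π t).1 (G x)), ?_⟩
  intro x y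
  set u := G x - G y with hu
  have hH : ‖((T : ℝ) ^ (-(1 / p.toReal))) • stackL (fun t => hashL (π t).1 (G x)) -
      ((T : ℝ) ^ (-(1 / p.toReal))) • stackL (fun t => hashL (π t).1 (G y))‖ ^ p.toReal =
      (∑ t, ‖hashL (π t).1 u‖ ^ p.toReal) / T := by
    rw [← smul_sub, norm_smul, Real.mul_rpow (norm_nonneg _) (norm_nonneg _),
      norm_stackL_sub_rpow hp, Real.norm_eq_abs, abs_of_nonneg (Real.rpow_nonneg hT'.le _),
      ← Real.rpow_mul hT'.le]
    have e : -(1 / p.toReal) * p.toReal = -1 := by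
      field_simp
    rw [e, Real.rpow_neg_one, div_eq_inv_mul]
    congr 1
    apply Finset.sum_congr rfl
    intro t _
    rw [← hashL_sub]
  rw [hH]
  have hterm : ∀ t, |‖hashL (π t).1 u‖ ^ p.toReal - ‖u‖ ^ p.toReal| ≤
      (ℓ : ℝ) ^ p.toReal * (z (π t) (x, y) * ‖u‖ ^ p.toReal) := by
    intro t
    have h1 := norm_hashL_rpow_le hp (π t).1 (S (x, y)) ℓ hℓ1 ((π t).2 (x, y)) u
      (hSsupp (x, y))
    have h2 := le_norm_hashL_rpow hp (π t).1 (S (x, y)) u (hSsupp (x, y))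
    have h3 : z (π t) (x, y) * ‖u‖ ^ p.toReal =
        ∑ i ∈ (S (x, y)).filter (fun i => ∃ j ∈ S (x, y), j ≠ i ∧ (π t).1 j = (π t).1 i),
          |u i| ^ p.toReal := (coll_share hp _ _).2
    rw [h3]
    have h4 : (1 : ℝ) ≤ (ℓ : ℝ) ^ p.toReal :=
      Real.one_le_rpow (by exact_mod_cast hℓ1) hp0.le
    have h5 : 0 ≤ ∑ i ∈ (S (x, y)).filter (fun i => ∃ j ∈ S (x, y), j ≠ i ∧
        (π t).1 j = (π t).1 i), |u i| ^ p.toReal :=
      Finset.sum_nonneg fun i _ => Real.rpow_nonneg (abs_nonneg _) _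
    rw [abs_le]
    constructor
    · nlinarith only [h2, h4, h5]
    · linarith only [h1]
  have hsum : |(∑ t, ‖hashL (π t).1 u‖ ^ p.toReal) / T - ‖u‖ ^ p.toReal| ≤
      (∑ t, (ℓ : ℝ) ^ p.toReal * (z (π t) (x, y) * ‖u‖ ^ p.toReal)) / T := by
    have e1 : (∑ t, ‖hashL (π t).1 u‖ ^ p.toReal) / T - ‖u‖ ^ p.toReal =
        (∑ t, (‖hashL (π t).1 u‖ ^ p.toReal - ‖u‖ ^ p.toReal)) / T := by
      rw [Finset.sum_sub_distrib, Finset.sum_const, Finset.card_univ, Fintype.card_fin,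
        nsmul_eq_mul, sub_div, mul_div_cancel_left₀ _ hT'.ne']
    rw [e1, abs_div, abs_of_pos hT']
    apply div_le_div_of_nonneg_right _ hT'.le
    exact (Finset.abs_sum_le_sum_abs _ _).trans (Finset.sum_le_sum fun t _ => hterm t)
  refine hsum.trans ?_
  rw [← Finset.mul_sum, ← Finset.sum_mul, mul_div_assoc]
  have hlog : Real.log (Fintype.card (V × V)) = 2 * Real.log (Fintype.card V) := by
    rw [hcardA, Real.log_pow]; push_cast; ring
  have h6 := hπ (x, y)
  rw [hlog] at h6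
  rw [mul_assoc]
  apply mul_le_mul_of_nonneg_left _ (Real.rpow_nonneg (Nat.cast_nonneg _) _)
  rw [mul_div_right_comm]
  apply mul_le_mul_of_nonneg_right _ (Real.rpow_nonneg (norm_nonneg _) _)
  rw [div_le_iff₀ hT']
  refine h6.trans (le_of_eq ?_)
  field_simp
  ring

end Vale.Agent.P249
end
end

section

section

open scoped BigOperators

namespace Vale.Agent.P249

/-! ### Hubs -/

theorem exists_hub {V : Type*} [Fintype V] (a b : V → ℝ) (hb : ∀ y, 0 ≤ b y)
    (ha1 : ∑ y, a y = 1) (hb1 : ∑ y, b y = 1) (hab : ∑ y, |a y - b y| ≤ 1 / 2)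
    (A B : V → Prop) [DecidablePred A] [DecidablePred B] (hA : ∑ y with A y, a y ≤ 1 / 4)
    (hB : ∑ y with B y, b y ≤ 1 / 4) : ∃ y, ¬ A y ∧ ¬ B y := by
  by_contra hcon
  push Not at hcon
  have h1 : ∀ y, (a y + b y - |a y - b y|) / 2 ≤
      (if A y then a y else 0) + (if B y then b y else 0) := by
    intro y
    have h2 : (a y + b y - |a y - b y|) / 2 ≤ a y := by
      have := le_abs_self (b y - a y); rw [abs_sub_comm] at this; linarith only [this]
    have h3 : (a y + b y - |a y - b y|) / 2 ≤ b y := by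
      have := le_abs_self (a y - b y); linarith only [this]
    by_cases hy : A y
    · rw [if_pos hy]
      split_ifs
      · linarith only [hb y, hb, h2]
      · linarith only [h2]
    · rw [if_neg hy, if_pos (hcon y hy)]
      linarith only [h3]
  have h4 := Finset.sum_le_sum fun y (_ : y ∈ Finset.univ) => h1 y
  rw [Finset.sum_add_distrib, ← Finset.sum_filter, ← Finset.sum_filter, ← Finset.sum_div,
    Finset.sum_sub_distrib, Finset.sum_add_distrib, ha1, hb1] at h4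
  linarith

/-- McShane extension on a finite set. -/
theorem mcshane {V : Type*} [Fintype V] (ρ : V → V → ℝ) (h0 : ∀ x, ρ x x = 0)
    (hc : ∀ x y, ρ x y = ρ y x) (ht : ∀ x y z, ρ x z ≤ ρ x y + ρ y z) (G : V → Prop)
    (u : V → ℝ) (hu : ∀ x y, G x → G y → |u x - u y| ≤ ρ x y) :
    ∃ h : V → ℝ, (∀ x y, |h x - h y| ≤ ρ x y) ∧ ∀ x, G x → h x = u x := by
  classical
  have hρ0 : ∀ x y, 0 ≤ ρ x y := by
    intro x y
    have := ht x y x
    rw [h0, hc y x] at this
    linarith only [this]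
  by_cases hG : ∃ x, G x
  · have hne : (Finset.univ.filter G).Nonempty := by
      obtain ⟨x, hx⟩ := hG
      exact ⟨x, by simp only [Finset.mem_filter, Finset.mem_univ, hx, and_self]⟩
    have key : ∀ x y, (Finset.univ.filter G).inf' hne (fun z => u z + ρ x z) ≤
        (Finset.univ.filter G).inf' hne (fun z => u z + ρ y z) + ρ x y := by
      intro x y
      rw [← sub_le_iff_le_add]
      refine Finset.le_inf' _ _ fun z hz => ?_
      have h1 := Finset.inf'_le (f := fun z => u z + ρ x z) hz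
      have h2 := ht x y z
      linarith
    refine ⟨fun x => (Finset.univ.filter G).inf' hne (fun z => u z + ρ x z), ?_, ?_⟩
    · intro x y
      rw [abs_sub_le_iff]
      constructor
      · linarith [key x y]
      · have := key y x
        rw [hc y x] at this
        linarith
    · intro x hx
      apply le_antisymm
      · have h1 : (Finset.univ.filter G).inf' hne (fun z => u z + ρ x z) ≤ u x + ρ x x :=
          Finset.inf'_le (f := fun z => u z + ρ x z)
            (show x ∈ Finset.univ.filter G by simp [hx])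
        rwa [h0, add_zero] at h1
      · refine Finset.le_inf' _ _ fun z hz => ?_
        have hz' : G z := by simpa using hz
        have := hu x z hx hz'
        have := (abs_le.1 this).2
        linarith
  · push Not at hG
    exact ⟨fun _ => 0, fun x y => by simpa only [sub_self, abs_zero] using hρ0 x y, fun x hx => (hG x hx).elim⟩

/-! ### The two profiles -/

noncomputable def prD (P s : ℝ) : ℝ := (|s| ^ P + |1 - s| ^ P) ^ (1 / P)

noncomputable def prA (P s : ℝ) : ℝ := s / prD P s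

noncomputable def prB (P s : ℝ) : ℝ := (1 - s) / prD P s

theorem prD_rpow (P s : ℝ) (hP : 0 < P) : prD P s ^ P = |s| ^ P + |1 - s| ^ P := by
  rw [prD, ← Real.rpow_mul (by positivity), one_div, inv_mul_cancel₀ hP.ne', Real.rpow_one]

theorem le_prD_left (P s : ℝ) (hP : 0 < P) : |s| ≤ prD P s := by
  have h : |s| ^ P ≤ prD P s ^ P := by
    rw [prD_rpow P s hP]
    have : 0 ≤ |1 - s| ^ P := by positivity
    linarith
  exact (Real.rpow_le_rpow_iff (abs_nonneg _) (by unfold prD; positivity) hP).1 h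

theorem le_prD_right (P s : ℝ) (hP : 0 < P) : |1 - s| ≤ prD P s := by
  have h : |1 - s| ^ P ≤ prD P s ^ P := by
    rw [prD_rpow P s hP]
    have : 0 ≤ |s| ^ P := by positivity
    linarith
  exact (Real.rpow_le_rpow_iff (abs_nonneg _) (by unfold prD; positivity) hP).1 h

theorem half_le_prD (P s : ℝ) (hP : 0 < P) : 1 / 2 ≤ prD P s := by
  have h1 := le_prD_left P s hP
  have h2 := le_prD_right P s hP
  have h3 := le_abs_self s
  have h4 := le_abs_self (1 - s)
  linarith only [h1, h2, h3, h4]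

theorem prD_pos (P s : ℝ) (hP : 0 < P) : 0 < prD P s := by
  linarith only [half_le_prD P s hP, hP]

theorem prD_symm (P s : ℝ) : prD P (1 - s) = prD P s := by
  unfold prD
  rw [add_comm]
  congr 4
  ring_nf

theorem prD_sub_le (P s t : ℝ) (hP : 1 ≤ P) : |prD P s - prD P t| ≤ 2 * |s - t| := by
  have hP0 : 0 < P := by linarith only [hP]
  have key : ∀ s t : ℝ, prD P s ≤ prD P t + 2 * |s - t| := by
    intro s t
    have h := Real.Lp_add_le (Finset.univ : Finset (Fin 2)) ![t, 1 - t] ![s - t, t - s] hP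
    simp only [Fin.sum_univ_two, Matrix.cons_val_zero, Matrix.cons_val_one] at h
    have h1 : (|s - t| ^ P + |t - s| ^ P) ^ (1 / P) ≤ 2 * |s - t| := by
      rw [abs_sub_comm t s, ← two_mul, Real.mul_rpow (by norm_num) (by positivity),
        ← Real.rpow_mul (abs_nonneg _), mul_one_div_cancel hP0.ne', Real.rpow_one]
      apply mul_le_mul_of_nonneg_right _ (abs_nonneg _)
      calc (2:ℝ) ^ (1 / P) ≤ 2 ^ (1:ℝ) :=
            Real.rpow_le_rpow_of_exponent_le (by norm_num) (by rw [div_le_one hP0]; exact hP)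
        _ = 2 := Real.rpow_one 2
    have h2 : (|t + (s - t)| ^ P + |1 - t + (t - s)| ^ P) ^ (1 / P) = prD P s := by
      unfold prD
      congr 4 <;> ring_nf
    rw [h2] at h
    unfold prD at h ⊢
    linarith
  rw [abs_sub_le_iff]
  constructor
  · linarith [key s t]
  · have := key t s
    rw [abs_sub_comm t s] at this
    linarith

theorem prA_zero (P : ℝ) : prA P 0 = 0 := by simp [prA]

theorem prA_one (P : ℝ) (hP : 0 < P) : prA P 1 = 1 := by
  simp only [prA, prD, abs_one, Real.one_rpow, sub_self, abs_zero, Real.zero_rpow hP.ne',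
    add_zero, one_div, ne_eq, one_ne_zero, not_false_eq_true, div_self]

theorem prB_eq (P s : ℝ) : prB P s = prA P (1 - s) := by
  rw [prA, prB, prD_symm]

theorem prB_one (P : ℝ) : prB P 1 = 0 := by
  rw [prB_eq, sub_self, prA_zero]

theorem prA_prB (P s : ℝ) (hP : 0 < P) : |prA P s| ^ P + |prB P s| ^ P = 1 := by
  have h := prD_pos P s hP
  rw [prA, prB, abs_div, abs_div, abs_of_pos h, Real.div_rpow (abs_nonneg _) h.le,
    Real.div_rpow (abs_nonneg _) h.le, ← add_div, ← prD_rpow P s hP,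
    div_self (Real.rpow_pos_of_pos h _).ne']

theorem prA_mono (P s t : ℝ) (hP : 0 < P) (hs : 0 ≤ s) (hst : s ≤ t) (ht : t ≤ 1) :
    prA P s ≤ prA P t := by
  have hs0 := prD_pos P s hP
  have ht0 := prD_pos P t hP
  have ht1 : 0 ≤ t := hs.trans hst
  rw [prA, prA, div_le_div_iff₀ hs0 ht0]
  have h : (s * prD P t) ^ P ≤ (t * prD P s) ^ P := by
    rw [Real.mul_rpow hs ht0.le, Real.mul_rpow ht1 hs0.le, prD_rpow P t hP, prD_rpow P s hP,
      mul_add, mul_add, abs_of_nonneg hs, abs_of_nonneg ht1,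
      abs_of_nonneg (by linarith : 0 ≤ 1 - t), abs_of_nonneg (by linarith : 0 ≤ 1 - s),
      ← Real.mul_rpow hs (by linarith : 0 ≤ 1 - t), ← Real.mul_rpow ht1 (by linarith : 0 ≤ 1 - s),
      mul_comm (s ^ P)]
    have : (s * (1 - t)) ^ P ≤ (t * (1 - s)) ^ P := by
      apply Real.rpow_le_rpow _ _ hP.le
      · exact mul_nonneg hs (by linarith)
      · nlinarith only [hst]
    linarith
  exact (Real.rpow_le_rpow_iff (by positivity) (by positivity) hP).1 h

theorem prA_lip (P s t : ℝ) (hP : 1 ≤ P) : |prA P s - prA P t| ≤ 10 * |s - t| := by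
  have hP0 : 0 < P := by linarith
  have hs0 := prD_pos P s hP0
  have ht0 := prD_pos P t hP0
  have hs2 := half_le_prD P s hP0
  have h1 : prA P s - prA P t = (s - t) / prD P s +
      (t / prD P t) * ((prD P t - prD P s) / prD P s) := by
    rw [prA, prA]; field_simp; ring
  rw [h1]
  have h2 : |(s - t) / prD P s| ≤ 2 * |s - t| := by
    rw [abs_div, abs_of_pos hs0, div_le_iff₀ hs0]
    nlinarith only [abs_nonneg (s - t), hs2]
  have h3 : |t / prD P t| ≤ 1 := by
    rw [abs_div, abs_of_pos ht0, div_le_one ht0]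
    exact le_prD_left P t hP0
  have h4 : |(prD P t - prD P s) / prD P s| ≤ 4 * |s - t| := by
    rw [abs_div, abs_of_pos hs0, div_le_iff₀ hs0]
    have := prD_sub_le P t s hP
    rw [abs_sub_comm t s] at this
    nlinarith only [abs_nonneg (s - t), hs2, this]
  calc |(s - t) / prD P s + t / prD P t * ((prD P t - prD P s) / prD P s)|
      ≤ |(s - t) / prD P s| + |t / prD P t * ((prD P t - prD P s) / prD P s)| := abs_add_le _ _
    _ ≤ 2 * |s - t| + 1 * (4 * |s - t|) := by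
        rw [abs_mul]
        exact add_le_add h2 (mul_le_mul h3 h4 (abs_nonneg _) zero_le_one)
    _ ≤ 10 * |s - t| := by linarith only [abs_nonneg (s - t)]

theorem prB_lip (P s t : ℝ) (hP : 1 ≤ P) : |prB P s - prB P t| ≤ 10 * |s - t| := by
  rw [prB_eq, prB_eq]
  refine (prA_lip P (1 - s) (1 - t) hP).trans (le_of_eq ?_)
  rw [show 1 - s - (1 - t) = -(s - t) by ring, abs_neg]

/-! ### Good points of a coordinate -/

/-- `x` is good for the coordinate `i` at threshold `t`. -/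
def Good {V : Type*} [Fintype V] {N : ℕ} (f : V → Fin N → ℝ) (J : Finset ℤ)
    (K : ℤ → V → V → ℝ) (t : ℝ) (i : Fin N) (x : V) : Prop :=
  ∀ j ∈ J, ∑ y, (if t * (2:ℝ) ^ j < |f x i - f y i| then K j x y else 0) ≤ 1 / 4

/-- the energy of the coordinate `i` at `x` -/
noncomputable def Wen {V : Type*} [Fintype V] {N : ℕ} (P : ℝ) (f : V → Fin N → ℝ) (J : Finset ℤ)
    (K : ℤ → V → V → ℝ) (x : V) (i : Fin N) : ℝ :=
  ∑ j ∈ J, ∑ y, K j x y * (|f x i - f y i| / (2:ℝ) ^ j) ^ P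

section good

variable {P : ℝ} {V : Type*} [Fintype V] {N : ℕ} (f : V → Fin N → ℝ) (J : Finset ℤ)
  (K : ℤ → V → V → ℝ) (hK : ∀ j, IsStoch (K j))

include hK

theorem good_lip (hP : 0 < P) (hJ : ∀ x y, 0 < lpd P f x y →
      ∃ j ∈ J, (2:ℝ) ^ (j - 1) < lpd P f x y ∧ lpd P f x y ≤ (2:ℝ) ^ j)
    (hTV : ∀ j ∈ J, ∀ x x', lpd P f x x' ≤ (2 : ℝ) ^ j → ∑ y, |K j x y - K j x' y| ≤ 1 / 2)
    {t : ℝ} (ht : 0 < t) (i : Fin N) (x x' : V) (hx : Good f J K t i x)
    (hx' : Good f J K t i x') : |f x i - f x' i| ≤ 4 * t * lpd P f x x' := by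
  rcases (lpd_nonneg f x x' (P := P)).eq_or_lt with h0 | h0
  · have := abs_le_lpd f hP x x' i
    rw [← h0] at this ⊢
    simpa only [mul_zero, abs_nonpos_iff] using this
  · obtain ⟨j, hj, hj1, hj2⟩ := hJ x x' h0
    obtain ⟨y, hy1, hy2⟩ := exists_hub (K j x) (K j x') ((hK j).1 x') ((hK j).2 x)
      ((hK j).2 x') (hTV j hj x x' hj2) (fun y => t * (2:ℝ) ^ j < |f x i - f y i|)
      (fun y => t * (2:ℝ) ^ j < |f x' i - f y i|)
      (by rw [Finset.sum_filter]; exact hx j hj) (by rw [Finset.sum_filter]; exact hx' j hj)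
    push Not at hy1 hy2
    have h1 : (2:ℝ) ^ j = 2 * 2 ^ (j - 1) := by
      rw [zpow_sub_one₀ (by norm_num)]; ring
    have h2 : |f x i - f x' i| ≤ |f x i - f y i| + |f x' i - f y i| := by
      have := abs_sub_le (f x i) (f y i) (f x' i)
      rwa [abs_sub_comm (f y i)] at this
    calc |f x i - f x' i| ≤ t * 2 ^ j + t * 2 ^ j := by linarith
      _ = 4 * t * 2 ^ (j - 1) := by rw [h1]; ring
      _ ≤ 4 * t * lpd P f x x' := by
          apply mul_le_mul_of_nonneg_left hj1.le (by positivity)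

theorem Wen_nonneg (x : V) (i : Fin N) : 0 ≤ Wen P f J K x i :=
  Finset.sum_nonneg fun j _ => Finset.sum_nonneg fun y _ =>
    mul_nonneg ((hK j).1 x y) (Real.rpow_nonneg (by positivity) _)

theorem le_Wen_of_not_good (hP : 0 < P) {t : ℝ} (ht : 0 < t) (i : Fin N) (x : V)
    (hx : ¬ Good f J K t i x) : t ^ P ≤ 4 * Wen P f J K x i := by
  unfold Good at hx
  push Not at hx
  obtain ⟨j, hj, hx⟩ := hx
  have h1 : t ^ P * ∑ y, (if t * (2:ℝ) ^ j < |f x i - f y i| then K j x y else 0) ≤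
      ∑ y, K j x y * (|f x i - f y i| / (2:ℝ) ^ j) ^ P := by
    rw [Finset.mul_sum]
    refine Finset.sum_le_sum fun y _ => ?_
    split_ifs with h
    · rw [mul_comm]
      apply mul_le_mul_of_nonneg_left _ ((hK j).1 x y)
      apply Real.rpow_le_rpow ht.le _ hP.le
      rw [le_div_iff₀ (by positivity)]
      exact h.le
    · rw [mul_zero]
      exact mul_nonneg ((hK j).1 x y) (Real.rpow_nonneg (by (clear * -; positivity)) _)
  have h2 : ∑ y, K j x y * (|f x i - f y i| / (2:ℝ) ^ j) ^ P ≤ Wen P f J K x i :=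
    Finset.single_le_sum (f := fun j => ∑ y, K j x y * (|f x i - f y i| / (2:ℝ) ^ j) ^ P)
      (fun j _ => Finset.sum_nonneg fun y _ =>
        mul_nonneg ((hK j).1 x y) (Real.rpow_nonneg (by positivity) _)) hj
  have h3 : 0 < t ^ P := Real.rpow_pos_of_pos ht _
  nlinarith only [hx, h1, h2, h3]

omit hK in
theorem sum_Wen (hP : 0 < P) (x : V) :
    ∑ i, Wen P f J K x i = ∑ j ∈ J, ∑ y, K j x y * (lpd P f x y / (2:ℝ) ^ j) ^ P := by
  unfold Wen
  rw [Finset.sum_comm]
  refine Finset.sum_congr rfl fun j _ => ?_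
  rw [Finset.sum_comm]
  refine Finset.sum_congr rfl fun y _ => ?_
  rw [← Finset.mul_sum, Real.div_rpow (lpd_nonneg f x y) (by positivity), lpd_rpow f hP,
    Finset.sum_div]
  congr 1
  refine Finset.sum_congr rfl fun i _ => ?_
  rw [Real.div_rpow (abs_nonneg _) (by positivity)]

end good

/-! ### One coordinate -/

theorem sum_Ico_sub_fun (F : ℕ → ℝ) {m L : ℕ} (h : m ≤ L) :
    ∑ l ∈ Finset.Ico m L, (F (l + 1) - F l) = F L - F m := by
  induction L, h using Nat.le_induction with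
  | base => simp
  | succ L hL ih => rw [Finset.sum_Ico_succ_top hL, ih]; ring

theorem sum_Ico_half {m L : ℕ} (h : m ≤ L) :
    ∑ l ∈ Finset.Ico m L, ((1:ℝ) / 2 ^ (l + 1)) ≤ 1 / 2 ^ m := by
  have h1 : ∑ l ∈ Finset.Ico m L, ((1:ℝ) / 2 ^ (l + 1)) = 1 / 2 ^ m - 1 / 2 ^ L := by
    have h2 := sum_Ico_sub_fun (fun l => -(1:ℝ) / 2 ^ l) h
    have h3 : ∀ l ∈ Finset.Ico m L, ((1:ℝ) / 2 ^ (l + 1)) = -(1:ℝ) / 2 ^ (l + 1) - -(1:ℝ) / 2 ^ l := by
      intro l _
      rw [pow_succ]; field_simp; ring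
    rw [Finset.sum_congr rfl h3, h2]
    ring
  rw [h1]
  have : (0:ℝ) < 1 / 2 ^ L := by positivity
  linarith only [this]

/-- the weights for `h` -/
noncomputable def wA (P : ℝ) (L l : ℕ) : ℝ := prA P ((l + 1 : ℕ) / L) - prA P (l / L)

/-- the weights for `g` -/
noncomputable def wB (P : ℝ) (L l : ℕ) : ℝ := prB P (l / L) - prB P ((l + 1 : ℕ) / L)

section weights

variable {P : ℝ} {L : ℕ}

theorem sum_wA (m : ℕ) : ∑ l ∈ Finset.Ico 0 m, wA P L l = prA P (m / L) := by
  unfold wA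
  have h := sum_Ico_sub_fun (fun l : ℕ => prA P ((l : ℝ) / L)) (Nat.zero_le m)
  rw [h]
  simp [prA_zero]

theorem sum_wB (hL : 0 < L) {m : ℕ} (hm : m ≤ L) :
    ∑ l ∈ Finset.Ico m L, wB P L l = prB P (m / L) := by
  unfold wB
  have h := sum_Ico_sub_fun (fun l : ℕ => - prB P ((l : ℝ) / L)) hm
  have hL' : (L : ℝ) ≠ 0 := by exact_mod_cast hL.ne'
  have h2 : ∀ l ∈ Finset.Ico m L, prB P ((l:ℝ) / L) - prB P (((l + 1 : ℕ) : ℝ) / L) =
      - prB P (((l + 1 : ℕ) : ℝ) / L) - - prB P ((l:ℝ) / L) := by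
    intro l _; ring
  rw [Finset.sum_congr rfl h2, h, div_self hL', prB_one]
  ring

theorem abs_wA_le (hP : 1 ≤ P) (hL : 0 < L) (l : ℕ) : |wA P L l| ≤ 10 / L := by
  have hL' : (0:ℝ) < L := by exact_mod_cast hL
  unfold wA
  refine (prA_lip P _ _ hP).trans (le_of_eq ?_)
  push_cast
  rw [← sub_div, add_sub_cancel_left, abs_of_pos (by positivity)]
  ring

theorem abs_wB_le (hP : 1 ≤ P) (hL : 0 < L) (l : ℕ) : |wB P L l| ≤ 10 / L := by
  have hL' : (0:ℝ) < L := by exact_mod_cast hL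
  unfold wB
  refine (prB_lip P _ _ hP).trans (le_of_eq ?_)
  push_cast
  rw [← sub_div, sub_add_cancel_left, abs_div, abs_neg, abs_one, abs_of_pos hL']
  ring

theorem wA_nonneg (hP : 0 < P) (hL : 0 < L) {l : ℕ} (hl : l < L) : 0 ≤ wA P L l := by
  have hL' : (0:ℝ) < L := by exact_mod_cast hL
  unfold wA
  rw [sub_nonneg]
  apply prA_mono P _ _ hP (by positivity)
  · gcongr; simp only [le_add_iff_nonneg_right, zero_le]
  · rw [div_le_one hL']
    exact_mod_cast hl

end weights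

theorem coord_split {P : ℝ} (hP : 1 ≤ P) {L : ℕ} (hL : 0 < L) {τ : ℝ} (hτ : 0 < τ) {V : Type*}
    (ρ : V → V → ℝ) (hρ : ∀ x y, 0 ≤ ρ x y) (u : V → ℝ) (H : ℕ → V → ℝ)
    (hH : ∀ l x y, |H l x - H l y| ≤ 4 * (τ / 2 ^ (l + 1)) * ρ x y) (G : ℕ → V → Prop)
    (hG : ∀ l x, G l x → H l x = u x) :
    ∃ h g : V → ℝ, (∀ x y, |h x - h y| ≤ 4 * τ * ρ x y) ∧
      (∀ x, (∀ l < L, G l x) → g x = 0) ∧
      ∀ x y, ∃ m ≤ L, (m < L → ¬ (G m x ∧ G m y)) ∧
        |(h x - h y) - prA P (m / L) * (u x - u y)| ≤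
          (if m < L then 40 / L * (τ / 2 ^ m) * ρ x y else 0) ∧
        |(g x - g y) - prB P (m / L) * (u x - u y)| ≤
          (if m < L then 40 / L * (τ / 2 ^ m) * ρ x y else 0) := by
  classical
  have hL' : (0:ℝ) < L := by exact_mod_cast hL
  have hP0 : 0 < P := by linarith only [hP]
  refine ⟨fun x => ∑ l ∈ Finset.Ico 0 L, wA P L l * H l x,
    fun x => ∑ l ∈ Finset.Ico 0 L, wB P L l * (u x - H l x), ?_, ?_, ?_⟩
  · intro x y
    rw [← Finset.sum_sub_distrib]
    calc |∑ l ∈ Finset.Ico 0 L, (wA P L l * H l x - wA P L l * H l y)|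
        ≤ ∑ l ∈ Finset.Ico 0 L, |wA P L l * H l x - wA P L l * H l y| :=
          Finset.abs_sum_le_sum_abs _ _
      _ ≤ ∑ l ∈ Finset.Ico 0 L, wA P L l * (4 * τ * ρ x y) := by
          refine Finset.sum_le_sum fun l hl => ?_
          have hl' : l < L := (Finset.mem_Ico.1 hl).2
          rw [← mul_sub, abs_mul, abs_of_nonneg (wA_nonneg hP0 hL hl')]
          apply mul_le_mul_of_nonneg_left _ (wA_nonneg hP0 hL hl')
          refine (hH l x y).trans ?_
          apply mul_le_mul_of_nonneg_right _ (hρ x y)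
          apply mul_le_mul_of_nonneg_left _ (by norm_num)
          exact div_le_self hτ.le (one_le_pow₀ (by norm_num))
      _ = 4 * τ * ρ x y := by
          rw [← Finset.sum_mul, sum_wA, div_self hL'.ne', prA_one P hP0, one_mul]
  · intro x hx
    apply Finset.sum_eq_zero
    intro l hl
    rw [hG l x (hx l (Finset.mem_Ico.1 hl).2), sub_self, mul_zero]
  · intro x y
    -- the first bad level
    obtain ⟨m, hmL, hm1, hm2⟩ : ∃ m ≤ L, (m < L → ¬ (G m x ∧ G m y)) ∧
        ∀ l < m, G l x ∧ G l y := by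
      by_cases hex : ∃ m, m < L ∧ ¬ (G m x ∧ G m y)
      · refine ⟨Nat.find hex, (Nat.find_spec hex).1.le, fun _ => (Nat.find_spec hex).2, ?_⟩
        intro l hl
        have h1 := Nat.find_min hex hl
        by_contra h2
        exact h1 ⟨lt_trans hl (Nat.find_spec hex).1, h2⟩
      · push Not at hex
        exact ⟨L, le_rfl, fun h => (lt_irrefl _ h).elim, fun l hl => hex l hl⟩
    have hgeom : ∑ l ∈ Finset.Ico m L, 10 / L * (4 * (τ / 2 ^ (l + 1)) * ρ x y) ≤
        (if m < L then 40 / L * (τ / 2 ^ m) * ρ x y else 0) := by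
      split_ifs with h
      · have h1 : ∀ l ∈ Finset.Ico m L, 10 / L * (4 * (τ / 2 ^ (l + 1)) * ρ x y) =
            (40 / L * τ * ρ x y) * (1 / 2 ^ (l + 1)) := by
          intro l _; ring
        rw [Finset.sum_congr rfl h1, ← Finset.mul_sum]
        have h2 : 0 ≤ 40 / L * τ * ρ x y := mul_nonneg (by positivity) (hρ x y)
        calc (40 / L * τ * ρ x y) * ∑ l ∈ Finset.Ico m L, ((1:ℝ) / 2 ^ (l + 1))
            ≤ (40 / L * τ * ρ x y) * (1 / 2 ^ m) := mul_le_mul_of_nonneg_left (sum_Ico_half hmL) h2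
          _ = _ := by ring
      · have : m = L := by omega
        subst this
        simp only [Std.le_refl, Finset.Ico_eq_empty_of_le, Finset.sum_empty]
    refine ⟨m, hmL, hm1, ?_, ?_⟩
    · have h1 : (∑ l ∈ Finset.Ico 0 L, wA P L l * H l x - ∑ l ∈ Finset.Ico 0 L, wA P L l * H l y)
          - prA P (m / L) * (u x - u y) = ∑ l ∈ Finset.Ico m L, wA P L l * (H l x - H l y) := by
        rw [← Finset.sum_sub_distrib, ← sum_wA m, Finset.sum_mul,
          ← Finset.sum_Ico_consecutive _ (Nat.zero_le m) hmL]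
        have h2 : ∑ l ∈ Finset.Ico 0 m, (wA P L l * H l x - wA P L l * H l y) =
            ∑ l ∈ Finset.Ico 0 m, wA P L l * (u x - u y) := by
          refine Finset.sum_congr rfl fun l hl => ?_
          obtain ⟨h3, h4⟩ := hm2 l (Finset.mem_Ico.1 hl).2
          rw [hG l x h3, hG l y h4]; ring
        rw [h2, add_sub_cancel_left]
        exact Finset.sum_congr rfl fun l _ => by ring
      rw [h1]
      refine le_trans ?_ hgeom
      refine (Finset.abs_sum_le_sum_abs _ _).trans (Finset.sum_le_sum fun l _ => ?_)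
      rw [abs_mul]
      exact mul_le_mul (abs_wA_le hP hL l) (hH l x y) (abs_nonneg _) (by positivity)
    · have h1 : (∑ l ∈ Finset.Ico 0 L, wB P L l * (u x - H l x) -
            ∑ l ∈ Finset.Ico 0 L, wB P L l * (u y - H l y))
          - prB P (m / L) * (u x - u y) = ∑ l ∈ Finset.Ico m L, - (wB P L l * (H l x - H l y)) := by
        rw [← Finset.sum_sub_distrib, ← sum_wB hL hmL, Finset.sum_mul,
          ← Finset.sum_Ico_consecutive _ (Nat.zero_le m) hmL]
        have h2 : ∑ l ∈ Finset.Ico 0 m, (wB P L l * (u x - H l x) - wB P L l * (u y - H l y)) = 0 := by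
          refine Finset.sum_eq_zero fun l hl => ?_
          obtain ⟨h3, h4⟩ := hm2 l (Finset.mem_Ico.1 hl).2
          rw [hG l x h3, hG l y h4]; ring
        rw [h2, zero_add, ← Finset.sum_sub_distrib]
        exact Finset.sum_congr rfl fun l _ => by ring
      rw [h1]
      refine le_trans ?_ hgeom
      refine (Finset.abs_sum_le_sum_abs _ _).trans (Finset.sum_le_sum fun l _ => ?_)
      rw [abs_neg, abs_mul]
      exact mul_le_mul (abs_wB_le hP hL l) (hH l x y) (abs_nonneg _) (by positivity)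

/-! ### Assembly -/

theorem Lp_abs_sub_le {ι : Type*} (s : Finset ι) (a b : ι → ℝ) {P : ℝ} (hP : 1 ≤ P) :
    |(∑ i ∈ s, |a i| ^ P) ^ (1 / P) - (∑ i ∈ s, |b i| ^ P) ^ (1 / P)| ≤
      (∑ i ∈ s, |a i - b i| ^ P) ^ (1 / P) := by
  rw [abs_sub_le_iff]
  constructor
  · have h := Real.Lp_add_le s (fun i => a i - b i) b hP
    simp only [sub_add_cancel] at h
    linarith
  · have h := Real.Lp_add_le s (fun i => b i - a i) a hP
    simp only [sub_add_cancel] at h
    have h2 : ∀ i, |b i - a i| = |a i - b i| := fun i => abs_sub_comm _ _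
    simp only [h2] at h
    linarith

theorem exists_scales {V : Type*} [Fintype V] (ρ : V → V → ℝ) :
    ∃ J : Finset ℤ, ∀ x y, 0 < ρ x y → ∃ j ∈ J, (2:ℝ) ^ (j - 1) < ρ x y ∧ ρ x y ≤ (2:ℝ) ^ j := by
  classical
  have h : ∀ a : V × V, ∃ j : ℤ, 0 < ρ a.1 a.2 →
      (2:ℝ) ^ (j - 1) < ρ a.1 a.2 ∧ ρ a.1 a.2 ≤ (2:ℝ) ^ j := by
    intro a
    by_cases ha : 0 < ρ a.1 a.2
    · obtain ⟨j, hj⟩ := exists_mem_Ioc_zpow ha (one_lt_two : (1:ℝ) < 2)
      refine ⟨j + 1, fun _ => ⟨?_, hj.2⟩⟩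
      rw [add_sub_cancel_right]
      exact hj.1
    · exact ⟨0, fun h => (ha h).elim⟩
  choose j hj using h
  refine ⟨Finset.univ.image j, fun x y hxy => ⟨j (x, y), ?_, hj (x, y) hxy⟩⟩
  exact Finset.mem_image_of_mem _ (Finset.mem_univ _)

/-- combining the coordinates, given the errors of all coordinates -/
theorem combine_coords {P : ℝ} (hP : 1 ≤ P) {V : Type*} {N : ℕ} (f h g : V → Fin N → ℝ)
    (x y : V) (s e : Fin N → ℝ)
    (h1 : ∀ i, |(h x i - h y i) - prA P (s i) * (f x i - f y i)| ≤ e i)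
    (h2 : ∀ i, |(g x i - g y i) - prB P (s i) * (f x i - f y i)| ≤ e i)
    (B : ℝ) (hB : 2 * ∑ i, e i ^ P ≤ B) :
    |(lpd P h x y ^ P + lpd P g x y ^ P) ^ (1 / P) - lpd P f x y| ≤ B ^ (1 / P) := by
  have hP0 : 0 < P := by linarith
  have key := Lp_abs_sub_le (Finset.univ : Finset (Fin N ⊕ Fin N))
    (Sum.elim (fun i => h x i - h y i) (fun i => g x i - g y i))
    (Sum.elim (fun i => prA P (s i) * (f x i - f y i)) (fun i => prB P (s i) * (f x i - f y i))) hP
  simp only [Fintype.sum_sum_type, Sum.elim_inl, Sum.elim_inr] at key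
  have e1 : ∑ i, |prA P (s i) * (f x i - f y i)| ^ P + ∑ i, |prB P (s i) * (f x i - f y i)| ^ P =
      ∑ i, |f x i - f y i| ^ P := by
    rw [← Finset.sum_add_distrib]
    refine Finset.sum_congr rfl fun i _ => ?_
    rw [abs_mul, abs_mul, Real.mul_rpow (abs_nonneg _) (abs_nonneg _),
      Real.mul_rpow (abs_nonneg _) (abs_nonneg _), ← add_mul, prA_prB P (s i) hP0, one_mul]
  rw [e1, ← lpd_rpow h hP0, ← lpd_rpow g hP0] at key
  refine key.trans (Real.rpow_le_rpow ?_ ?_ (by positivity))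
  · exact add_nonneg (Finset.sum_nonneg fun _ _ => Real.rpow_nonneg (abs_nonneg _) _)
      (Finset.sum_nonneg fun _ _ => Real.rpow_nonneg (abs_nonneg _) _)
  · refine le_trans ?_ hB
    rw [two_mul]
    exact add_le_add
      (Finset.sum_le_sum fun i _ => Real.rpow_le_rpow (abs_nonneg _) (h1 i) hP0.le)
      (Finset.sum_le_sum fun i _ => Real.rpow_le_rpow (abs_nonneg _) (h2 i) hP0.le)

theorem near_split (P : ℝ) (hP : 1 ≤ P) {V : Type*} [Fintype V] [Nonempty V] {N : ℕ}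
    (f : V → Fin N → ℝ) (U : ℝ) (hU : HasKernels P (lpd P f) U) (τ : ℝ) (hτ : 0 < τ)
    (L : ℕ) (hL : 0 < L) :
    ∃ h g : V → Fin N → ℝ,
      (∀ x y, |(lpd P h x y ^ P + lpd P g x y ^ P) ^ (1 / P) - lpd P f x y| ≤
        80 / L * (16 * U) ^ (1 / P) * lpd P f x y) ∧
      (∀ x y i, |h x i - h y i| ≤ 4 * τ * lpd P f x y) ∧
      ∀ x, ((Finset.univ.filter (fun i => g x i ≠ 0)).card : ℝ) * τ ^ P ≤
        4 * U * (2 ^ P) ^ L := by
  classical
  have hP0 : 0 < P := by linarith only [hP]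
  have hL' : (0:ℝ) < L := by exact_mod_cast hL
  obtain ⟨J, hJ⟩ := exists_scales (lpd P f)
  obtain ⟨K, hK, hTV, hE⟩ := hU J
  have hU0 : 0 ≤ U := by
    obtain ⟨x⟩ := (inferInstance : Nonempty V)
    refine le_trans ?_ (hE x)
    exact Finset.sum_nonneg fun j _ => Finset.sum_nonneg fun y _ =>
      mul_nonneg ((hK j).1 x y) (Real.rpow_nonneg (div_nonneg (lpd_nonneg f x y) (by positivity)) _)
  have hWsum : ∀ x, ∑ i, Wen P f J K x i ≤ U := fun x => by
    rw [sum_Wen f J K hP0]; exact hE x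
  have hW0 : ∀ x i, 0 ≤ Wen P f J K x i := fun x i => Wen_nonneg f J K hK x i
  -- extensions
  have hext : ∀ (i : Fin N) (l : ℕ), ∃ H : V → ℝ,
      (∀ x y, |H x - H y| ≤ 4 * (τ / 2 ^ (l + 1)) * lpd P f x y) ∧
      ∀ x, Good f J K (τ / 2 ^ (l + 1)) i x → H x = f x i := by
    intro i l
    have ht : 0 < τ / 2 ^ (l + 1) := by positivity
    refine mcshane (fun x y => 4 * (τ / 2 ^ (l + 1)) * lpd P f x y) ?_ ?_ ?_
      (Good f J K (τ / 2 ^ (l + 1)) i) (fun x => f x i) ?_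
    · intro x; simp only [lpd_self f hP0, mul_zero]
    · intro x y; simp only [lpd_comm f x y]
    · intro x y z
      have := mul_le_mul_of_nonneg_left (lpd_triangle f hP x y z)
        (by positivity : 0 ≤ 4 * (τ / 2 ^ (l + 1)))
      linarith only [this]
    · intro x y hx hy
      exact good_lip f J K hK hP0 hJ hTV ht i x y hx hy
  choose H hH1 hH2 using hext
  have hcoord := fun i : Fin N => coord_split hP hL hτ (lpd P f) (lpd_nonneg f) (fun x => f x i)
    (H i) (hH1 i) (fun l x => Good f J K (τ / 2 ^ (l + 1)) i x) (hH2 i)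
  choose hh gg hflat hsparse hpair using hcoord
  refine ⟨fun x i => hh i x, fun x i => gg i x, ?_, fun x y i => hflat i x y, ?_⟩
  · intro x y
    have hp := fun i => hpair i x y
    choose m hmL hm1 hm2 hm3 using hp
    have hρ := lpd_nonneg f x y (P := P)
    have hB : 2 * ∑ i, (if m i < L then 40 / L * (τ / 2 ^ m i) * lpd P f x y else 0) ^ P ≤
        (80 / L * lpd P f x y) ^ P * (16 * U) := by
      have h1 : ∀ i, (if m i < L then 40 / L * (τ / 2 ^ m i) * lpd P f x y else 0) ^ P ≤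
          (80 / L * lpd P f x y) ^ P * (4 * (Wen P f J K x i + Wen P f J K y i)) := by
        intro i
        have h80 : 0 ≤ (80 / L * lpd P f x y) ^ P := Real.rpow_nonneg (by positivity) _
        split_ifs with hlt
        · have h2 : 40 / L * (τ / 2 ^ m i) * lpd P f x y =
              (80 / L * lpd P f x y) * (τ / 2 ^ (m i + 1)) := by
            rw [pow_succ]; field_simp; ring
          rw [h2, Real.mul_rpow (by (clear * - hL hρ; positivity)) (by positivity)]
          apply mul_le_mul_of_nonneg_left _ h80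
          have ht : 0 < τ / 2 ^ (m i + 1) := by positivity
          have hng := hm1 i hlt
          rw [not_and_or] at hng
          rcases hng with hng | hng
          · have := le_Wen_of_not_good f J K hK hP0 ht i x hng
            linarith only [hW0 y i, hW0, this]
          · have := le_Wen_of_not_good f J K hK hP0 ht i y hng
            linarith only [hW0 x i, hW0, this]
        · rw [Real.zero_rpow hP0.ne']
          exact mul_nonneg h80 (by linarith only [hW0 x i, hW0 y i, hW0])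
      calc 2 * ∑ i, (if m i < L then 40 / L * (τ / 2 ^ m i) * lpd P f x y else 0) ^ P
          ≤ 2 * ∑ i, (80 / L * lpd P f x y) ^ P * (4 * (Wen P f J K x i + Wen P f J K y i)) :=
            mul_le_mul_of_nonneg_left (Finset.sum_le_sum fun i _ => h1 i) (by norm_num)
        _ = (80 / L * lpd P f x y) ^ P *
              (8 * (∑ i, Wen P f J K x i + ∑ i, Wen P f J K y i)) := by
            rw [← Finset.mul_sum, ← Finset.mul_sum, Finset.sum_add_distrib]; ring
        _ ≤ (80 / L * lpd P f x y) ^ P * (16 * U) := by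
            apply mul_le_mul_of_nonneg_left _ (Real.rpow_nonneg (by positivity) _)
            linarith only [hWsum x, hWsum y, hWsum]
    have h3 := combine_coords hP f (fun x i => hh i x) (fun x i => gg i x) x y
      (fun i => m i / L) _ hm2 hm3 _ hB
    refine h3.trans (le_of_eq ?_)
    rw [Real.mul_rpow (Real.rpow_nonneg (by positivity) _) (by (clear * - hU0; positivity)),
      ← Real.rpow_mul (by (clear * - hL hρ; positivity)), mul_one_div_cancel hP0.ne', Real.rpow_one]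
    ring
  · intro x
    have hτL : (0:ℝ) < τ / 2 ^ L := by positivity
    have h1 : ∀ i ∈ Finset.univ.filter (fun i => gg i x ≠ 0),
        (τ / 2 ^ L) ^ P ≤ 4 * Wen P f J K x i := by
      intro i hi
      have hi' : gg i x ≠ 0 := by simpa only [ne_eq, Finset.mem_filter, Finset.mem_univ,
                                    true_and] using hi
      have h2 : ∃ l < L, ¬ Good f J K (τ / 2 ^ (l + 1)) i x := by
        by_contra hcon
        push Not at hcon
        exact hi' (hsparse i x hcon)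
      obtain ⟨l, hl, hng⟩ := h2
      refine le_trans ?_ (le_Wen_of_not_good f J K hK hP0 (by positivity) i x hng)
      apply Real.rpow_le_rpow hτL.le _ hP0.le
      apply div_le_div_of_nonneg_left hτ.le (by positivity)
      exact pow_le_pow_right₀ (by norm_num) (by omega)
    have h2 : ((Finset.univ.filter (fun i => gg i x ≠ 0)).card : ℝ) * (τ / 2 ^ L) ^ P ≤ 4 * U := by
      calc ((Finset.univ.filter (fun i => gg i x ≠ 0)).card : ℝ) * (τ / 2 ^ L) ^ P
          = ∑ i ∈ Finset.univ.filter (fun i => gg i x ≠ 0), (τ / 2 ^ L) ^ P := by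
            rw [Finset.sum_const, nsmul_eq_mul]
        _ ≤ ∑ i ∈ Finset.univ.filter (fun i => gg i x ≠ 0), 4 * Wen P f J K x i :=
            Finset.sum_le_sum h1
        _ ≤ ∑ i, 4 * Wen P f J K x i :=
            Finset.sum_le_sum_of_subset_of_nonneg (Finset.subset_univ _)
              fun i _ _ => by linarith only [hW0 x i, hW0]
        _ = 4 * ∑ i, Wen P f J K x i := by rw [Finset.mul_sum]
        _ ≤ 4 * U := by linarith only [hWsum x, hWsum]
    rw [Real.div_rpow hτ.le (by positivity), ← Real.rpow_pow_comm (by norm_num : (0:ℝ) ≤ 2) P L,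
      ← mul_div_assoc, div_le_iff₀ (by positivity)] at h2
    exact h2

end Vale.Agent.P249
end
end

section

section

open scoped ENNReal BigOperators

namespace Vale.Agent.P249

/-- Near-isometric halving of the dimension of the target, up to subpolynomial factors. -/
def NearHalvingStatement (p : ℝ≥0∞) [Fact (1 ≤ p)] (θ : ℝ) : Prop :=
  ∃ C : ℝ, 1 ≤ C ∧ ∀ δ : ℝ, 0 < δ → δ ≤ 1 → ∀ (V : Type) [Fintype V] [Nonempty V] (N : ℕ)
    (f : V → PiLp p (fun _ : Fin N => ℝ)), 0 < N →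
    (N : ℝ) ≤ Real.exp (4 * (1 + Real.log (Fintype.card V))) →
    ∃ (d : ℕ) (F : V → PiLp p (fun _ : Fin d => ℝ)), 0 < d ∧
      (d : ℝ) ≤ Real.sqrt N * Real.exp (C * (1 + Real.log (Fintype.card V)) ^ θ / δ) ∧
      ∀ x y, (1 - δ) * ‖f x - f y‖ ^ p.toReal ≤ ‖F x - F y‖ ^ p.toReal ∧
        ‖F x - F y‖ ^ p.toReal ≤ (1 + δ) * ‖f x - f y‖ ^ p.toReal

end Vale.Agent.P249
end
end

section

section

open scoped BigOperators

namespace Vale.Agent.P249

theorem rpow_le_exp_mul {y k : ℝ} (hy : 1 ≤ y) (hk : 0 ≤ k) : y ^ k ≤ Real.exp (k * y) := by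
  rw [Real.rpow_def_of_pos (by linarith)]
  apply Real.exp_le_exp.2
  rw [mul_comm]
  apply mul_le_mul_of_nonneg_left _ hk
  have := Real.log_le_sub_one_of_pos (show 0 < y by linarith)
  linarith

theorem poly_le_exp {θ l δ a c : ℝ} (hθ : 0 < θ) (hl : 1 ≤ l) (hδ : 0 < δ) (hδ1 : δ ≤ 1)
    (ha : 0 ≤ a) (hc : 0 ≤ c) :
    l ^ a * (1 / δ) ^ c ≤ Real.exp ((a / θ + c) * (l ^ θ / δ)) := by
  have hlθ : 1 ≤ l ^ θ := Real.one_le_rpow hl hθ.le
  have h1 : l ^ θ ≤ l ^ θ / δ := by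
    rw [le_div_iff₀ hδ]
    nlinarith only [hδ1, hlθ]
  have h2 : 1 / δ ≤ l ^ θ / δ := by gcongr
  have hy : 1 ≤ l ^ θ / δ := hlθ.trans h1
  have h3 : l ^ a ≤ (l ^ θ / δ) ^ (a / θ) := by
    have : l ^ a = (l ^ θ) ^ (a / θ) := by
      rw [← Real.rpow_mul (by linarith only [hl])]
      congr 1
      field_simp
    rw [this]
    apply Real.rpow_le_rpow (by linarith only [hlθ]) h1 (by positivity)
  have h4 : (1 / δ) ^ c ≤ (l ^ θ / δ) ^ c := Real.rpow_le_rpow (by positivity) h2 hc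
  calc l ^ a * (1 / δ) ^ c ≤ (l ^ θ / δ) ^ (a / θ) * (l ^ θ / δ) ^ c := by
        apply mul_le_mul h3 h4 (by positivity) (by positivity)
    _ = (l ^ θ / δ) ^ (a / θ + c) := by rw [← Real.rpow_add (by linarith only [hlθ, h1])]
    _ ≤ _ := rpow_le_exp_mul hy (by positivity)

theorem const_le_exp {K y : ℝ} (hK : 1 ≤ K) (hy : 1 ≤ y) : K ≤ Real.exp (Real.log K * y) := by
  calc K = Real.exp (Real.log K * 1) := by rw [mul_one, Real.exp_log (by linarith)]
    _ ≤ _ := by
      apply Real.exp_le_exp.2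
      apply mul_le_mul_of_nonneg_left hy (Real.log_nonneg hK)

/-- the parameters of the near-isometric halving step -/
structure NHParam (P θ CK δ n : ℝ) (N : ℕ) (C : ℝ) where
  L : ℕ
  m : ℕ
  b : ℕ
  T : ℕ
  ℓ : ℕ
  Q : ℝ
  hL : 0 < L
  hm : 0 < m
  hb : 0 < b
  hT : 0 < T
  hℓ : 1 ≤ ℓ
  hQ : 1 < Q
  he1 : 2 ^ P * (80 / L * (16 * (CK * (1 + Real.log n) ^ (θ * P))) ^ (1 / P)) ≤ δ / 6
  he2 : P * (80 / L * (16 * (CK * (1 + Real.log n) ^ (θ * P))) ^ (1 / P)) ≤ δ / 6
  hmc : 4 * (N * (4 * (N : ℝ) ^ (-(1 / (2 * P)))) ^ P) * 2 ^ P * Real.log (2 * n ^ 2 + 1) ≤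
    (δ / 6) ^ 2 * m
  hbQ : 2 * (4 * (CK * (1 + Real.log n) ^ (θ * P)) * (2 ^ P) ^ L * Real.sqrt N) * Q ≤ b
  hℓQ : 2 * Real.exp 1 * (n ^ 2 + 1) * b ≤ Q ^ ℓ
  hsm : (ℓ : ℝ) ^ P * (4 / Q + 2 * Real.log n / T) * 2 ≤ δ / 6
  hd : (m : ℝ) + T * b ≤ Real.sqrt N * Real.exp (C * (1 + Real.log n) ^ θ / δ)

theorem sixteen_e : 16 * Real.exp 1 ≤ Real.exp 4 := by
  have h1 : Real.exp 4 = Real.exp 1 ^ 3 * Real.exp 1 := by
    rw [← Real.exp_nat_mul, ← Real.exp_add]; norm_num
  rw [h1]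
  apply mul_le_mul_of_nonneg_right _ (Real.exp_pos _).le
  have h2 := Real.exp_one_gt_d9
  nlinarith only [sq_nonneg (Real.exp 1 - 2.7), h2]


theorem nh_L (P θ CK δ l y CL : ℝ) (hP : 1 ≤ P) (hCK : 0 < CK) (hl1 : 1 ≤ l) (hy1 : 1 ≤ y)
    (hy : y = l ^ θ / δ) (hδ : 0 < δ) (hCL : CL = 80 * (16 * CK) ^ (1 / P) * 6 * P * 2 ^ P) :
    ∃ L : ℕ, 0 < L ∧ (L : ℝ) ≤ (CL + 1) * y ∧
      2 ^ P * (80 / L * (16 * (CK * l ^ (θ * P))) ^ (1 / P)) ≤ δ / 6 ∧
      P * (80 / L * (16 * (CK * l ^ (θ * P))) ^ (1 / P)) ≤ δ / 6 := by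
  have hP0 : 0 < P := by linarith only [hP]
  have h2P : (1:ℝ) ≤ 2 ^ P := Real.one_le_rpow (by norm_num) hP0.le
  have h16 : 0 < (16 * CK) ^ (1 / P) := Real.rpow_pos_of_pos (by positivity) _
  have hCL0 : 0 < CL := by rw [hCL]; positivity
  have hl0 : 0 < l := by linarith only [hl1]
  have hy0 : 0 < y := by linarith only [hy1]
  obtain ⟨L, hLdef⟩ : ∃ L : ℕ, L = ⌈CL * y⌉₊ := ⟨_, rfl⟩
  have hL0 : 0 < L := by rw [hLdef]; exact Nat.ceil_pos.2 (by positivity)
  have hLr : (0:ℝ) < L := by exact_mod_cast hL0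
  have hLge : CL * y ≤ L := by rw [hLdef]; exact Nat.le_ceil _
  have hLle : (L : ℝ) ≤ (CL + 1) * y := by
    have := Nat.ceil_lt_add_one (show 0 ≤ CL * y by positivity)
    rw [← hLdef] at this
    nlinarith only [hy1, this]
  obtain ⟨e, he⟩ : ∃ e, e = 80 / L * (16 * (CK * l ^ (θ * P))) ^ (1 / P) := ⟨_, rfl⟩
  have he' : e = 80 * (16 * CK) ^ (1 / P) * l ^ θ / L := by
    rw [he, ← mul_assoc 16, Real.mul_rpow (by positivity) (by positivity), ← Real.rpow_mul hl0.le]
    rw [show θ * P * (1 / P) = θ by field_simp]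
    ring
  have he0 : 0 ≤ e := by rw [he']; positivity
  have hele : e * (6 * P * 2 ^ P) ≤ δ := by
    rw [he', div_mul_eq_mul_div, div_le_iff₀ hLr]
    calc 80 * (16 * CK) ^ (1 / P) * l ^ θ * (6 * P * 2 ^ P) = δ * (CL * y) := by
          rw [hCL, hy]; field_simp
      _ ≤ δ * L := by (clear * - hδ hLge; gcongr)
  refine ⟨L, hL0, hLle, ?_, ?_⟩
  · rw [← he]
    have : 2 ^ P * e * 1 ≤ 2 ^ P * e * P := by (clear * - hP he0; gcongr)
    linarith only [hele, this]
  · rw [← he]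
    have : P * e * 1 ≤ P * e * 2 ^ P := by (clear * - hP h2P he0; gcongr)
    linarith only [hele, this]

theorem nh_mcond (P δ l n : ℝ) (N m : ℕ) (hP : 1 ≤ P) (hn : 1 ≤ n) (hl : l = 1 + Real.log n)
    (hδ : 0 < δ) (hNr : (1:ℝ) ≤ N) (hmge : 288 * 8 ^ P * Real.sqrt N * l / δ ^ 2 ≤ m) :
    4 * (N * (4 * (N : ℝ) ^ (-(1 / (2 * P)))) ^ P) * 2 ^ P * Real.log (2 * n ^ 2 + 1) ≤
    (δ / 6) ^ 2 * m := by
  have hP0 : 0 < P := by linarith only [hP]
  have h1 : (N : ℝ) * (4 * (N : ℝ) ^ (-(1 / (2 * P)))) ^ P = 4 ^ P * Real.sqrt N := by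
    rw [Real.mul_rpow (by norm_num) (by positivity), ← Real.rpow_mul (by positivity)]
    rw [show -(1 / (2 * P)) * P = -(1 / 2 : ℝ) by field_simp]
    have h2 : (N : ℝ) * (N : ℝ) ^ (-(1 / 2 : ℝ)) = Real.sqrt N := by
      rw [Real.sqrt_eq_rpow]
      nth_rewrite 1 [← Real.rpow_one (N : ℝ)]
      rw [← Real.rpow_add (by linarith only [hNr])]
      norm_num
    calc (N : ℝ) * (4 ^ P * (N : ℝ) ^ (-(1 / 2 : ℝ)))
        = 4 ^ P * ((N : ℝ) * (N : ℝ) ^ (-(1 / 2 : ℝ))) := by ring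
      _ = _ := by rw [h2]
  rw [h1]
  have h3 : Real.log (2 * n ^ 2 + 1) ≤ 2 * l := by
    have h4 : 2 * n ^ 2 + 1 ≤ Real.exp 2 * n ^ 2 := by
      have h5 : (3:ℝ) ≤ Real.exp 2 := by
        have h6 : Real.exp 2 = Real.exp 1 ^ 2 := by rw [← Real.exp_nat_mul]; norm_num
        rw [h6]
        nlinarith only [Real.exp_one_gt_d9]
      nlinarith only [hn, h5]
    calc Real.log (2 * n ^ 2 + 1) ≤ Real.log (Real.exp 2 * n ^ 2) :=
          Real.log_le_log (by positivity) h4
      _ = 2 * l := by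
        rw [Real.log_mul (by positivity) (by positivity), Real.log_exp, Real.log_pow, hl]
        push_cast; ring
  have h8 : (8:ℝ) ^ P = 4 ^ P * 2 ^ P := by
    rw [← Real.mul_rpow (by norm_num) (by norm_num)]; norm_num
  calc 4 * (4 ^ P * Real.sqrt N) * 2 ^ P * Real.log (2 * n ^ 2 + 1)
      ≤ 4 * (4 ^ P * Real.sqrt N) * 2 ^ P * (2 * l) := by (clear * - hNr h3; gcongr)
    _ = (δ / 6) ^ 2 * (288 * 8 ^ P * Real.sqrt N * l / δ ^ 2) := by
        rw [h8]; field_simp; ring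
    _ ≤ (δ / 6) ^ 2 * m := by gcongr

/-- ceilings of constants times polynomials -/
theorem nh_ceil (θ K l δ y a c : ℝ) (hθ : 0 < θ) (hK : 1 ≤ K) (hl1 : 1 ≤ l) (hδ : 0 < δ)
    (hδ1 : δ ≤ 1) (hy : y = l ^ θ / δ) (hy1 : 1 ≤ y) (ha : 0 ≤ a) (hc : 0 ≤ c) :
    ∃ m : ℕ, 0 < m ∧ K * (l ^ a * (1 / δ) ^ c) ≤ m ∧
      (m : ℝ) ≤ Real.exp ((Real.log (2 * K) + (a / θ + c)) * y) := by
  have hl0 : 0 < l := by linarith only [hl1]
  have hK0 : 0 < K := by linarith only [hK]
  have h1 : 1 ≤ l ^ a := Real.one_le_rpow hl1 ha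
  have h2 : 1 ≤ (1 / δ) ^ c := Real.one_le_rpow (by rw [le_div_iff₀ hδ]; linarith only [hδ1]) hc
  have h3 : 1 ≤ l ^ a * (1 / δ) ^ c := by nlinarith only [h1, h2]
  have h4 : 1 ≤ K * (l ^ a * (1 / δ) ^ c) := by nlinarith only [hK, h3]
  refine ⟨⌈K * (l ^ a * (1 / δ) ^ c)⌉₊, Nat.ceil_pos.2 (by linarith only [h4]), Nat.le_ceil _, ?_⟩
  have h5 := Nat.ceil_lt_add_one (show 0 ≤ K * (l ^ a * (1 / δ) ^ c) by linarith)
  have h6 := const_le_exp (show 1 ≤ 2 * K by linarith only [hK]) hy1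
  have h7 := poly_le_exp hθ hl1 hδ hδ1 ha hc
  rw [← hy] at h7
  calc ((⌈K * (l ^ a * (1 / δ) ^ c)⌉₊ : ℕ) : ℝ) ≤ (2 * K) * (l ^ a * (1 / δ) ^ c) := by linarith only [h4,
                                                                                          h5]
    _ ≤ Real.exp (Real.log (2 * K) * y) * Real.exp ((a / θ + c) * y) :=
      mul_le_mul h6 h7 (by positivity) (by positivity)
    _ = _ := by rw [← Real.exp_add]; ring_nf

theorem nh_s0 (P θ CK δ l y CL S : ℝ) (N L : ℕ) (hP : 1 ≤ P) (hθ : 0 < θ) (hCK : 0 < CK)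
    (hl1 : 1 ≤ l) (hy1 : 1 ≤ y) (hy : y = l ^ θ / δ) (hδ : 0 < δ) (hδ1 : δ ≤ 1)
    (hLle : (L : ℝ) ≤ (CL + 1) * y) (hS : S = Real.log (4 * CK + 1) + P + (CL + 1) * P) :
    4 * (CK * l ^ (θ * P)) * (2 ^ P) ^ L * Real.sqrt N ≤ Real.exp (S * y) * Real.sqrt N := by
  have hP0 : 0 < P := by linarith only [hP]
  have hl0 : 0 < l := by linarith only [hl1]
  apply mul_le_mul_of_nonneg_right _ (Real.sqrt_nonneg _)
  have h1 : 4 * CK ≤ Real.exp (Real.log (4 * CK + 1) * y) :=
    (show 4 * CK ≤ 4 * CK + 1 by linarith only []).trans (const_le_exp (by linarith only [hCK]) hy1)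
  have h2 : l ^ (θ * P) ≤ Real.exp (P * y) := by
    have h3 := poly_le_exp (a := θ * P) (c := 0) hθ hl1 hδ hδ1 (by positivity) le_rfl
    rw [Real.rpow_zero, mul_one, add_zero, ← hy, show θ * P / θ = P by field_simp] at h3
    exact h3
  have h3 : ((2:ℝ) ^ P) ^ L ≤ Real.exp ((CL + 1) * P * y) := by
    have h4 : (2:ℝ) ^ P ≤ Real.exp P := by
      have h5 : (2:ℝ) ≤ Real.exp 1 := by
        have := Real.exp_one_gt_d9
        linarith only [this]
      calc (2:ℝ) ^ P ≤ Real.exp 1 ^ P := Real.rpow_le_rpow (by norm_num) h5 hP0.le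
        _ = Real.exp P := by rw [← Real.exp_mul, one_mul]
    calc ((2:ℝ) ^ P) ^ L ≤ Real.exp P ^ L := pow_le_pow_left₀ (by positivity) h4 L
      _ = Real.exp (L * P) := by rw [← Real.exp_nat_mul]
      _ ≤ Real.exp ((CL + 1) * P * y) := by
        apply Real.exp_le_exp.2
        calc (L : ℝ) * P ≤ (CL + 1) * y * P := by gcongr
          _ = _ := by ring
  calc 4 * (CK * l ^ (θ * P)) * (2 ^ P) ^ L = (4 * CK) * l ^ (θ * P) * (2 ^ P) ^ L := by ring
    _ ≤ Real.exp (Real.log (4 * CK + 1) * y) * Real.exp (P * y) *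
        Real.exp ((CL + 1) * P * y) := by
        apply mul_le_mul (mul_le_mul h1 h2 (by positivity) (by positivity)) h3 (by positivity)
          (by positivity)
    _ = Real.exp (S * y) := by rw [← Real.exp_add, ← Real.exp_add, hS]; ring_nf

theorem nh_b (S A y s₀ : ℝ) (N : ℕ) (hS0 : 0 ≤ S) (hA1 : 1 ≤ A) (hy1 : 1 ≤ y)
    (hNr : (1:ℝ) ≤ N) (hs₀0 : 0 < s₀) (hs₀le : s₀ ≤ Real.exp (S * y) * Real.sqrt N) :
    ∃ b : ℕ, 0 < b ∧ 2 * s₀ * Real.exp (A * y) ≤ b ∧
      (b : ℝ) ≤ 4 * Real.sqrt N * Real.exp ((S + A) * y) := by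
  have hsN : 1 ≤ Real.sqrt N := by
    rw [show (1:ℝ) = Real.sqrt 1 by simp]
    exact Real.sqrt_le_sqrt hNr
  have hy0 : 0 < y := by linarith only [hy1]
  refine ⟨⌈2 * s₀ * Real.exp (A * y)⌉₊, Nat.ceil_pos.2 (by positivity), Nat.le_ceil _, ?_⟩
  have h1 := Nat.ceil_lt_add_one (show 0 ≤ 2 * s₀ * Real.exp (A * y) by positivity)
  have h2 : s₀ * Real.exp (A * y) ≤ Real.sqrt N * Real.exp ((S + A) * y) := by
    calc s₀ * Real.exp (A * y) ≤ (Real.exp (S * y) * Real.sqrt N) * Real.exp (A * y) := by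
          gcongr
      _ = _ := by rw [add_mul, Real.exp_add]; ring
  have h3 : 1 ≤ Real.sqrt N * Real.exp ((S + A) * y) := by
    have h4 : 1 ≤ Real.exp ((S + A) * y) := Real.one_le_exp (by positivity)
    nlinarith only [hsN, h4]
  nlinarith only [h1, h2, h3]

theorem nh_ell (S A y l n : ℝ) (N b ℓ : ℕ) (hS0 : 0 ≤ S) (hA1 : 1 ≤ A) (hy1 : 1 ≤ y)
    (hn : 1 ≤ n) (hl : l = 1 + Real.log n) (hl1 : 1 ≤ l) (hNn : (N : ℝ) ≤ Real.exp (4 * l))
    (hble : (b : ℝ) ≤ 4 * Real.sqrt N * Real.exp ((S + A) * y))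
    (hℓge : 8 * l + S + 1 ≤ ℓ) :
    2 * Real.exp 1 * (n ^ 2 + 1) * b ≤ Real.exp (A * y) ^ ℓ := by
  have h1 : n = Real.exp (l - 1) := by
    rw [hl, add_sub_cancel_left, Real.exp_log (by linarith only [hn])]
  have h2 : Real.sqrt N ≤ Real.exp (2 * l) := by
    have h3 : Real.exp (4 * l) = Real.exp (2 * l) ^ 2 := by
      rw [← Real.exp_nat_mul]; push_cast; ring_nf
    rw [Real.sqrt_le_left (by positivity), ← h3]
    exact hNn
  have h4 : n ^ 2 + 1 ≤ 2 * n ^ 2 := by nlinarith only [hn]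
  have h5 : n ^ 2 = Real.exp (2 * l - 2) := by
    rw [h1, ← Real.exp_nat_mul]; push_cast; ring_nf
  have hy0 : 0 < y := by linarith only [hy1]
  have hAy : 1 ≤ A * y := by nlinarith only [hA1, hy1]
  have h9 : 2 + 4 * l + (S + A) * y ≤ ℓ * (A * y) := by
    have h6 : (8 * l + S + 1) * (A * y) ≤ ℓ * (A * y) :=
      mul_le_mul_of_nonneg_right hℓge (by positivity)
    have h7 : l ≤ l * (A * y) := by nlinarith only [hl1, hAy]
    have h8 : S * y ≤ S * (A * y) := by
      apply mul_le_mul_of_nonneg_left _ hS0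
      nlinarith only [hA1, hy1]
    nlinarith only [hl1, h6, h7, h8]
  calc 2 * Real.exp 1 * (n ^ 2 + 1) * b
      ≤ 2 * Real.exp 1 * (2 * n ^ 2) * (4 * Real.sqrt N * Real.exp ((S + A) * y)) := by
        gcongr
    _ = (16 * Real.exp 1) * n ^ 2 * Real.sqrt N * Real.exp ((S + A) * y) := by ring
    _ ≤ Real.exp 4 * Real.exp (2 * l - 2) * Real.exp (2 * l) * Real.exp ((S + A) * y) := by
        rw [h5]
        gcongr
        exact sixteen_e
    _ = Real.exp (2 + 4 * l + (S + A) * y) := by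
        rw [← Real.exp_add, ← Real.exp_add, ← Real.exp_add]; ring_nf
    _ ≤ Real.exp (ℓ * (A * y)) := Real.exp_le_exp.2 h9
    _ = Real.exp (A * y) ^ ℓ := by rw [← Real.exp_nat_mul]

theorem nh_small (P θ δ l y S A logn : ℝ) (ℓ T : ℕ) (hP : 1 ≤ P) (hθ : 0 < θ)
    (hδ : 0 < δ) (hδ1 : δ ≤ 1) (hl1 : 1 ≤ l) (hlogn0 : 0 ≤ logn) (hlogn : logn ≤ l)
    (hy1 : 1 ≤ y) (hy : y = l ^ θ / δ) (hS0 : 0 ≤ S)
    (hA : A = Real.log (96 * (S + 10) ^ P) + (P / θ + 1))
    (hℓle : (ℓ : ℝ) ≤ (S + 10) * l) (hT0 : 0 < T)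
    (hTge : 48 * (S + 10) ^ P * (l ^ (P + 1) * (1 / δ) ^ (1:ℝ)) ≤ T) :
    (ℓ : ℝ) ^ P * (4 / Real.exp (A * y) + 2 * logn / T) * 2 ≤ δ / 6 := by
  have hP0 : 0 < P := by linarith only [hP]
  have hl0 : 0 < l := by linarith only [hl1]
  have hS10 : 1 ≤ (S + 10) ^ P := Real.one_le_rpow (by linarith only [hS0]) hP0.le
  have hℓP : (ℓ : ℝ) ^ P ≤ (S + 10) ^ P * l ^ P := by
    rw [← Real.mul_rpow (by positivity) hl0.le]
    exact Real.rpow_le_rpow (by positivity) hℓle hP0.le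
  have hTr : (0:ℝ) < T := by exact_mod_cast hT0
  have hℓ0 : (0:ℝ) ≤ (ℓ : ℝ) ^ P := by (clear * -; positivity)
  have h1 : 96 * (ℓ : ℝ) ^ P / δ ≤ Real.exp (A * y) := by
    have h2 := const_le_exp (show (1:ℝ) ≤ 96 * (S + 10) ^ P by linarith only [hS10]) hy1
    have h3 := poly_le_exp (a := P) (c := 1) hθ hl1 hδ hδ1 hP0.le (by norm_num)
    rw [← hy, Real.rpow_one] at h3
    calc 96 * (ℓ : ℝ) ^ P / δ ≤ 96 * ((S + 10) ^ P * l ^ P) / δ := by (clear * - hδ hℓP; gcongr)
      _ = (96 * (S + 10) ^ P) * (l ^ P * (1 / δ)) := by ring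
      _ ≤ Real.exp (Real.log (96 * (S + 10) ^ P) * y) * Real.exp ((P / θ + 1) * y) :=
        mul_le_mul h2 h3 (by positivity) (by positivity)
      _ = Real.exp (A * y) := by rw [← Real.exp_add, hA]; ring_nf
  have h4 : (ℓ : ℝ) ^ P * (4 / Real.exp (A * y)) * 2 ≤ δ / 12 := by
    rw [div_le_iff₀ hδ] at h1
    have hQ0 : 0 < Real.exp (A * y) := Real.exp_pos _
    rw [mul_div_assoc', div_mul_eq_mul_div, div_le_iff₀ hQ0]
    linarith only [h1]
  have h5 : (ℓ : ℝ) ^ P * (2 * logn / T) * 2 ≤ δ / 12 := by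
    rw [mul_div_assoc', div_mul_eq_mul_div, div_le_iff₀ hTr]
    have h6 : l ^ (P + 1) = l ^ P * l := by rw [Real.rpow_add hl0, Real.rpow_one]
    have h7 : (ℓ : ℝ) ^ P * logn ≤ (S + 10) ^ P * l ^ (P + 1) := by
      calc (ℓ : ℝ) ^ P * logn ≤ ((S + 10) ^ P * l ^ P) * l := by
            apply mul_le_mul hℓP hlogn hlogn0 (by positivity)
        _ = _ := by rw [h6]; ring
    have h8 : 48 * ((S + 10) ^ P * l ^ (P + 1)) ≤ δ * T := by
      have h9 := mul_le_mul_of_nonneg_left hTge hδ.le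
      rw [Real.rpow_one] at h9
      calc 48 * ((S + 10) ^ P * l ^ (P + 1)) =
            δ * (48 * (S + 10) ^ P * (l ^ (P + 1) * (1 / δ))) := by field_simp
        _ ≤ _ := h9
    linarith only [h7, h8]
  calc (ℓ : ℝ) ^ P * (4 / Real.exp (A * y) + 2 * logn / T) * 2
      = (ℓ : ℝ) ^ P * (4 / Real.exp (A * y)) * 2 + (ℓ : ℝ) ^ P * (2 * logn / T) * 2 := by ring
    _ ≤ δ / 12 + δ / 12 := add_le_add h4 h5
    _ = δ / 6 := by ring

theorem nh_dim (M1 S A T1 y m T b s : ℝ) (hM1 : 0 ≤ M1) (hS0 : 0 ≤ S) (hA : 1 ≤ A)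
    (hT1 : 0 ≤ T1) (hy1 : 1 ≤ y) (hs : 1 ≤ s) (hT0 : 0 ≤ T) (hb0 : 0 ≤ b)
    (hm : m ≤ s * Real.exp (M1 * y)) (hT : T ≤ Real.exp (T1 * y))
    (hb : b ≤ 4 * s * Real.exp ((S + A) * y)) :
    m + T * b ≤ s * Real.exp ((M1 + S + A + T1 + 2) * y) := by
  have h1 : T * b ≤ s * (4 * Real.exp ((T1 + S + A) * y)) := by
    calc T * b ≤ Real.exp (T1 * y) * (4 * s * Real.exp ((S + A) * y)) := by
          (clear * - hb0 hT hb; gcongr)
      _ = s * (4 * (Real.exp (T1 * y) * Real.exp ((S + A) * y))) := by ring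
      _ = _ := by rw [← Real.exp_add]; ring_nf
  have h2 : Real.exp (M1 * y) ≤ Real.exp ((M1 + S + A + T1) * y) := by
    apply Real.exp_le_exp.2
    gcongr
    linarith only [hS0, hA, hT1]
  have h3 : Real.exp ((T1 + S + A) * y) ≤ Real.exp ((M1 + S + A + T1) * y) := by
    apply Real.exp_le_exp.2
    apply mul_le_mul_of_nonneg_right _ (by linarith)
    linarith
  have h5 : (5:ℝ) ≤ Real.exp (2 * y) := by
    have h6 : Real.exp 2 = Real.exp 1 ^ 2 := by rw [← Real.exp_nat_mul]; norm_num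
    have h7 : (5:ℝ) ≤ Real.exp 2 := by
      rw [h6]
      nlinarith only [Real.exp_one_gt_d9]
    exact h7.trans (Real.exp_le_exp.2 (by linarith only [hy1]))
  have hs0 : 0 < s := by linarith
  calc m + T * b ≤ s * Real.exp (M1 * y) +
        s * (4 * Real.exp ((T1 + S + A) * y)) := add_le_add hm h1
    _ ≤ s * Real.exp ((M1 + S + A + T1) * y) +
        s * (4 * Real.exp ((M1 + S + A + T1) * y)) := by gcongr
    _ = s * (5 * Real.exp ((M1 + S + A + T1) * y)) := by ring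
    _ ≤ s * (Real.exp (2 * y) * Real.exp ((M1 + S + A + T1) * y)) := by gcongr
    _ = _ := by rw [← Real.exp_add]; ring_nf

theorem nh_m (P θ δ l y : ℝ) (N : ℕ) (hP : 1 ≤ P) (hθ : 0 < θ) (hδ : 0 < δ) (hδ1 : δ ≤ 1)
    (hl1 : 1 ≤ l) (hy1 : 1 ≤ y) (hy : y = l ^ θ / δ) (hNr : (1:ℝ) ≤ N) :
    ∃ m : ℕ, 0 < m ∧ 288 * 8 ^ P * Real.sqrt N * l / δ ^ 2 ≤ m ∧
      (m : ℝ) ≤ Real.sqrt N * Real.exp ((Real.log (290 * 8 ^ P) + (1 / θ + 2)) * y) := by
  have hP0 : 0 < P := by linarith only [hP]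
  have hl0 : 0 < l := by linarith only [hl1]
  have h8P : (1:ℝ) ≤ 8 ^ P := Real.one_le_rpow (by norm_num) hP0.le
  have hsN : 1 ≤ Real.sqrt N := by
    rw [show (1:ℝ) = Real.sqrt 1 by simp]
    exact Real.sqrt_le_sqrt hNr
  have hsN0 : 0 < Real.sqrt N := by linarith only [hsN]
  have hδ2 : δ ^ 2 ≤ 1 := by nlinarith only [hδ, hδ1]
  obtain ⟨z, hz⟩ : ∃ z, z = 8 ^ P * Real.sqrt N * l / δ ^ 2 := ⟨_, rfl⟩
  have hz1 : 1 ≤ z := by
    rw [hz, le_div_iff₀ (by positivity), one_mul]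
    have h3 : 1 ≤ 8 ^ P * Real.sqrt N := by nlinarith only [h8P, hsN]
    nlinarith only [hl1, hδ2, h3]
  have hz2 : 288 * 8 ^ P * Real.sqrt N * l / δ ^ 2 = 288 * z := by rw [hz]; ring
  rw [hz2]
  refine ⟨⌈288 * z⌉₊, Nat.ceil_pos.2 (by linarith only [hz1]), Nat.le_ceil _, ?_⟩
  have h1 := Nat.ceil_lt_add_one (show 0 ≤ 288 * z by linarith only [hz1])
  have h4 : ((⌈288 * z⌉₊ : ℕ) : ℝ) ≤
      Real.sqrt N * ((290 * 8 ^ P) * (l ^ (1:ℝ) * (1 / δ) ^ (2:ℝ))) := by
    have h5 : Real.sqrt N * ((290 * 8 ^ P) * (l ^ (1:ℝ) * (1 / δ) ^ (2:ℝ))) = 290 * z := by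
      rw [Real.rpow_one, Real.rpow_two, hz]
      field_simp
    rw [h5]
    linarith only [hz1, h1]
  refine h4.trans ?_
  apply mul_le_mul_of_nonneg_left _ hsN0.le
  have h7 := const_le_exp (show (1:ℝ) ≤ 290 * 8 ^ P by linarith only [h8P]) hy1
  have h8 := poly_le_exp (a := 1) (c := 2) hθ hl1 hδ hδ1 (by norm_num) (by norm_num)
  rw [← hy] at h8
  calc (290 * 8 ^ P) * (l ^ (1:ℝ) * (1 / δ) ^ (2:ℝ))
      ≤ Real.exp (Real.log (290 * 8 ^ P) * y) * Real.exp ((1 / θ + 2) * y) :=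
        mul_le_mul h7 h8 (by positivity) (by positivity)
    _ = _ := by rw [← Real.exp_add]; ring_nf

theorem exists_param (P θ CK : ℝ) (hP : 1 ≤ P) (hθ : 0 < θ) (hCK : 0 < CK) :
    ∃ C : ℝ, 1 ≤ C ∧ ∀ δ : ℝ, 0 < δ → δ ≤ 1 → ∀ n : ℝ, 1 ≤ n → ∀ N : ℕ, 0 < N →
      (N : ℝ) ≤ Real.exp (4 * (1 + Real.log n)) → Nonempty (NHParam P θ CK δ n N C) := by
  have hP0 : 0 < P := by linarith
  have h2P : (1:ℝ) ≤ 2 ^ P := Real.one_le_rpow (by norm_num) hP0.le
  have h8P : (1:ℝ) ≤ 8 ^ P := Real.one_le_rpow (by norm_num) hP0.le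
  have h16 : 0 < (16 * CK) ^ (1 / P) := Real.rpow_pos_of_pos (by positivity) _
  obtain ⟨CL, hCL⟩ : ∃ CL, CL = 80 * (16 * CK) ^ (1 / P) * 6 * P * 2 ^ P := ⟨_, rfl⟩
  have hCL0 : 0 < CL := by rw [hCL]; positivity
  obtain ⟨S, hS⟩ : ∃ S, S = Real.log (4 * CK + 1) + P + (CL + 1) * P := ⟨_, rfl⟩
  have hlog4 : 0 ≤ Real.log (4 * CK + 1) := Real.log_nonneg (by linarith only [hCK])
  have hS0 : 0 ≤ S := by rw [hS]; positivity
  have hS10 : 1 ≤ (S + 10) ^ P := Real.one_le_rpow (by linarith only [hS0]) hP0.le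
  obtain ⟨A, hA⟩ : ∃ A, A = Real.log (96 * (S + 10) ^ P) + (P / θ + 1) := ⟨_, rfl⟩
  have hlogA : 0 ≤ Real.log (96 * (S + 10) ^ P) := Real.log_nonneg (by linarith only [hS10])
  have hPθ : 0 < P / θ := by positivity
  have hA1 : 1 ≤ A := by rw [hA]; linarith only [hlogA, hPθ]
  obtain ⟨M1, hM1⟩ : ∃ M1, M1 = Real.log (290 * 8 ^ P) + (1 / θ + 2) := ⟨_, rfl⟩
  have hlogM : 0 ≤ Real.log (290 * 8 ^ P) := Real.log_nonneg (by linarith only [h8P])
  have hθ1 : 0 < 1 / θ := by positivity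
  have hM10 : 0 ≤ M1 := by rw [hM1]; linarith only [hlogM, hθ1]
  obtain ⟨T1, hT1⟩ : ∃ T1, T1 = Real.log (2 * (48 * (S + 10) ^ P)) + ((P + 1) / θ + 1) :=
    ⟨_, rfl⟩
  have hlogT : 0 ≤ Real.log (2 * (48 * (S + 10) ^ P)) := Real.log_nonneg (by linarith only [hS10])
  have hPθ' : 0 < (P + 1) / θ := by positivity
  have hT10 : 0 ≤ T1 := by rw [hT1]; linarith only [hlogT, hPθ']
  refine ⟨M1 + S + A + T1 + 2, by linarith only [hS0, hA, hlogA, hPθ, hM1, hlogM, hθ1, hT1, hlogT,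
                                    hPθ'], ?_⟩
  intro δ hδ hδ1 n hn N hN hNn
  obtain ⟨l, hl⟩ : ∃ l, l = 1 + Real.log n := ⟨_, rfl⟩
  have hlogn : 0 ≤ Real.log n := Real.log_nonneg hn
  have hl1 : 1 ≤ l := by rw [hl]; linarith only [hlogn]
  have hl0 : 0 < l := by linarith only [hl, hlogn]
  rw [← hl] at hNn
  obtain ⟨y, hy⟩ : ∃ y, y = l ^ θ / δ := ⟨_, rfl⟩
  have hlθ : 1 ≤ l ^ θ := Real.one_le_rpow hl1 hθ.le
  have hy1 : 1 ≤ y := by
    rw [hy, le_div_iff₀ hδ]
    linarith only [hδ1, hlθ]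
  have hy0 : 0 < y := by linarith only [hy1]
  have hNr : (1:ℝ) ≤ N := by exact_mod_cast hN
  have hsN : 1 ≤ Real.sqrt N := by
    rw [show (1:ℝ) = Real.sqrt 1 by simp]
    exact Real.sqrt_le_sqrt hNr
  obtain ⟨L, hL0, hLle, he1, he2⟩ := nh_L P θ CK δ l y CL hP hCK hl1 hy1 hy hδ hCL
  obtain ⟨m, hm0, hmge, hmle⟩ := nh_m P θ δ l y N hP hθ hδ hδ1 hl1 hy1 hy hNr
  rw [← hM1] at hmle
  have hs₀le := nh_s0 P θ CK δ l y CL S N L hP hθ hCK hl1 hy1 hy hδ hδ1 hLle hS
  have hs₀0 : 0 < 4 * (CK * l ^ (θ * P)) * (2 ^ P) ^ L * Real.sqrt N := by positivity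
  obtain ⟨b, hb0, hbge, hble⟩ := nh_b S A y _ N hS0 hA1 hy1 hNr hs₀0 hs₀le
  obtain ⟨ℓ, hℓdef⟩ : ∃ ℓ : ℕ, ℓ = ⌈8 * l + S + 1⌉₊ := ⟨_, rfl⟩
  have hℓge : 8 * l + S + 1 ≤ ℓ := by rw [hℓdef]; exact Nat.le_ceil _
  have hℓle : (ℓ : ℝ) ≤ (S + 10) * l := by
    have h1 := Nat.ceil_lt_add_one (show 0 ≤ 8 * l + S + 1 by (clear * - hS0 hl1; positivity))
    rw [← hℓdef] at h1
    nlinarith only [hS0, hl, hlogn, h1]
  have hℓ1 : 1 ≤ ℓ := by
    have : (1:ℝ) ≤ ℓ := by linarith only [hS0, hl, hlogn, hℓge]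
    exact_mod_cast this
  obtain ⟨T, hT0, hTge, hTle⟩ := nh_ceil θ (48 * (S + 10) ^ P) l δ y (P + 1) 1 hθ (by linarith only [hS10])
    hl1 hδ hδ1 hy hy1 (by linarith only [hP]) (by norm_num)
  rw [← hT1] at hTle
  have hQ1 : 1 < Real.exp (A * y) := Real.one_lt_exp_iff.2 (by (clear * - hA1 hy1; positivity))
  refine ⟨⟨L, m, b, T, ℓ, Real.exp (A * y), hL0, hm0, hb0, hT0, hℓ1, hQ1, ?_, ?_, ?_, ?_, ?_,
    ?_, ?_⟩⟩
  · rw [← hl]; exact he1
  · rw [← hl]; exact he2
  · exact nh_mcond P δ l n N m hP hn hl hδ hNr hmge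
  · rw [← hl]; exact hbge
  · exact nh_ell S A y l n N b ℓ hS0 hA1 hy1 hn hl hl1 hNn hble hℓge
  · exact nh_small P θ δ l y S A (Real.log n) ℓ T hP hθ hδ hδ1 hl1 hlogn (by rw [hl]; linarith only [])
      hy1 hy hS0 hA hℓle hT0 hTge
  · rw [← hl, show (M1 + S + A + T1 + 2) * l ^ θ / δ = (M1 + S + A + T1 + 2) * y by rw [hy]; ring]
    exact nh_dim M1 S A T1 y m T b _ hM10 hS0 hA1 hT10 hy1 hsN (by positivity) (by positivity)
      hmle hTle hble

end Vale.Agent.P249
end
end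

section

section

open MeasureTheory
open scoped ENNReal BigOperators

namespace Vale.Agent.P249

variable {p : ℝ≥0∞}

theorem one_add_rpow_le' {e P : ℝ} (he0 : 0 ≤ e) (he1 : e ≤ 1) (hP : 1 ≤ P) :
    (1 + e) ^ P ≤ 1 + 2 ^ P * e := by
  have h := (convexOn_rpow hP).2 (show (1:ℝ) ∈ Set.Ici 0 by simp only [Set.mem_Ici, zero_le_one]) (show (2:ℝ) ∈ Set.Ici 0 by simp)
    (show 0 ≤ 1 - e by linarith) he0 (by ring)
  simp only [smul_eq_mul, Real.one_rpow] at h
  have h1 : (1 - e) * 1 + e * 2 = 1 + e := by ring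
  rw [h1] at h
  linarith only [he0, h]

theorem near_pow {A ρ e ε P : ℝ} (hP : 1 ≤ P) (hA : 0 ≤ A) (hρ : 0 ≤ ρ) (he0 : 0 ≤ e)
    (he1 : e ≤ 1) (h : |A - ρ| ≤ e * ρ) (h1 : 2 ^ P * e ≤ ε) (h2 : P * e ≤ ε) :
    |A ^ P - ρ ^ P| ≤ ε * ρ ^ P := by
  have hρP : 0 ≤ ρ ^ P := Real.rpow_nonneg hρ P
  rw [abs_le] at h ⊢
  constructor
  · have h3 : (1 - e) * ρ ≤ A := by linarith only [h]
    have h4 : ((1 - e) * ρ) ^ P ≤ A ^ P :=
      Real.rpow_le_rpow (mul_nonneg (by linarith) hρ) h3 (by linarith)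
    rw [Real.mul_rpow (by linarith) hρ] at h4
    have h5 : 1 + P * (-e) ≤ (1 + (-e)) ^ P := one_add_mul_self_le_rpow_one_add (by linarith only [he1]) hP
    have h6 : (1 - ε) * ρ ^ P ≤ (1 - e) ^ P * ρ ^ P := by
      apply mul_le_mul_of_nonneg_right _ hρP
      have h7 : (1 + (-e)) = 1 - e := by ring
      rw [h7] at h5
      linarith only [h2, h5]
    linarith
  · have h3 : A ≤ (1 + e) * ρ := by linarith
    have h4 : A ^ P ≤ ((1 + e) * ρ) ^ P := Real.rpow_le_rpow hA h3 (by linarith)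
    rw [Real.mul_rpow (by linarith) hρ] at h4
    have h5 := one_add_rpow_le' he0 he1 hP
    have h6 : (1 + e) ^ P * ρ ^ P ≤ (1 + ε) * ρ ^ P := by
      apply mul_le_mul_of_nonneg_right _ hρP
      linarith only [h1, h5]
    linarith

theorem lpd_eq_norm [Fact (1 ≤ p)] (hp : p ≠ ∞) {V : Type*} {N : ℕ} (f : V → Fin N → ℝ)
    (x y : V) : lpd p.toReal f x y = ‖(WithLp.toLp p (f x) : PiLp p (fun _ : Fin N => ℝ)) -
      WithLp.toLp p (f y)‖ := by
  have h0 := toReal_pos_of_fact (p := p) hp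
  apply (Real.rpow_left_inj (lpd_nonneg f x y) (norm_nonneg _) h0.ne').1
  rw [lpd_rpow f h0, norm_rpow_eq_sum hp]
  simp only [PiLp.sub_apply]


theorem near_halving (p : ℝ≥0∞) [Fact (1 ≤ p)] (hp : p ≠ ∞) (θ : ℝ) (hθ0 : 0 < θ) (hθ1 : θ ≤ 1)
    (hK : ∃ C : ℝ, 0 < C ∧ ∀ {V : Type} [Fintype V] [Nonempty V] {N : ℕ} (f : V → Fin N → ℝ),
      HasKernels p.toReal (lpd p.toReal f)
        (C * (1 + Real.log (Fintype.card V)) ^ (θ * p.toReal))) :
    NearHalvingStatement p θ := by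
  have hP0 := toReal_pos_of_fact (p := p) hp
  have hP1 := one_le_toReal_of_fact (p := p) hp
  obtain ⟨CK, hCK, hK⟩ := hK
  obtain ⟨C, hC1, hC⟩ := exists_param p.toReal θ CK hP1 hθ0 hCK
  refine ⟨C, hC1, ?_⟩
  intro δ hδ hδ1 V _ _ N f hN hNle
  have hcard : (1 : ℝ) ≤ Fintype.card V := by exact_mod_cast Fintype.card_pos
  obtain ⟨par⟩ := hC δ hδ hδ1 (Fintype.card V) hcard N hN hNle
  have hNr : (0:ℝ) < N := by exact_mod_cast hN
  have hτ : 0 < (N : ℝ) ^ (-(1 / (2 * p.toReal))) := Real.rpow_pos_of_pos hNr _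
  obtain ⟨h, g, hhg, hh, hg⟩ := near_split p.toReal hP1 (fun x i => f x i) _
    (hK (fun x i => f x i)) ((N : ℝ) ^ (-(1 / (2 * p.toReal)))) hτ par.L par.hL
  have hρ : ∀ x y, lpd p.toReal (fun x i => f x i) x y = ‖f x - f y‖ := fun x y => by
    rw [lpd_eq_norm hp]
  have hU0 : 0 ≤ 16 * (CK * (1 + Real.log (Fintype.card V)) ^ (θ * p.toReal)) := by
    have := Real.log_nonneg hcard
    (clear * - hCK; positivity)
  set e := 80 / (par.L : ℝ) *
    (16 * (CK * (1 + Real.log (Fintype.card V)) ^ (θ * p.toReal))) ^ (1 / p.toReal) with he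
  have he0 : 0 ≤ e := by rw [he]; (clear * - hCK; positivity)
  have he1 := par.he1
  have he2 := par.he2
  rw [← he] at he1 he2
  have heone : e ≤ 1 := by
    have h1 : 1 * e ≤ p.toReal * e := mul_le_mul_of_nonneg_right hP1 he0
    linarith only [hδ1, he2, h1]
  -- the sum of the two parts
  have hsum : ∀ x y, |(lpd p.toReal h x y ^ p.toReal + lpd p.toReal g x y ^ p.toReal) -
      ‖f x - f y‖ ^ p.toReal| ≤ δ / 6 * ‖f x - f y‖ ^ p.toReal := by
    intro x y
    have hs0 : 0 ≤ lpd p.toReal h x y ^ p.toReal + lpd p.toReal g x y ^ p.toReal :=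
      add_nonneg (Real.rpow_nonneg (lpd_nonneg _ _ _) _) (Real.rpow_nonneg (lpd_nonneg _ _ _) _)
    have h1 := near_pow hP1 (Real.rpow_nonneg hs0 (1 / p.toReal)) (lpd_nonneg (P := p.toReal) (fun x i => f x i) x y)
      he0 heone (hhg x y) he1 he2
    rw [← Real.rpow_mul hs0, one_div, inv_mul_cancel₀ hP0.ne', Real.rpow_one, hρ] at h1
    exact h1
  -- flat part
  set U : V → PiLp p (fun _ : Fin N => ℝ) := fun x => WithLp.toLp p (h x) with hUdef
  have hUn : ∀ x y, lpd p.toReal h x y = ‖U x - U y‖ := fun x y => lpd_eq_norm hp h x y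
  set Gv : V → PiLp p (fun _ : Fin N => ℝ) := fun x => WithLp.toLp p (g x) with hGdef
  have hGn : ∀ x y, lpd p.toReal g x y = ‖Gv x - Gv y‖ := fun x y => lpd_eq_norm hp g x y
  have hbound : ∀ x y, ‖U x - U y‖ ^ p.toReal + ‖Gv x - Gv y‖ ^ p.toReal ≤
      2 * ‖f x - f y‖ ^ p.toReal := by
    intro x y
    have h1 := (abs_le.1 (hsum x y)).2
    rw [hUn, hGn] at h1
    have h2 : 0 ≤ ‖f x - f y‖ ^ p.toReal := Real.rpow_nonneg (norm_nonneg _) _
    nlinarith only [hδ1, h1, h2]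
  obtain ⟨W, -, hW⟩ := sample_map hp hN par.hm U (fun x y => ‖f x - f y‖)
    (fun x y => norm_nonneg _) (4 * (N : ℝ) ^ (-(1 / (2 * p.toReal)))) (by positivity)
    (by
      intro x y i
      have h1 := hh x y i
      rw [hρ] at h1
      exact h1)
    2 (δ / 6) (by norm_num)
    (by
      intro x y
      have h1 := hbound x y
      have h2 : 0 ≤ ‖Gv x - Gv y‖ ^ p.toReal := Real.rpow_nonneg (norm_nonneg _) _
      have h3 : ‖U x - U y‖ ^ p.toReal ≤ (2 * ‖f x - f y‖) ^ p.toReal := by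
        rw [Real.mul_rpow (by norm_num) (norm_nonneg _)]
        have h4 : (2:ℝ) ≤ 2 ^ p.toReal := by
          nth_rewrite 1 [← Real.rpow_one 2]
          exact Real.rpow_le_rpow_of_exponent_le (by norm_num) hP1
        have h5 : 0 ≤ ‖f x - f y‖ ^ p.toReal := Real.rpow_nonneg (norm_nonneg _) _
        nlinarith
      exact (Real.rpow_le_rpow_iff (norm_nonneg _) (by positivity) hP0).1 h3)
    (by linarith only [hδ])
    (by
      have h1 : (1:ℝ) ≤ 2 ^ p.toReal := Real.one_le_rpow (by norm_num) hP0.le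
      linarith only [hδ1, h1])
    par.hmc
  -- sparse part
  obtain ⟨H, hH⟩ := near_hash hp par.hb par.hT Gv
    (4 * (CK * (1 + Real.log (Fintype.card V)) ^ (θ * p.toReal)) * (2 ^ p.toReal) ^ par.L *
      Real.sqrt N) par.Q
    (by
      intro x
      have h1 := hg x
      rw [← Real.rpow_mul hNr.le, show -(1 / (2 * p.toReal)) * p.toReal = -(1 / 2 : ℝ) by
        field_simp] at h1
      have h2 : (N : ℝ) ^ (-(1 / 2 : ℝ)) * Real.sqrt N = 1 := by
        rw [Real.sqrt_eq_rpow, ← Real.rpow_add hNr]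
        norm_num
      have h3 := mul_le_mul_of_nonneg_right h1 (Real.sqrt_nonneg N)
      rw [mul_assoc, h2, mul_one] at h3
      exact h3)
    par.hQ par.hbQ par.ℓ par.hℓ par.hℓQ
  refine ⟨par.m + par.T * par.b, fun x => joinL (W x) (H x), Nat.add_pos_left par.hm _, ?_, ?_⟩
  · push_cast
    exact par.hd
  · intro x y
    simp only []
    rw [norm_joinL_sub_rpow hp]
    have h0 : 0 ≤ ‖f x - f y‖ ^ p.toReal := Real.rpow_nonneg (norm_nonneg _) _
    have h1 := hsum x y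
    rw [hUn, hGn] at h1
    have h2 := hW x y
    have h3 := hH x y
    have h4 := hbound x y
    have h5 : 0 ≤ ‖U x - U y‖ ^ p.toReal := Real.rpow_nonneg (norm_nonneg _) _
    have h6 : 0 ≤ ‖Gv x - Gv y‖ ^ p.toReal := Real.rpow_nonneg (norm_nonneg _) _
    have hlog := Real.log_nonneg hcard
    have hQ0 : 0 < par.Q := by linarith only [par.hQ]
    have h7 : (par.ℓ : ℝ) ^ p.toReal * (4 / par.Q + 2 * Real.log (Fintype.card V) / par.T) *
        ‖Gv x - Gv y‖ ^ p.toReal ≤ δ / 6 * ‖f x - f y‖ ^ p.toReal := by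
      have h8 := par.hsm
      have h9 : 0 ≤ (par.ℓ : ℝ) ^ p.toReal *
          (4 / par.Q + 2 * Real.log (Fintype.card V) / par.T) := by (clear * - hQ0; positivity)
      calc (par.ℓ : ℝ) ^ p.toReal * (4 / par.Q + 2 * Real.log (Fintype.card V) / par.T) *
            ‖Gv x - Gv y‖ ^ p.toReal
          ≤ (par.ℓ : ℝ) ^ p.toReal * (4 / par.Q + 2 * Real.log (Fintype.card V) / par.T) *
            (2 * ‖f x - f y‖ ^ p.toReal) := mul_le_mul_of_nonneg_left (by linarith only [h4, h5]) h9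
        _ = ((par.ℓ : ℝ) ^ p.toReal * (4 / par.Q + 2 * Real.log (Fintype.card V) / par.T) * 2) *
            ‖f x - f y‖ ^ p.toReal := by ring
        _ ≤ _ := mul_le_mul_of_nonneg_right h8 h0
    have h8 := h3.trans h7
    rw [abs_le] at h1 h2 h8
    have h9 : 0 ≤ δ * ‖f x - f y‖ ^ p.toReal := mul_nonneg hδ.le h0
    constructor <;> nlinarith only [h1.1, h1.2, h2.1, h2.2, h8.1, h8.2, h1, h2, h8]

end Vale.Agent.P249
end
end

section

section

/-!
# P249: derandomised Chernoff sampling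
-/

namespace Vale.Agent.P249

open MeasureTheory

/-- Method of conditional expectations: sample points one at a time. -/
theorem exists_points {Ω : Type*} [MeasurableSpace Ω] (ν : Measure Ω) [IsProbabilityMeasure ν]
    {A : Type*} [Fintype A] (F : A → Ω → ℝ) (hF : ∀ a, Integrable (F a) ν)
    (hF0 : ∀ a ω, 0 ≤ F a ω) (hF1 : ∀ a, ∫ ω, F a ω ∂ν ≤ 1) (m : ℕ) :
    ∀ w : A → ℝ, (∀ a, 0 ≤ w a) →
      ∃ z : Fin m → Ω, ∑ a, w a * ∏ k, F a (z k) ≤ ∑ a, w a := by
  induction m with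
  | zero =>
    intro w hw
    exact ⟨fun k => k.elim0, by simp only [Finset.univ_eq_empty, Finset.prod_empty, mul_one,
                                  Std.le_refl]⟩
  | succ m ih =>
    intro w hw
    have hint : Integrable (fun ω => ∑ a, w a * F a ω) ν :=
      integrable_finsetSum _ fun a _ => (hF a).const_mul _
    obtain ⟨ω, hω⟩ := exists_le_integral hint
    have hle : ∫ ω, (∑ a, w a * F a ω) ∂ν ≤ ∑ a, w a := by
      rw [integral_finsetSum _ fun a _ => (hF a).const_mul _]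
      refine Finset.sum_le_sum fun a _ => ?_
      rw [integral_const_mul]
      calc w a * ∫ ω, F a ω ∂ν ≤ w a * 1 := mul_le_mul_of_nonneg_left (hF1 a) (hw a)
        _ = w a := mul_one _
    obtain ⟨z, hz⟩ := ih (fun a => w a * F a ω) fun a => mul_nonneg (hw a) (hF0 a ω)
    refine ⟨Fin.cons ω z, ?_⟩
    calc ∑ a, w a * ∏ k, F a ((Fin.cons ω z : Fin (m + 1) → Ω) k)
        = ∑ a, (w a * F a ω) * ∏ k, F a (z k) := by
          refine Finset.sum_congr rfl fun a _ => ?_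
          rw [Fin.prod_univ_succ]
          simp only [Fin.cons_zero, Fin.cons_succ, mul_assoc]
      _ ≤ ∑ a, w a * F a ω := hz
      _ ≤ ∑ a, w a := hω.trans hle

/-- Convexity bound for the exponential on `[0, K]`. -/
theorem exp_le_chord {K s y : ℝ} (hK : 0 < K) (hy0 : 0 ≤ y) (hyK : y ≤ K) :
    Real.exp (s * y) ≤ 1 + (y / K) * (Real.exp (s * K) - 1) := by
  have h := convexOn_exp.2 (Set.mem_univ (0 : ℝ)) (Set.mem_univ (s * K))
    (show 0 ≤ 1 - y / K by
      have : y / K ≤ 1 := (div_le_one hK).2 hyK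
      linarith only [this])
    (show 0 ≤ y / K by positivity) (by ring)
  simp only [smul_eq_mul, mul_zero, zero_add, Real.exp_zero, mul_one] at h
  have e1 : y / K * (s * K) = s * y := by
    field_simp
  rw [e1] at h
  linarith only [h]

/-- Derandomised Chernoff bound, additive error: nonnegative functions bounded by `K` whose means
are at most one. -/
theorem chernoff_add {Ω : Type*} [MeasurableSpace Ω] (ν : Measure Ω) [IsProbabilityMeasure ν]
    {E : Type*} [Fintype E] (g : E → Ω → ℝ) (hgm : ∀ e, AEStronglyMeasurable (g e) ν)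
    {K : ℝ} (hK : 0 < K) (hg0 : ∀ e ω, 0 ≤ g e ω) (hgK : ∀ e ω, g e ω ≤ K)
    (mean : E → ℝ)
    (hmean : ∀ e, ∫ ω, g e ω ∂ν = mean e) (hmean1 : ∀ e, mean e ≤ 1) {ε : ℝ} (hε : 0 < ε) (hε1 : ε ≤ 2) (m : ℕ)
    (hm : 4 * K * Real.log (2 * Fintype.card E) / ε ^ 2 ≤ m) :
    ∃ z : Fin m → Ω, ∀ e, |∑ k, g e (z k) - m * mean e| ≤ ε * m := by
  classical
  rcases isEmpty_or_nonempty E with hE | hE
  · exact ⟨fun _ => (ν.nonempty_of_neZero).some, fun e => (hE.false e).elim⟩
  -- parameters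
  set lam : ℝ := ε / 2 with hlam
  have hlam0 : 0 < lam := by positivity
  have hlam1 : lam ≤ 1 := by linarith only [hε1, hlam]
  have hcard : (0 : ℝ) < 2 * Fintype.card E := by
    have : 0 < Fintype.card E := Fintype.card_pos
    positivity
  -- the signed exponential functions
  let F : E × Bool → Ω → ℝ := fun a ω =>
    Real.exp ((if a.2 then (1 : ℝ) else -1) * (lam / K) * (g a.1 ω - mean a.1) - lam ^ 2 / K)
  have hgi : ∀ e, Integrable (g e) ν := fun e =>
    Integrable.of_bound (hgm e) K (Filter.Eventually.of_forall fun ω => by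
      rw [Real.norm_eq_abs, abs_of_nonneg (hg0 e ω)]; exact hgK e ω)
  have hbd : ∀ (s : ℝ) (e : E) (ω : Ω), |s| = 1 →
      Real.exp (s * (lam / K) * (g e ω - mean e) - lam ^ 2 / K) ≤
        Real.exp (-(s * (lam / K) * mean e) - lam ^ 2 / K) *
          (1 + g e ω / K * (Real.exp (s * lam) - 1)) := by
    intro s e ω hs
    have h1 := exp_le_chord (s := s * (lam / K)) hK (hg0 e ω) (hgK e ω)
    have e1 : s * (lam / K) * K = s * lam := by (clear * - hK hlam0; field_simp)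
    rw [e1] at h1
    have e2 : Real.exp (s * (lam / K) * (g e ω - mean e) - lam ^ 2 / K) =
        Real.exp (-(s * (lam / K) * mean e) - lam ^ 2 / K) * Real.exp (s * (lam / K) * g e ω) := by
      rw [← Real.exp_add]; congr 1; ring
    rw [e2]
    exact mul_le_mul_of_nonneg_left h1 (Real.exp_pos _).le
  have hexp2 : ∀ s : ℝ, |s| = 1 → Real.exp (s * lam) - 1 ≤ s * lam + lam ^ 2 := by
    intro s hs
    have habs : |s * lam| ≤ 1 := by
      rw [abs_mul, hs, one_mul, abs_of_pos hlam0]; exact hlam1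
    have := Real.abs_exp_sub_one_sub_id_le habs
    have h3 := (abs_le.1 this).2
    have h4 : (s * lam) ^ 2 = lam ^ 2 := by
      have : s ^ 2 = 1 := by
        rw [← sq_abs, hs]; norm_num
      rw [mul_pow, this, one_mul]
    rw [h4] at h3
    linarith only [h3]
  have hFm : ∀ a, AEStronglyMeasurable (F a) ν := by
    intro a
    have h1 : AEStronglyMeasurable (fun ω =>
        (if a.2 then (1 : ℝ) else -1) * (lam / K) * (g a.1 ω - mean a.1) - lam ^ 2 / K) ν :=
      (((hgm a.1).sub aestronglyMeasurable_const).const_mul _).sub aestronglyMeasurable_const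
    exact Real.continuous_exp.comp_aestronglyMeasurable h1
  have hsgn : ∀ b : Bool, |(if b then (1 : ℝ) else -1)| = 1 := by
    intro b; cases b <;> simp
  have hFi : ∀ a, Integrable (F a) ν := by
    intro a
    have hint : Integrable (fun ω =>
        Real.exp (-((if a.2 then (1 : ℝ) else -1) * (lam / K) * mean a.1) - lam ^ 2 / K) *
          (1 + g a.1 ω / K * (Real.exp ((if a.2 then (1 : ℝ) else -1) * lam) - 1))) ν :=
      (((integrable_const (1 : ℝ)).add (((hgi a.1).div_const K).mul_const _))).const_mul _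
    refine hint.mono' (hFm a) (Filter.Eventually.of_forall fun ω => ?_)
    rw [Real.norm_eq_abs, abs_of_pos (Real.exp_pos _)]
    exact hbd _ a.1 ω (hsgn a.2)
  have hF1 : ∀ a, ∫ ω, F a ω ∂ν ≤ 1 := by
    intro a
    set s : ℝ := if a.2 then (1 : ℝ) else -1 with hs
    have hs1 : |s| = 1 := hsgn a.2
    have hint : Integrable (fun ω =>
        Real.exp (-(s * (lam / K) * mean a.1) - lam ^ 2 / K) *
          (1 + g a.1 ω / K * (Real.exp (s * lam) - 1))) ν :=
      (((integrable_const (1 : ℝ)).add (((hgi a.1).div_const K).mul_const _))).const_mul _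
    have h1 : ∫ ω, F a ω ∂ν ≤ ∫ ω, Real.exp (-(s * (lam / K) * mean a.1) - lam ^ 2 / K) *
          (1 + g a.1 ω / K * (Real.exp (s * lam) - 1)) ∂ν :=
      integral_mono (hFi a) hint fun ω => hbd s a.1 ω hs1
    have h2 : ∫ ω, Real.exp (-(s * (lam / K) * mean a.1) - lam ^ 2 / K) *
          (1 + g a.1 ω / K * (Real.exp (s * lam) - 1)) ∂ν =
        Real.exp (-(s * (lam / K) * mean a.1) - lam ^ 2 / K) *
          (1 + mean a.1 / K * (Real.exp (s * lam) - 1)) := by
      rw [integral_const_mul, integral_add (integrable_const _)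
        (((hgi a.1).div_const K).mul_const _), integral_mul_const, integral_div, hmean]
      simp only [integral_const, probReal_univ, smul_eq_mul, mul_one]
    rw [h2] at h1
    refine h1.trans ?_
    have hm0 : 0 ≤ mean a.1 := by
      rw [← hmean]; exact integral_nonneg fun ω => hg0 a.1 ω
    have h3 : 1 + mean a.1 / K * (Real.exp (s * lam) - 1) ≤
        Real.exp (mean a.1 / K * (s * lam + lam ^ 2)) := by
      have h4 := Real.add_one_le_exp (mean a.1 / K * (s * lam + lam ^ 2))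
      have h5 : mean a.1 / K * (Real.exp (s * lam) - 1) ≤ mean a.1 / K * (s * lam + lam ^ 2) :=
        mul_le_mul_of_nonneg_left (hexp2 s hs1) (by (clear * - hK hm0; positivity))
      linarith only [h4, h5]
    calc Real.exp (-(s * (lam / K) * mean a.1) - lam ^ 2 / K) *
          (1 + mean a.1 / K * (Real.exp (s * lam) - 1))
        ≤ Real.exp (-(s * (lam / K) * mean a.1) - lam ^ 2 / K) *
          Real.exp (mean a.1 / K * (s * lam + lam ^ 2)) :=
          mul_le_mul_of_nonneg_left h3 (Real.exp_pos _).le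
      _ ≤ 1 := by
          rw [← Real.exp_add, Real.exp_le_one_iff]
          have e1 : -(s * (lam / K) * mean a.1) - lam ^ 2 / K +
              mean a.1 / K * (s * lam + lam ^ 2) = -((1 - mean a.1) * (lam ^ 2 / K)) := by
            field_simp
            ring
          rw [e1]
          have := mul_nonneg (sub_nonneg.2 (hmean1 a.1)) (show 0 ≤ lam ^ 2 / K by positivity)
          linarith only [this]
  obtain ⟨z, hz⟩ := exists_points ν F hFi (fun a ω => (Real.exp_pos _).le) hF1 m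
    (fun _ => 1) (fun _ => zero_le_one)
  refine ⟨z, fun e => ?_⟩
  have hsum : ∑ a : E × Bool, (1 : ℝ) = 2 * Fintype.card E := by
    simp only [Finset.sum_const, Finset.card_univ, Fintype.card_prod, Fintype.card_bool,
      nsmul_eq_mul, Nat.cast_mul, Nat.cast_ofNat, mul_comm, one_mul]
  rw [hsum] at hz
  have hkey : ∀ b : Bool, (if b then (1 : ℝ) else -1) * (lam / K) * (∑ k, g e (z k) - m * mean e) -
      m * (lam ^ 2 / K) ≤ Real.log (2 * Fintype.card E) := by
    intro b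
    have h1 : 1 * ∏ k, F (e, b) (z k) ≤ ∑ a, 1 * ∏ k, F a (z k) :=
      Finset.single_le_sum (f := fun a => 1 * ∏ k, F a (z k))
        (fun a _ => by
          have : 0 ≤ ∏ k, F a (z k) := Finset.prod_nonneg fun k _ => (Real.exp_pos _).le
          linarith only [this]) (Finset.mem_univ (e, b))
    have h2 : ∏ k, F (e, b) (z k) = Real.exp ((if b then (1 : ℝ) else -1) * (lam / K) *
        (∑ k, g e (z k) - m * mean e) - m * (lam ^ 2 / K)) := by
      have : ∏ k, F (e, b) (z k) = Real.exp (∑ k : Fin m, ((if b then (1 : ℝ) else -1) *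
          (lam / K) * (g e (z k) - mean e) - lam ^ 2 / K)) := by
        rw [Real.exp_sum]
      rw [this]
      congr 1
      rw [Finset.sum_sub_distrib, ← Finset.mul_sum, Finset.sum_sub_distrib]
      simp only [ite_mul, one_mul, neg_mul, Finset.sum_const, Finset.card_univ, Fintype.card_fin,
        nsmul_eq_mul]
    rw [one_mul, h2] at h1
    have h3 := h1.trans hz
    exact (Real.le_log_iff_exp_le hcard).2 h3
  -- conclude
  have hL : K * Real.log (2 * Fintype.card E) / lam ≤ ε / 2 * m := by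
    have h1 : K * Real.log (2 * Fintype.card E) / lam =
        (ε / 2) * (4 * K * Real.log (2 * Fintype.card E) / ε ^ 2) := by
      rw [hlam]; field_simp; ring
    rw [h1]
    exact mul_le_mul_of_nonneg_left hm (by positivity)
  have hfin : ∀ x : ℝ, (lam / K) * x - m * (lam ^ 2 / K) ≤ Real.log (2 * Fintype.card E) →
      x ≤ ε * m := by
    intro x hx
    have h1 : (lam / K) * x ≤ Real.log (2 * Fintype.card E) + m * (lam ^ 2 / K) := by linarith only [hx]
    have h2 : x ≤ K / lam * (Real.log (2 * Fintype.card E) + m * (lam ^ 2 / K)) := by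
      have := mul_le_mul_of_nonneg_left h1 (show 0 ≤ K / lam by positivity)
      have e1 : K / lam * (lam / K * x) = x := by (clear * - hK hlam0; field_simp)
      rwa [e1] at this
    have h3 : K / lam * (Real.log (2 * Fintype.card E) + m * (lam ^ 2 / K)) =
        K * Real.log (2 * Fintype.card E) / lam + ε / 2 * m := by
      rw [hlam]; field_simp
    rw [h3] at h2
    linarith only [hL, h2]
  rw [abs_le]
  constructor
  · have h1 := hkey false
    simp only [Bool.false_eq_true, if_false] at h1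
    have h2 := hfin (-(∑ k, g e (z k) - m * mean e)) (by linarith only [h1])
    linarith only [h2]
  · have h1 := hkey true
    simp only [if_true, one_mul] at h1
    exact hfin _ h1

/-- Derandomised Chernoff bound for nonnegative bounded functions of mean one. -/
theorem chernoff {Ω : Type*} [MeasurableSpace Ω] (ν : Measure Ω) [IsProbabilityMeasure ν]
    {E : Type*} [Fintype E] (g : E → Ω → ℝ) (hgm : ∀ e, AEStronglyMeasurable (g e) ν)
    {K : ℝ} (hK : 0 < K) (hg0 : ∀ e ω, 0 ≤ g e ω) (hgK : ∀ e ω, g e ω ≤ K)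
    (hg1 : ∀ e, ∫ ω, g e ω ∂ν = 1) {ε : ℝ} (hε : 0 < ε) (hε1 : ε ≤ 2) (m : ℕ)
    (hm : 4 * K * Real.log (2 * Fintype.card E) / ε ^ 2 ≤ m) :
    ∃ z : Fin m → Ω, ∀ e, |∑ k, g e (z k) - m| ≤ ε * m := by
  obtain ⟨z, hz⟩ := chernoff_add ν g hgm hK hg0 hgK (fun _ => 1) hg1 (fun _ => le_rfl) hε hε1 m hm
  exact ⟨z, fun e => by simpa only [mul_one] using hz e⟩

end Vale.Agent.P249
end
end

section

section

/-!
# P249: greedy selection of a dominating set of pairs
-/

namespace Vale.Agent.P249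

/-- The pairs of `H` are greedily critical: every nonempty subset contains a pair which is not
dominated by the others. -/
def Critical {V : Type*} [DecidableEq V] (p : ℝ) (H : Finset (V × V)) : Prop :=
  ∀ H' ⊆ H, H'.Nonempty → ∃ e ∈ H', ∃ x : V → ℝ,
    ∑ f ∈ H'.erase e, |x f.1 - x f.2| ^ p < |x e.1 - x e.2| ^ p

theorem exists_greedy {V : Type*} [DecidableEq V] (p : ℝ) (hp : 0 ≤ p) (d : V × V → ℝ)
    (S : Finset (V × V)) (hd : ∀ e ∈ S, 0 < d e) :
    ∃ H ⊆ S, Critical p H ∧ ∀ e ∈ S, ∀ x : V → ℝ,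
      |x e.1 - x e.2| ^ p / d e ^ p ≤ ∑ f ∈ H, |x f.1 - x f.2| ^ p / d f ^ p := by
  induction S using Finset.induction_on_max_value d with
  | empty =>
    exact ⟨∅, Finset.Subset.refl _, fun H' hH' hne => by
      rw [Finset.subset_empty] at hH'
      subst hH'
      exact (Finset.not_nonempty_empty hne).elim, by simp only [Finset.notMem_empty,
                                                       Finset.sum_empty, IsEmpty.forall_iff,
                                                       implies_true]⟩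
  | insert a S haS hmax ih =>
    obtain ⟨H, hHS, hcrit, hdom⟩ := ih fun e he => hd e (Finset.mem_insert_of_mem he)
    by_cases hc : ∀ x : V → ℝ,
        |x a.1 - x a.2| ^ p / d a ^ p ≤ ∑ f ∈ H, |x f.1 - x f.2| ^ p / d f ^ p
    · refine ⟨H, hHS.trans (Finset.subset_insert _ _), hcrit, fun e he x => ?_⟩
      rcases Finset.mem_insert.1 he with rfl | he
      · exact hc x
      · exact hdom e he x
    · push Not at hc
      obtain ⟨x, hx⟩ := hc
      have haH : a ∉ H := fun h => haS (hHS h)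
      refine ⟨insert a H, Finset.insert_subset_insert _ hHS, ?_, ?_⟩
      · intro H' hH' hne
        by_cases haH' : a ∈ H'
        · refine ⟨a, haH', x, ?_⟩
          have hda : 0 < d a := hd a (Finset.mem_insert_self _ _)
          have h1 : ∑ f ∈ H'.erase a, |x f.1 - x f.2| ^ p ≤ ∑ f ∈ H, |x f.1 - x f.2| ^ p := by
            refine Finset.sum_le_sum_of_subset_of_nonneg ?_
              fun f _ _ => Real.rpow_nonneg (abs_nonneg _) _
            intro f hf
            rcases Finset.mem_insert.1 (hH' (Finset.mem_of_mem_erase hf)) with rfl | h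
            · exact (Finset.ne_of_mem_erase hf rfl).elim
            · exact h
          have h2 : (∑ f ∈ H, |x f.1 - x f.2| ^ p) / d a ^ p ≤
              ∑ f ∈ H, |x f.1 - x f.2| ^ p / d f ^ p := by
            rw [Finset.sum_div]
            refine Finset.sum_le_sum fun f hf => ?_
            have hdf : 0 < d f := hd f (Finset.mem_insert_of_mem (hHS hf))
            exact div_le_div_of_nonneg_left (Real.rpow_nonneg (abs_nonneg _) _)
              (Real.rpow_pos_of_pos hdf _) (Real.rpow_le_rpow hdf.le (hmax f (hHS hf)) hp)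
          have h3 := h2.trans_lt hx
          rw [div_lt_div_iff_of_pos_right (Real.rpow_pos_of_pos hda _)] at h3
          exact h1.trans_lt h3
        · refine hcrit H' (fun f hf => ?_) hne
          rcases Finset.mem_insert.1 (hH' hf) with rfl | h
          · exact (haH' hf).elim
          · exact h
      · intro e he y
        have hnn : ∀ f : V × V, f ∈ insert a H → 0 ≤ |y f.1 - y f.2| ^ p / d f ^ p := by
          intro f hf
          have hdf : 0 < d f := hd f (Finset.insert_subset_insert _ hHS hf)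
          exact div_nonneg (Real.rpow_nonneg (abs_nonneg _) _) (Real.rpow_nonneg hdf.le _)
        rcases Finset.mem_insert.1 he with rfl | he
        · exact Finset.single_le_sum hnn (Finset.mem_insert_self _ _)
        · refine (hdom e he y).trans ?_
          exact Finset.sum_le_sum_of_subset_of_nonneg (Finset.subset_insert _ _)
            fun f hf _ => hnn f hf

end Vale.Agent.P249
end
end

section

section

/-!
# P249: critical sets of pairs are sparse
-/

namespace Vale.Agent.P249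

section
variable {V : Type*} [DecidableEq V]

/-- Pairs of `H` inside the vertex set `W`. -/
def inside (H : Finset (V × V)) (W : Finset V) : Finset (V × V) :=
  H.filter fun e => e.1 ∈ W ∧ e.2 ∈ W

/-- Pairs of `H` inside `W` with exactly one end in `A`. -/
def crossing (H : Finset (V × V)) (W A : Finset V) : Finset (V × V) :=
  (inside H W).filter fun e => ¬(e.1 ∈ A ↔ e.2 ∈ A)

theorem mem_inside {H : Finset (V × V)} {W : Finset V} {e : V × V} :
    e ∈ inside H W ↔ e ∈ H ∧ e.1 ∈ W ∧ e.2 ∈ W := Finset.mem_filter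

theorem mem_crossing {H : Finset (V × V)} {W A : Finset V} {e : V × V} :
    e ∈ crossing H W A ↔ (e ∈ H ∧ e.1 ∈ W ∧ e.2 ∈ W) ∧ ¬(e.1 ∈ A ↔ e.2 ∈ A) := by
  rw [crossing, Finset.mem_filter, mem_inside]

theorem card_split (H : Finset (V × V)) {W A : Finset V} (hA : A ⊆ W) :
    (inside H W).card = (inside H A).card + (inside H (W \ A)).card +
      (crossing H W A).card := by
  have h1 : inside H W = (inside H A ∪ inside H (W \ A)) ∪ crossing H W A := by
    ext e
    simp only [Finset.mem_union, mem_inside, mem_crossing, Finset.mem_sdiff]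
    have := @hA e.1
    have := @hA e.2
    tauto
  have h2 : Disjoint (inside H A) (inside H (W \ A)) := by
    rw [Finset.disjoint_left]
    intro e he he'
    rw [mem_inside] at he he'
    exact (Finset.mem_sdiff.1 he'.2.1).2 he.2.1
  have h3 : Disjoint (inside H A ∪ inside H (W \ A)) (crossing H W A) := by
    rw [Finset.disjoint_left]
    intro e he he'
    rw [Finset.mem_union, mem_inside, mem_inside, Finset.mem_sdiff, Finset.mem_sdiff] at he
    rw [mem_crossing] at he'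
    (clear * - he he'; tauto)
  rw [h1, Finset.card_union_of_disjoint h3, Finset.card_union_of_disjoint h2]

theorem pow_sub_pow_le_mul {x y : ℝ} (hy : 0 ≤ y) (hxy : y ≤ x) (n : ℕ) :
    x ^ (n + 1) - y ^ (n + 1) ≤ (n + 1) * (x - y) * x ^ n := by
  induction n with
  | zero => simp
  | succ n ih =>
    have hx : 0 ≤ x := hy.trans hxy
    have h1 : x ^ (n + 1 + 1) - y ^ (n + 1 + 1) =
        x * (x ^ (n + 1) - y ^ (n + 1)) + y ^ (n + 1) * (x - y) := by ring
    have h2 : x * (x ^ (n + 1) - y ^ (n + 1)) ≤ x * ((n + 1) * (x - y) * x ^ n) :=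
      mul_le_mul_of_nonneg_left ih hx
    have h3 : y ^ (n + 1) * (x - y) ≤ x ^ (n + 1) * (x - y) :=
      mul_le_mul_of_nonneg_right (pow_le_pow_left₀ hy hxy _) (sub_nonneg.2 hxy)
    rw [h1]
    push_cast
    calc x * (x ^ (n + 1) - y ^ (n + 1)) + y ^ (n + 1) * (x - y)
        ≤ x * ((n + 1) * (x - y) * x ^ n) + x ^ (n + 1) * (x - y) := add_le_add h2 h3
      _ = ((n : ℝ) + 1 + 1) * (x - y) * x ^ (n + 1) := by ring

theorem rpow_concave_aux {a b s : ℝ} (ha : 0 < a) (hab : a ≤ b) (hs0 : 0 ≤ s) (hs1 : s ≤ 1) :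
    (1 - s) * a ^ s ≤ a ^ s + b ^ s - (a + b) ^ s := by
  have hb : 0 < b := ha.trans_le hab
  have h1 : (a + b) ^ s ≤ b ^ s + s * a * b ^ (s - 1) := by
    have e1 : a + b = b * (1 + a / b) := by field_simp; ring
    have h2 : (1 + a / b) ^ s ≤ 1 + s * (a / b) :=
      rpow_one_add_le_one_add_mul_self (le_trans (by norm_num) (div_nonneg ha.le hb.le)) hs0 hs1
    rw [e1, Real.mul_rpow hb.le (by positivity)]
    calc b ^ s * (1 + a / b) ^ s ≤ b ^ s * (1 + s * (a / b)) :=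
          mul_le_mul_of_nonneg_left h2 (Real.rpow_nonneg hb.le _)
      _ = b ^ s + s * a * b ^ (s - 1) := by
          rw [Real.rpow_sub_one hb.ne']
          ring
  have h3 : b ^ (s - 1) ≤ a ^ (s - 1) := Real.rpow_le_rpow_of_nonpos ha hab (by linarith)
  have h4 : s * a * b ^ (s - 1) ≤ s * a ^ s := by
    calc s * a * b ^ (s - 1) ≤ s * a * a ^ (s - 1) :=
          mul_le_mul_of_nonneg_left h3 (by positivity)
      _ = s * a ^ s := by
          rw [Real.rpow_sub_one ha.ne']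
          field_simp
  linarith

/-- The core of the sparsity bound: if every small vertex set has a large boundary and few
inner pairs, then an energy-one potential cannot separate. -/
theorem core {p : ℝ} {q r : ℕ} (hp : 0 < p) (hpq : p ≤ q) (H : Finset (V × V)) (W : Finset V)
    (e : V × V) (y : V → ℝ) {B c M : ℝ} (hr : r = 2 * q + 1)
    (hc : c = 1 / ((r : ℝ) ^ 2 * 2 ^ r)) (hM : M = (16 / c) ^ p) (hB : B = 4 * r * M)
    (hcut : ∀ A ⊆ W, A.Nonempty → 2 * A.card ≤ W.card →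
      B / r * (A.card : ℝ) ^ (1 - 1 / (r : ℝ)) ≤ (crossing H W A).card)
    (hin : ∀ A ⊆ W, 2 * A.card ≤ W.card → ((inside H A).card : ℝ) ≤ B * A.card)
    {v0 : V} (hv0 : v0 ∈ W) (hy0 : 1 ≤ y v0)
    (hsum : ∑ f ∈ (inside H W).erase e, |y f.1 - y f.2| ^ p ≤ 1)
    (hhalf : 2 * (W.filter fun v => 1 / 2 < y v).card ≤ W.card) : False := by
  have hrpos : (0 : ℝ) < r := by
    have : 0 < r := by omega
    exact_mod_cast this
  have hr1 : (1 : ℝ) ≤ r := by
    have : 1 ≤ r := by omega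
    exact_mod_cast this
  have hcpos : 0 < c := by rw [hc]; positivity
  have hc1 : c ≤ 1 := by
    rw [hc, div_le_one (by positivity)]
    have h1 : (1 : ℝ) ≤ (r : ℝ) ^ 2 := one_le_pow₀ hr1
    have h2 : (1 : ℝ) ≤ 2 ^ r := one_le_pow₀ (by norm_num)
    nlinarith only [h1, h2]
  have hM1 : 1 ≤ M := by
    rw [hM]
    exact Real.one_le_rpow ((one_le_div hcpos).2 (by linarith only [hc1])) hp.le
  have hBpos : 0 < B := by rw [hB]; (clear * - hrpos hM1; positivity)
  have hBr : B / r = 4 * M := by rw [hB]; (clear * - hrpos hM1; field_simp)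
  -- thresholds
  let t : ℕ → ℝ := fun k => 1 / 2 + 1 / (2 * (1 + c * k))
  have ht0 : ∀ k, 1 / 2 < t k := fun k => by
    have : 0 < 1 / (2 * (1 + c * (k : ℝ))) := by (clear * - hcpos; positivity)
    show 1 / 2 < 1 / 2 + 1 / (2 * (1 + c * (k : ℝ)))
    linarith only [this]
  have ht1 : ∀ k, t k ≤ 1 := fun k => by
    have h1 : 1 / (2 * (1 + c * (k : ℝ))) ≤ 1 / 2 := by
      apply one_div_le_one_div_of_le (by norm_num)
      have : 0 ≤ c * (k : ℝ) := by (clear * - hcpos; positivity)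
      linarith only [this]
    show 1 / 2 + 1 / (2 * (1 + c * (k : ℝ))) ≤ 1
    linarith only [h1]
  -- gaps
  have hgap : ∀ k : ℕ, (c / 16) / (max 1 (c * k)) ^ 2 ≤ t k - t (k + 1) := by
    intro k
    set m : ℝ := max 1 (c * k) with hm
    have hm1 : 1 ≤ m := le_max_left _ _
    have hmk : c * k ≤ m := le_max_right _ _
    have hk0 : 0 ≤ c * (k : ℝ) := by (clear * - hcpos; positivity)
    have e1 : t k - t (k + 1) = c / (2 * (1 + c * k) * (1 + c * (k + 1))) := by
      show 1 / 2 + 1 / (2 * (1 + c * (k : ℝ))) - (1 / 2 + 1 / (2 * (1 + c * ((k + 1 : ℕ) : ℝ)))) = _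
      push_cast
      have h1 : (1 + c * (k : ℝ)) ≠ 0 := by (clear * - hcpos; positivity)
      have h2 : (1 + c * ((k : ℝ) + 1)) ≠ 0 := by (clear * - hcpos; positivity)
      field_simp
      ring
    rw [e1, div_div]
    apply div_le_div_of_nonneg_left hcpos.le (by (clear * - hcpos; positivity))
    have h1 : 1 + c * (k : ℝ) ≤ 2 * m := by linarith only [hm1, hmk]
    have h2 : 1 + c * ((k : ℝ) + 1) ≤ 4 * m := by linarith only [hc1, hm1, hmk]
    calc 2 * (1 + c * (k : ℝ)) * (1 + c * ((k : ℝ) + 1)) ≤ 2 * (2 * m) * (4 * m) := by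
          apply mul_le_mul _ h2 (by (clear * - hcpos; positivity)) (by positivity)
          linarith only [hm1, hmk]
      _ = 16 * m ^ 2 := by ring
  have hgap0 : ∀ k : ℕ, 0 < t k - t (k + 1) := fun k =>
    lt_of_lt_of_le (by positivity) (hgap k)
  let A : ℕ → Finset V := fun k => W.filter fun v => t k ≤ y v
  have hAW : ∀ k, A k ⊆ W := fun k => Finset.filter_subset _ _
  have hAne : ∀ k, (A k).Nonempty := fun k =>
    ⟨v0, Finset.mem_filter.2 ⟨hv0, (ht1 k).trans hy0⟩⟩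
  have hAhalf : ∀ k, 2 * (A k).card ≤ W.card := fun k => by
    have h1 : A k ⊆ W.filter fun v => 1 / 2 < y v := by
      intro v hv
      rw [Finset.mem_filter] at hv ⊢
      exact ⟨hv.1, (ht0 k).trans_le hv.2⟩
    have := Finset.card_le_card h1
    omega
  have hAmono : ∀ k, A k ⊆ A (k + 1) := fun k v hv => by
    rw [Finset.mem_filter] at hv ⊢
    exact ⟨hv.1, by linarith only [hgap0 k, hgap0, hv]⟩
  have key : ∀ k : ℕ, B * (c * k) ^ r ≤ (inside H (A k)).card := by
    intro k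
    induction k with
    | zero =>
      have : r ≠ 0 := by omega
      simp only [CharP.cast_eq_zero, mul_zero, ne_eq, this, not_false_eq_true, zero_pow,
        Nat.cast_nonneg]
    | succ k ih =>
      set m : ℝ := max 1 (c * k) with hm
      have hm1 : 1 ≤ m := le_max_left _ _
      have hmk : c * k ≤ m := le_max_right _ _
      have hk0 : 0 ≤ c * (k : ℝ) := by (clear * - hcpos; positivity)
      have hm0 : 0 < m := by linarith only [hm1]
      -- size of `A k`
      have hAcard : m ^ r ≤ (A k).card := by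
        rcases le_total 1 (c * (k : ℝ)) with h | h
        · have e1 : m = c * k := max_eq_right h
          rw [e1]
          have h1 := hin (A k) (hAW k) (hAhalf k)
          have h2 : B * (c * k) ^ r ≤ B * (A k).card := ih.trans h1
          exact le_of_mul_le_mul_left h2 hBpos
        · have e1 : m = 1 := max_eq_left h
          rw [e1, one_pow]
          have := (hAne k).card_pos
          exact_mod_cast this
      have hcutk : 4 * M * m ^ (2 * q) ≤ (crossing H W (A k)).card := by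
        refine le_trans ?_ (hcut (A k) (hAW k) (hAne k) (hAhalf k))
        rw [hBr]
        refine mul_le_mul_of_nonneg_left ?_ (by positivity)
        have h1 : (m ^ r) ^ (1 - 1 / (r : ℝ)) = m ^ (2 * q) := by
          rw [← Real.rpow_natCast m r, ← Real.rpow_mul hm0.le]
          have : (r : ℝ) * (1 - 1 / (r : ℝ)) = ((2 * q : ℕ) : ℝ) := by
            have e2 : (r : ℝ) = 2 * q + 1 := by rw [hr]; push_cast; ring
            field_simp
            rw [e2]; push_cast; ring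
          rw [this, Real.rpow_natCast]
        rw [← h1]
        refine Real.rpow_le_rpow (by positivity) hAcard ?_
        have : 1 / (r : ℝ) ≤ 1 := by rw [div_le_one hrpos]; exact hr1
        linarith only [this]
      -- bad pairs
      set D : Finset (V × V) := ((inside H W).erase e).filter
        fun f => t k - t (k + 1) ≤ |y f.1 - y f.2| with hD
      have hDcard : (D.card : ℝ) ≤ M * m ^ (2 * q) := by
        have h1 : (D.card : ℝ) * (t k - t (k + 1)) ^ p ≤ 1 := by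
          calc (D.card : ℝ) * (t k - t (k + 1)) ^ p = ∑ f ∈ D, (t k - t (k + 1)) ^ p := by
                rw [Finset.sum_const, nsmul_eq_mul]
            _ ≤ ∑ f ∈ D, |y f.1 - y f.2| ^ p :=
                Finset.sum_le_sum fun f hf =>
                  Real.rpow_le_rpow (hgap0 k).le (Finset.mem_filter.1 hf).2 hp.le
            _ ≤ ∑ f ∈ (inside H W).erase e, |y f.1 - y f.2| ^ p :=
                Finset.sum_le_sum_of_subset_of_nonneg (Finset.filter_subset _ _)
                  fun f _ _ => Real.rpow_nonneg (abs_nonneg _) _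
            _ ≤ 1 := hsum
        have h2 : 1 / (M * m ^ (2 * q)) ≤ (t k - t (k + 1)) ^ p := by
          have h3 : ((c / 16) / m ^ 2) ^ p ≤ (t k - t (k + 1)) ^ p :=
            Real.rpow_le_rpow (by positivity) (hgap k) hp.le
          refine le_trans ?_ h3
          have e1 : (c / 16) / m ^ 2 = 1 / ((16 / c) * m ^ 2) := by
            (clear * - hcpos hm1; field_simp)
          rw [e1, Real.div_rpow (by norm_num) (by positivity), Real.one_rpow,
            Real.mul_rpow (by positivity) (by positivity), ← hM]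
          apply one_div_le_one_div_of_le (by positivity)
          refine mul_le_mul_of_nonneg_left ?_ (by positivity)
          rw [← Real.rpow_natCast m 2, ← Real.rpow_mul hm0.le, ← Real.rpow_natCast m (2 * q)]
          refine Real.rpow_le_rpow_of_exponent_le hm1 ?_
          push_cast
          linarith only [hpq]
        have h4 : (D.card : ℝ) * (1 / (M * m ^ (2 * q))) ≤ 1 :=
          (mul_le_mul_of_nonneg_left h2 (Nat.cast_nonneg _)).trans h1
        have h5 : 0 < M * m ^ (2 * q) := by positivity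
        rw [mul_one_div, div_le_one h5] at h4
        exact h4
      -- good crossing pairs are inside `A (k+1)`
      have hsub : (crossing H W (A k)) \ (insert e D) ⊆
          inside H (A (k + 1)) \ inside H (A k) := by
        intro f hf
        rw [Finset.mem_sdiff, Finset.mem_insert, not_or] at hf
        obtain ⟨hfc, hfe, hfD⟩ := hf
        rw [mem_crossing] at hfc
        obtain ⟨⟨hfH, hf1, hf2⟩, hx⟩ := hfc
        have hlt : |y f.1 - y f.2| < t k - t (k + 1) := by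
          by_contra hcon
          push Not at hcon
          exact hfD (Finset.mem_filter.2 ⟨Finset.mem_erase.2 ⟨hfe, mem_inside.2 ⟨hfH, hf1, hf2⟩⟩,
            hcon⟩)
        rw [abs_lt] at hlt
        rw [Finset.mem_sdiff, mem_inside, mem_inside]
        have hA1 : f.1 ∈ A k ↔ t k ≤ y f.1 := by
          rw [Finset.mem_filter]; exact ⟨fun h => h.2, fun h => ⟨hf1, h⟩⟩
        have hA2 : f.2 ∈ A k ↔ t k ≤ y f.2 := by
          rw [Finset.mem_filter]; exact ⟨fun h => h.2, fun h => ⟨hf2, h⟩⟩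
        have hB1 : f.1 ∈ A (k + 1) ↔ t (k + 1) ≤ y f.1 := by
          rw [Finset.mem_filter]; exact ⟨fun h => h.2, fun h => ⟨hf1, h⟩⟩
        have hB2 : f.2 ∈ A (k + 1) ↔ t (k + 1) ≤ y f.2 := by
          rw [Finset.mem_filter]; exact ⟨fun h => h.2, fun h => ⟨hf2, h⟩⟩
        have hor : t k ≤ y f.1 ∨ t k ≤ y f.2 := by
          by_contra hcon
          push Not at hcon
          apply hx
          rw [hA1, hA2]
          constructor <;> intro h <;> linarith only [hcon, h]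
        refine ⟨⟨hfH, hB1.2 ?_, hB2.2 ?_⟩, fun h => hx ⟨fun _ => h.2.2, fun _ => h.2.1⟩⟩
        · rcases hor with h | h
          · linarith only [hlt, h]
          · linarith only [hlt, h]
        · rcases hor with h | h
          · linarith only [hlt, h]
          · linarith only [hlt, h]
      have hmono : inside H (A k) ⊆ inside H (A (k + 1)) := by
        intro f hf
        rw [mem_inside] at hf ⊢
        exact ⟨hf.1, hAmono k hf.2.1, hAmono k hf.2.2⟩
      have hcount : (crossing H W (A k)).card ≤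
          (D.card + 1) + ((inside H (A (k + 1))).card - (inside H (A k)).card) := by
        have h1 := Finset.card_le_card hsub
        rw [Finset.card_sdiff_of_subset hmono] at h1
        have h2 := Finset.le_card_sdiff (insert e D) (crossing H W (A k))
        have h3 := Finset.card_insert_le e D
        omega
      have hle : (inside H (A k)).card ≤ (inside H (A (k + 1))).card := Finset.card_le_card hmono
      have hcountR : ((crossing H W (A k)).card : ℝ) ≤
          (D.card + 1) + ((inside H (A (k + 1))).card - (inside H (A k)).card) := by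
        have : ((crossing H W (A k)).card : ℝ) ≤ ((D.card + 1) +
          ((inside H (A (k + 1))).card - (inside H (A k)).card) : ℕ) := by exact_mod_cast hcount
        rw [Nat.cast_add, Nat.cast_sub hle] at this
        push_cast at this
        exact this
      have hmpow : 1 ≤ m ^ (2 * q) := one_le_pow₀ hm1
      have hMm : 1 ≤ M * m ^ (2 * q) := by nlinarith only [hM1, hmpow]
      have hstep : B * (c * ((k : ℝ) + 1)) ^ r ≤ B * (c * k) ^ r + 2 * (M * m ^ (2 * q)) := by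
        have h1 : (c * ((k : ℝ) + 1)) ^ r - (c * k) ^ r ≤ r * c * (2 * m) ^ (2 * q) := by
          have h2 := pow_sub_pow_le_mul (x := c * ((k : ℝ) + 1)) (y := c * k) hk0 (by nlinarith only [hcpos])
            (2 * q)
          rw [← hr] at h2
          refine h2.trans ?_
          have e2 : ((2 * q : ℕ) : ℝ) + 1 = r := by rw [hr]; push_cast; ring
          have e3 : c * ((k : ℝ) + 1) - c * k = c := by ring
          rw [e2, e3]
          refine mul_le_mul_of_nonneg_left (pow_le_pow_left₀ (by (clear * - hcpos; positivity)) ?_ _) (by (clear * - hrpos hcpos; positivity))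
          nlinarith only [hc1, hm1, hmk]
        have h3 : r * c * (2 * m) ^ (2 * q) = 1 / (2 * r) * m ^ (2 * q) := by
          rw [mul_pow, hc]
          have e4 : (2 : ℝ) ^ r = 2 * 2 ^ (2 * q) := by rw [hr, pow_succ]; ring
          rw [e4]
          (clear * - hrpos hm1; field_simp)
        rw [h3] at h1
        have h4 := mul_le_mul_of_nonneg_left h1 hBpos.le
        have h5 : B * (1 / (2 * r) * m ^ (2 * q)) = 2 * (M * m ^ (2 * q)) := by
          rw [hB]; field_simp; ring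
        rw [h5] at h4
        linarith only [h4]
      push_cast
      linarith only [ih, hcutk, hDcard, hcountR, hMm, hstep]
  -- contradiction
  obtain ⟨k, hk⟩ := exists_nat_gt (((W.card : ℝ) + 1) / c)
  have hk1 : (W.card : ℝ) + 1 < c * k := by
    rw [div_lt_iff₀ hcpos] at hk
    linarith only [hk]
  have h1 := (key k).trans (hin (A k) (hAW k) (hAhalf k))
  have h2 : (c * (k : ℝ)) ^ r ≤ (A k).card := le_of_mul_le_mul_left h1 hBpos
  have h3 : ((A k).card : ℝ) ≤ W.card := by exact_mod_cast Finset.card_le_card (hAW k)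
  have hW0 : (0 : ℝ) ≤ W.card := Nat.cast_nonneg _
  have h4 : c * (k : ℝ) ≤ (c * (k : ℝ)) ^ r :=
    le_self_pow₀ (by linarith only [hk1]) (by omega)
  linarith only [hk1, h2, h3, h4]

end

end Vale.Agent.P249
end
end

section

section
open MeasureTheory
open scoped ENNReal BigOperators
namespace Vale.Agent.P249

namespace EpsBallsAux

variable {V : Type*} [Fintype V] [PseudoMetricSpace V]

/-- weight of a closed ball -/
noncomputable def bw (w : V → ℝ) (z : V) (ρ : ℝ) : ℝ :=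
  open Classical in ∑ x ∈ Finset.univ.filter (fun x => dist x z ≤ ρ), w x

theorem bw_le (w : V → ℝ) (hw : ∀ x, 0 ≤ w x) (z : V) (ρ : ℝ) : bw w z ρ ≤ ∑ x, w x :=
  Finset.sum_le_sum_of_subset_of_nonneg (Finset.filter_subset _ _) (fun x _ _ => hw x)

theorem le_bw (w : V → ℝ) (hw : ∀ x, 0 ≤ w x) (z : V) {ρ : ℝ} (hρ : 0 ≤ ρ) : w z ≤ bw w z ρ := by
  classical
  unfold bw
  exact Finset.single_le_sum (f := w) (fun x _ => hw x)
    (Finset.mem_filter.mpr ⟨Finset.mem_univ z, by rw [dist_self]; exact hρ⟩)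

theorem exists_scale (w : V → ℝ) (hw : ∀ x, 0 ≤ w x) (C₀ : ℝ) (hC₀ : 1 ≤ C₀) (L : ℕ)
    (hL : 2 * (Fintype.card V : ℝ) ≤ C₀ ^ L) (r₀ : ℝ) (hr₀ : 0 < r₀) (z : V)
    (hz : (∑ x, w x) / (2 * Fintype.card V) ≤ w z) :
    ∃ j < L, bw w z (7 * (r₀ * 7 ^ j)) ≤ C₀ * bw w z (r₀ * 7 ^ j) := by
  by_contra hcon
  push Not at hcon
  have hcard : (1 : ℝ) ≤ Fintype.card V := by
    have : 0 < Fintype.card V := Fintype.card_pos_iff.mpr ⟨z⟩
    exact_mod_cast this
  have hL0 : L ≠ 0 := by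
    intro h
    rw [h, pow_zero] at hL
    linarith only [hL, hcard]
  have hstep : ∀ j, j < L → C₀ * bw w z (r₀ * 7 ^ j) < bw w z (r₀ * 7 ^ (j + 1)) := by
    intro j hj
    have h1 := hcon j hj
    have h2 : 7 * (r₀ * 7 ^ j) = r₀ * 7 ^ (j + 1) := by ring
    rwa [h2] at h1
  have hind : ∀ j, j ≤ L → C₀ ^ j * w z ≤ bw w z (r₀ * 7 ^ j) := by
    intro j
    induction j with
    | zero =>
      intro _
      rw [pow_zero, one_mul, pow_zero, mul_one]
      exact le_bw w hw z hr₀.le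
    | succ j ih =>
      intro hj
      have h1 := ih (by omega)
      have h2 := hstep j (by omega)
      calc C₀ ^ (j + 1) * w z = C₀ * (C₀ ^ j * w z) := by ring
        _ ≤ C₀ * bw w z (r₀ * 7 ^ j) := mul_le_mul_of_nonneg_left h1 (by linarith only [hC₀])
        _ ≤ _ := h2.le
  obtain ⟨K, rfl⟩ := Nat.exists_eq_succ_of_ne_zero hL0
  have h1 := hind K (by omega)
  have h2 := hstep K (by omega)
  have h3 : C₀ ^ (K + 1) * w z < bw w z (r₀ * 7 ^ (K + 1)) := by
    calc C₀ ^ (K + 1) * w z = C₀ * (C₀ ^ K * w z) := by ring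
      _ ≤ C₀ * bw w z (r₀ * 7 ^ K) := mul_le_mul_of_nonneg_left h1 (by linarith only [hC₀])
      _ < _ := h2
  have h4 := bw_le w hw z (r₀ * 7 ^ (K + 1))
  rw [div_le_iff₀ (by positivity)] at hz
  have h5 : w z * (2 * Fintype.card V) ≤ C₀ ^ (K + 1) * w z := by
    rw [mul_comm]
    exact mul_le_mul_of_nonneg_right hL (hw z)
  linarith only [hz, h3, h4, h5]

theorem sum_biUnion_le_aux {ι W : Type*} [DecidableEq ι] [DecidableEq W] (Z : Finset ι)
    (B : ι → Finset W) (w : W → ℝ) (hw : ∀ x, 0 ≤ w x) :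
    ∑ x ∈ Z.biUnion B, w x ≤ ∑ z ∈ Z, ∑ x ∈ B z, w x := by
  induction Z using Finset.induction_on with
  | empty => simp
  | insert a s ha ih =>
    rw [Finset.biUnion_insert, Finset.sum_insert ha]
    have h1 := Finset.sum_union_inter (s₁ := B a) (s₂ := s.biUnion B) (f := w)
    have h2 : 0 ≤ ∑ x ∈ B a ∩ s.biUnion B, w x := Finset.sum_nonneg (fun x _ => hw x)
    linarith only [ih, h1, h2]

end EpsBallsAux

open EpsBallsAux

/-! T2 -/
theorem exists_balls {V : Type*} [Fintype V] [PseudoMetricSpace V] (w : V → ℝ)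
    (hw : ∀ x, 0 ≤ w x) (C₀ : ℝ) (hC₀ : 1 ≤ C₀) (L : ℕ)
    (hL : 2 * (Fintype.card V : ℝ) ≤ C₀ ^ L) (r₀ : ℝ) (hr₀ : 0 < r₀) :
    ∃ (Z : Finset V) (r : V → ℝ), (∀ z ∈ Z, r₀ ≤ r z ∧ r z ≤ r₀ * 7 ^ L) ∧
      (∀ z ∈ Z, ∀ z' ∈ Z, z ≠ z' → ∀ x, ¬ (dist x z ≤ 2 * r z ∧ dist x z' ≤ 2 * r z')) ∧
      ∃ S : Finset V, (∀ x ∈ S, ∃ z ∈ Z, dist x z ≤ r z) ∧
        ∑ x, w x ≤ 2 * C₀ * ∑ x ∈ S, w x := by
  classical
  set W := ∑ x, w x with hWdef
  have hW0 : 0 ≤ W := Finset.sum_nonneg (fun x _ => hw x)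
  rcases hW0.eq_or_lt with hW | hW
  · refine ⟨∅, fun _ => r₀, by simp only [Finset.notMem_empty, Std.le_refl, true_and,
                                 IsEmpty.forall_iff, implies_true], by simp only [Finset.notMem_empty, ne_eq, not_and, not_le,
                                          IsEmpty.forall_iff, implies_true], ∅, by simp only [Finset.notMem_empty, false_and,
                                                      exists_false, imp_self, implies_true], ?_⟩
    rw [← hW]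
    simp
  set t : Finset V := Finset.univ.filter (fun z => W / (2 * Fintype.card V) ≤ w z) with ht
  have hsc : ∀ z : V, ∃ j : ℕ, z ∈ t → j < L ∧
      bw w z (7 * (r₀ * 7 ^ j)) ≤ C₀ * bw w z (r₀ * 7 ^ j) := by
    intro z
    by_cases hz : z ∈ t
    · obtain ⟨j, hj, hj'⟩ := exists_scale w hw C₀ hC₀ L hL r₀ hr₀ z (Finset.mem_filter.mp hz).2
      exact ⟨j, fun _ => ⟨hj, hj'⟩⟩
    · exact ⟨0, fun h => absurd h hz⟩
  choose j hj using hsc
  set r : V → ℝ := fun z => r₀ * 7 ^ (j z) with hr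
  have hrpos : ∀ z, 0 < r z := fun z => by simp only [hr]; positivity
  have hrle : ∀ z ∈ t, r z ≤ r₀ * 7 ^ L := by
    intro z hz
    simp only [hr]
    refine mul_le_mul_of_nonneg_left ?_ hr₀.le
    exact pow_le_pow_right₀ (by norm_num) (hj z hz).1.le
  have hrge : ∀ z, r₀ ≤ r z := by
    intro z
    simp only [hr]
    exact le_mul_of_one_le_right hr₀.le (one_le_pow₀ (by norm_num))
  obtain ⟨u, hut, hdisj, hcov⟩ := Vitali.exists_disjoint_subfamily_covering_enlargement_closedBall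
    (t : Set V) (fun z => z) (fun z => 2 * r z) (2 * (r₀ * 7 ^ L))
    (fun a ha => mul_le_mul_of_nonneg_left (hrle a ha) (by norm_num)) (7 / 2) (by norm_num)
  set Z : Finset V := Finset.univ.filter (fun z => z ∈ u) with hZ
  have hZu : ∀ z, z ∈ Z ↔ z ∈ u := fun z => by simp only [hZ, Finset.mem_filter, Finset.mem_univ,
                                                 true_and]
  have hZt : ∀ z ∈ Z, z ∈ t := fun z hz => hut ((hZu z).mp hz)
  have hZdisj : ∀ z ∈ Z, ∀ z' ∈ Z, z ≠ z' → ∀ x, ¬ (dist x z ≤ 2 * r z ∧ dist x z' ≤ 2 * r z') := by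
    intro z hz z' hz' hne x hx
    have h1 := hdisj ((hZu z).mp hz) ((hZu z').mp hz') hne
    exact Set.disjoint_left.mp h1 (Metric.mem_closedBall.mpr hx.1) (Metric.mem_closedBall.mpr hx.2)
  refine ⟨Z, r, fun z hz => ⟨hrge z, hrle z (hZt z hz)⟩, hZdisj,
    Z.biUnion (fun z => Finset.univ.filter (fun x => dist x z ≤ r z)), ?_, ?_⟩
  · intro x hx
    obtain ⟨z, hz, hxz⟩ := Finset.mem_biUnion.mp hx
    exact ⟨z, hz, (Finset.mem_filter.mp hxz).2⟩
  · have hsumS : ∑ x ∈ Z.biUnion (fun z => Finset.univ.filter (fun x => dist x z ≤ r z)), w x =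
        ∑ z ∈ Z, bw w z (r z) := by
      rw [Finset.sum_biUnion]
      · rfl
      · intro z hz z' hz' hne
        rw [Function.onFun, Finset.disjoint_left]
        intro x hx hx'
        refine hZdisj z hz z' hz' hne x ⟨?_, ?_⟩
        · have h1 := (Finset.mem_filter.mp hx).2
          have h2 := hrpos z
          linarith only [h1, h2]
        · have h1 := (Finset.mem_filter.mp hx').2
          have h2 := hrpos z'
          linarith
    rw [hsumS]
    -- small points carry at most half of the mass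
    have hsmall : ∑ x ∈ Finset.univ.filter (fun z => ¬ W / (2 * Fintype.card V) ≤ w z), w x ≤
        W / 2 := by
      have hcard : (0 : ℝ) < Fintype.card V := by
        have : 0 < Fintype.card V := by
          by_contra hcon
          have h0 : Fintype.card V = 0 := by omega
          have := Fintype.card_eq_zero_iff.mp h0
          rw [hWdef] at hW
          simp at hW
        exact_mod_cast this
      calc ∑ x ∈ Finset.univ.filter (fun z => ¬ W / (2 * Fintype.card V) ≤ w z), w x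
          ≤ ∑ x ∈ Finset.univ.filter (fun z => ¬ W / (2 * Fintype.card V) ≤ w z),
            W / (2 * Fintype.card V) :=
            Finset.sum_le_sum (fun x hx => (not_le.mp (Finset.mem_filter.mp hx).2).le)
        _ ≤ ∑ x : V, W / (2 * Fintype.card V) :=
            Finset.sum_le_sum_of_subset_of_nonneg (Finset.filter_subset _ _)
              (fun x _ _ => by (clear * - hW hcard; positivity))
        _ = W / 2 := by
            rw [Finset.sum_const, Finset.card_univ, nsmul_eq_mul]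
            field_simp
    have hsplit : ∑ x ∈ t, w x +
        ∑ x ∈ Finset.univ.filter (fun z => ¬ W / (2 * Fintype.card V) ≤ w z), w x = W :=
      Finset.sum_filter_add_sum_filter_not _ _ _
    have hlarge : ∑ x ∈ t, w x ≤ ∑ z ∈ Z, bw w z (7 * r z) := by
      have hsub : t ⊆ Z.biUnion (fun z => Finset.univ.filter (fun x => dist x z ≤ 7 * r z)) := by
        intro x hx
        obtain ⟨b, hb, hxb⟩ := hcov x hx
        refine Finset.mem_biUnion.mpr ⟨b, (hZu b).mpr hb, ?_⟩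
        have h1 : x ∈ Metric.closedBall b (7 / 2 * (2 * r b)) := by
          refine hxb (Metric.mem_closedBall_self ?_)
          have := hrpos x
          positivity
        rw [Metric.mem_closedBall] at h1
        refine Finset.mem_filter.mpr ⟨Finset.mem_univ _, ?_⟩
        linarith only [h1]
      calc ∑ x ∈ t, w x ≤
          ∑ x ∈ Z.biUnion (fun z => Finset.univ.filter (fun x => dist x z ≤ 7 * r z)), w x :=
            Finset.sum_le_sum_of_subset_of_nonneg hsub (fun x _ _ => hw x)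
        _ ≤ ∑ z ∈ Z, ∑ x ∈ Finset.univ.filter (fun x => dist x z ≤ 7 * r z), w x := by
            exact sum_biUnion_le_aux Z _ w hw
        _ = _ := rfl
    have hcomp : ∑ z ∈ Z, bw w z (7 * r z) ≤ C₀ * ∑ z ∈ Z, bw w z (r z) := by
      rw [Finset.mul_sum]
      exact Finset.sum_le_sum (fun z hz => (hj z (hZt z hz)).2)
    nlinarith only [hsmall, hsplit, hlarge, hcomp]

end Vale.Agent.P249
end
end

section

section
open MeasureTheory
open scoped ENNReal BigOperators
namespace Vale.Agent.P249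

namespace EpsLocalAux

variable {V : Type*} [PseudoMetricSpace V] {E : Type*} [NormedAddCommGroup E] [NormedSpace ℝ E]

/-- cutoff -/
noncomputable def cut (r : V → ℝ) (z x : V) : ℝ := max 0 (min 1 (4 - 2 * (dist x z / r z)))

theorem cut_nonneg (r : V → ℝ) (z x : V) : 0 ≤ cut r z x := le_max_left _ _

theorem cut_le_one (r : V → ℝ) (z x : V) : cut r z x ≤ 1 :=
  max_le zero_le_one (min_le_left _ _)

theorem cut_eq_one {r : V → ℝ} {z x : V} (hr : 0 < r z) (h : dist x z ≤ 3 / 2 * r z) :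
    cut r z x = 1 := by
  have h1 : dist x z / r z ≤ 3 / 2 := by rwa [div_le_iff₀ hr]
  have h2 : 1 ≤ 4 - 2 * (dist x z / r z) := by linarith only [h1]
  unfold cut
  rw [min_eq_left h2, max_eq_right zero_le_one]

theorem dist_le_of_cut_ne {r : V → ℝ} {z x : V} (hr : 0 < r z) (h : cut r z x ≠ 0) :
    dist x z ≤ 2 * r z := by
  by_contra hcon
  push Not at hcon
  apply h
  have h1 : 2 < dist x z / r z := by rwa [lt_div_iff₀ hr]
  have h2 : 4 - 2 * (dist x z / r z) ≤ 0 := by linarith only [h1]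
  unfold cut
  rw [max_eq_left]
  exact le_trans (min_le_right _ _) h2

theorem cut_lip {r : V → ℝ} {z : V} (hr : 0 < r z) (x y : V) :
    |cut r z x - cut r z y| ≤ 2 / r z * dist x y := by
  unfold cut
  have h1 : |max 0 (min 1 (4 - 2 * (dist x z / r z))) - max 0 (min 1 (4 - 2 * (dist y z / r z)))|
      ≤ |(4 - 2 * (dist x z / r z)) - (4 - 2 * (dist y z / r z))| := by
    rw [max_comm 0, max_comm 0]
    refine le_trans (abs_max_sub_max_le_abs _ _ _) ?_
    rw [min_comm 1, min_comm 1]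
    have := abs_min_sub_min_le_max (4 - 2 * (dist x z / r z)) 1 (4 - 2 * (dist y z / r z)) 1
    simpa only [sub_sub_sub_cancel_left, ge_iff_le, sub_self, abs_zero, abs_nonneg,
      sup_of_le_left] using this
  refine le_trans h1 ?_
  have h2 : (4 - 2 * (dist x z / r z)) - (4 - 2 * (dist y z / r z)) =
      2 / r z * (dist y z - dist x z) := by ring
  rw [h2, abs_mul, abs_of_pos (by positivity)]
  refine mul_le_mul_of_nonneg_left ?_ (by positivity)
  rw [dist_comm x y]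
  exact abs_dist_sub_le _ _ _

theorem term_lip_aux {r : V → ℝ} {z : V} (hr : 0 < r z) (g : V → V → E) (hg0 : ∀ z, g z z = 0)
    (hg : ∀ z x y, ‖g z x - g z y‖ ≤ dist x y) (x y : V) (hx : cut r z x ≠ 0) :
    ‖cut r z x • g z x - cut r z y • g z y‖ ≤ 5 * dist x y := by
  have h1 : cut r z x • g z x - cut r z y • g z y =
      (cut r z x - cut r z y) • g z x + cut r z y • (g z x - g z y) := by
    rw [sub_smul, smul_sub]
    abel
  have h2 : ‖g z x‖ ≤ 2 * r z := by
    have := hg z x z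
    rw [hg0, sub_zero] at this
    exact le_trans this (dist_le_of_cut_ne hr hx)
  rw [h1]
  refine le_trans (norm_add_le _ _) ?_
  rw [norm_smul, norm_smul, Real.norm_eq_abs, Real.norm_eq_abs, abs_of_nonneg (cut_nonneg r z y)]
  have h3 : |cut r z x - cut r z y| * ‖g z x‖ ≤ (2 / r z * dist x y) * (2 * r z) :=
    mul_le_mul (cut_lip hr x y) h2 (norm_nonneg _) (by positivity)
  have h4 : (2 / r z * dist x y) * (2 * r z) = 4 * dist x y := by
    field_simp
    ring
  have h5 : cut r z y * ‖g z x - g z y‖ ≤ 1 * dist x y :=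
    mul_le_mul (cut_le_one r z y) (hg z x y) (norm_nonneg _) zero_le_one
  linarith

theorem term_lip {r : V → ℝ} {z : V} (hr : 0 < r z) (g : V → V → E) (hg0 : ∀ z, g z z = 0)
    (hg : ∀ z x y, ‖g z x - g z y‖ ≤ dist x y) (x y : V) :
    ‖cut r z x • g z x - cut r z y • g z y‖ ≤ 5 * dist x y := by
  by_cases hx : cut r z x = 0
  · by_cases hy : cut r z y = 0
    · rw [hx, hy, zero_smul, zero_smul, sub_self, norm_zero]
      positivity
    · rw [norm_sub_rev, dist_comm]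
      exact term_lip_aux hr g hg0 hg y x hy
  · exact term_lip_aux hr g hg0 hg x y hx

end EpsLocalAux

open EpsLocalAux

/-! T3 -/
theorem exists_local {V : Type*} [PseudoMetricSpace V] {E : Type*}
    [NormedAddCommGroup E] [NormedSpace ℝ E] (Z : Finset V) (r : V → ℝ)
    (hr : ∀ z ∈ Z, 0 < r z)
    (hdisj : ∀ z ∈ Z, ∀ z' ∈ Z, z ≠ z' → ∀ x, ¬ (dist x z ≤ 2 * r z ∧ dist x z' ≤ 2 * r z'))
    (g : V → V → E) (hg0 : ∀ z, g z z = 0) (hg : ∀ z x y, ‖g z x - g z y‖ ≤ dist x y) :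
    ∃ G : V → E, (∀ x y, ‖G x - G y‖ ≤ 10 * dist x y) ∧
      (∀ z ∈ Z, ∀ x, dist x z ≤ 3 / 2 * r z → G x = g z x) ∧
      (∀ x, G x = 0 ∨ ∃ z ∈ Z, ∃ t : ℝ, 0 ≤ t ∧ t ≤ 1 ∧ dist x z ≤ 2 * r z ∧ G x = t • g z x) := by
  classical
  have hother : ∀ z ∈ Z, ∀ x, dist x z ≤ 2 * r z →
      ∑ z' ∈ Z, cut r z' x • g z' x = cut r z x • g z x := by
    intro z hz x hx
    refine Finset.sum_eq_single_of_mem z hz (fun z' hz' hne => ?_)
    have h1 : cut r z' x = 0 := by
      by_contra hcon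
      exact hdisj z' hz' z hz hne x ⟨dist_le_of_cut_ne (hr z' hz') hcon, hx⟩
    rw [h1, zero_smul]
  refine ⟨fun x => ∑ z ∈ Z, cut r z x • g z x, ?_, ?_, ?_⟩
  · intro x y
    simp only
    rw [← Finset.sum_sub_distrib]
    have hone : ∀ x, (Z.filter (fun z => cut r z x ≠ 0)).card ≤ 1 := by
      intro x
      rw [Finset.card_le_one]
      intro a ha b hb
      by_contra hne
      obtain ⟨ha1, ha2⟩ := Finset.mem_filter.mp ha
      obtain ⟨hb1, hb2⟩ := Finset.mem_filter.mp hb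
      exact hdisj a ha1 b hb1 hne x
        ⟨dist_le_of_cut_ne (hr a ha1) ha2, dist_le_of_cut_ne (hr b hb1) hb2⟩
    set S := (Z.filter (fun z => cut r z x ≠ 0)) ∪ (Z.filter (fun z => cut r z y ≠ 0)) with hS
    have hSZ : S ⊆ Z := Finset.union_subset (Finset.filter_subset _ _) (Finset.filter_subset _ _)
    have h1 : ∑ z ∈ Z, (cut r z x • g z x - cut r z y • g z y) =
        ∑ z ∈ S, (cut r z x • g z x - cut r z y • g z y) := by
      symm
      refine Finset.sum_subset hSZ (fun z hz hzS => ?_)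
      rw [hS, Finset.mem_union, not_or, Finset.mem_filter, Finset.mem_filter] at hzS
      have hx : cut r z x = 0 := by
        by_contra hcon
        exact hzS.1 ⟨hz, hcon⟩
      have hy : cut r z y = 0 := by
        by_contra hcon
        exact hzS.2 ⟨hz, hcon⟩
      rw [hx, hy, zero_smul, zero_smul, sub_self]
    rw [h1]
    refine le_trans (norm_sum_le_of_le S (fun z hz => term_lip (hr z (hSZ hz)) g hg0 hg x y)) ?_
    rw [Finset.sum_const, nsmul_eq_mul]
    have h2 : (S.card : ℝ) ≤ 2 := by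
      have h3 := Finset.card_union_le (Z.filter (fun z => cut r z x ≠ 0))
        (Z.filter (fun z => cut r z y ≠ 0))
      have h4 := hone x
      have h5 := hone y
      have h6 : S.card ≤ 2 := le_trans h3 (by omega)
      exact_mod_cast h6
    have h7 : 0 ≤ dist x y := dist_nonneg
    nlinarith only [h2, h7]
  · intro z hz x hx
    have hx2 : dist x z ≤ 2 * r z := by
      have := hr z hz
      linarith only [hx, this]
    simp only
    rw [hother z hz x hx2, cut_eq_one (hr z hz) hx, one_smul]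
  · intro x
    by_cases h : ∃ z ∈ Z, dist x z ≤ 2 * r z
    · obtain ⟨z, hz, hx⟩ := h
      right
      exact ⟨z, hz, cut r z x, cut_nonneg r z x, cut_le_one r z x, hx, hother z hz x hx⟩
    · left
      refine Finset.sum_eq_zero (fun z hz => ?_)
      have h1 : cut r z x = 0 := by
        by_contra hcon
        exact h ⟨z, hz, dist_le_of_cut_ne (hr z hz) hcon⟩
      rw [h1, zero_smul]

end Vale.Agent.P249
end
end

section

section

open scoped ENNReal BigOperators

namespace Vale.Agent.P249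

/-- coordinatewise clamp to `[-τ, τ]` -/
noncomputable def clampL {p : ℝ≥0∞} {N : ℕ} (τ : ℝ) (v : PiLp p (fun _ : Fin N => ℝ)) :
    PiLp p (fun _ : Fin N => ℝ) :=
  WithLp.toLp p (fun i => max (-τ) (min τ (v i)))

theorem clampL_apply {p : ℝ≥0∞} {N : ℕ} (τ : ℝ) (v : PiLp p (fun _ : Fin N => ℝ)) (i : Fin N) :
    clampL τ v i = max (-τ) (min τ (v i)) := rfl

theorem abs_clampL_le {p : ℝ≥0∞} {N : ℕ} (τ : ℝ) (hτ : 0 ≤ τ) (v : PiLp p (fun _ : Fin N => ℝ))
    (i : Fin N) : |clampL τ v i| ≤ τ := by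
  rw [clampL_apply, abs_le]
  refine ⟨le_max_left _ _, max_le (by linarith) (min_le_left _ _)⟩

/-- monotonicity of the `ℓ_p` norm in the absolute values of coordinates -/
theorem piLp_norm_le_of_abs_le {p : ℝ≥0∞} [Fact (1 ≤ p)] (hp : p ≠ ∞) {N : ℕ}
    (v w : PiLp p (fun _ : Fin N => ℝ)) (h : ∀ i, |v i| ≤ |w i|) : ‖v‖ ≤ ‖w‖ := by
  have hp0 : 0 < p.toReal := toReal_pos_of_fact hp
  rw [PiLp.norm_eq_sum hp0, PiLp.norm_eq_sum hp0]
  refine Real.rpow_le_rpow (Finset.sum_nonneg fun i _ => Real.rpow_nonneg (norm_nonneg _) _) ?_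
    (by positivity)
  refine Finset.sum_le_sum fun i _ => ?_
  refine Real.rpow_le_rpow (norm_nonneg _) ?_ hp0.le
  simpa only [Real.norm_eq_abs] using h i

theorem clamp_mono {τ a b : ℝ} (h : a ≤ b) : max (-τ) (min τ a) ≤ max (-τ) (min τ b) :=
  max_le_max le_rfl (min_le_min le_rfl h)

theorem soft_mono {τ a b : ℝ} (h : a ≤ b) :
    a - max (-τ) (min τ a) ≤ b - max (-τ) (min τ b) := by
  rcases max_cases (-τ) (min τ a) with h1 | h1 <;> rcases max_cases (-τ) (min τ b) with h2 | h2 <;>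
    rcases min_cases τ a with h3 | h3 <;> rcases min_cases τ b with h4 | h4 <;> linarith

theorem abs_clamp_sub_le (τ a b : ℝ) :
    |max (-τ) (min τ a) - max (-τ) (min τ b)| ≤ |a - b| := by
  rcases le_total a b with h | h
  · have h1 := clamp_mono (τ := τ) h
    have h2 := soft_mono (τ := τ) h
    rw [abs_of_nonpos (by linarith), abs_of_nonpos (by linarith)]
    linarith
  · have h1 := clamp_mono (τ := τ) h
    have h2 := soft_mono (τ := τ) h
    rw [abs_of_nonneg (by linarith), abs_of_nonneg (by linarith)]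
    linarith

theorem abs_soft_sub_le (τ a b : ℝ) :
    |(a - max (-τ) (min τ a)) - (b - max (-τ) (min τ b))| ≤ |a - b| := by
  rcases le_total a b with h | h
  · have h1 := clamp_mono (τ := τ) h
    have h2 := soft_mono (τ := τ) h
    rw [abs_of_nonpos (by linarith only [h2]), abs_of_nonpos (by linarith)]
    linarith
  · have h1 := clamp_mono (τ := τ) h
    have h2 := soft_mono (τ := τ) h
    rw [abs_of_nonneg (by linarith), abs_of_nonneg (by linarith)]
    linarith

theorem norm_clampL_sub_le {p : ℝ≥0∞} [Fact (1 ≤ p)] (hp : p ≠ ∞) {N : ℕ} (τ : ℝ)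
    (v v' : PiLp p (fun _ : Fin N => ℝ)) :
    ‖clampL τ v - clampL τ v'‖ ≤ ‖v - v'‖ := by
  refine piLp_norm_le_of_abs_le hp _ _ fun i => ?_
  simp only [PiLp.sub_apply, clampL_apply]
  exact abs_clamp_sub_le τ _ _

theorem norm_soft_sub_le {p : ℝ≥0∞} [Fact (1 ≤ p)] (hp : p ≠ ∞) {N : ℕ} (τ : ℝ)
    (v v' : PiLp p (fun _ : Fin N => ℝ)) :
    ‖(v - clampL τ v) - (v' - clampL τ v')‖ ≤ ‖v - v'‖ := by
  refine piLp_norm_le_of_abs_le hp _ _ fun i => ?_
  simp only [PiLp.sub_apply, clampL_apply]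
  exact abs_soft_sub_le τ _ _

theorem card_soft_support_le {p : ℝ≥0∞} [Fact (1 ≤ p)] (hp : p ≠ ∞) {N : ℕ} (τ : ℝ) (hτ : 0 < τ)
    (v : PiLp p (fun _ : Fin N => ℝ)) :
    ((Finset.univ.filter (fun i => (v - clampL τ v) i ≠ 0)).card : ℝ) ≤ (‖v‖ / τ) ^ p.toReal := by
  have hp0 : 0 < p.toReal := toReal_pos_of_fact hp
  set P := p.toReal with hP
  have hkey : ∀ i ∈ Finset.univ.filter (fun i => (v - clampL τ v) i ≠ 0), τ ^ P ≤ ‖v i‖ ^ P := by
    intro i hi
    rw [Finset.mem_filter] at hi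
    refine Real.rpow_le_rpow hτ.le ?_ hp0.le
    rw [Real.norm_eq_abs]
    by_contra hlt
    push Not at hlt
    refine hi.2 ?_
    rw [abs_lt] at hlt
    rw [PiLp.sub_apply, clampL_apply, min_eq_right hlt.2.le, max_eq_right hlt.1.le, sub_self]
  have h1 : ((Finset.univ.filter (fun i => (v - clampL τ v) i ≠ 0)).card : ℝ) * τ ^ P
      ≤ ∑ i, ‖v i‖ ^ P := by
    calc ((Finset.univ.filter (fun i => (v - clampL τ v) i ≠ 0)).card : ℝ) * τ ^ P
        = ∑ i ∈ Finset.univ.filter (fun i => (v - clampL τ v) i ≠ 0), τ ^ P := by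
          rw [Finset.sum_const, nsmul_eq_mul]
      _ ≤ ∑ i ∈ Finset.univ.filter (fun i => (v - clampL τ v) i ≠ 0), ‖v i‖ ^ P :=
          Finset.sum_le_sum hkey
      _ ≤ ∑ i, ‖v i‖ ^ P :=
          Finset.sum_le_sum_of_subset_of_nonneg (Finset.subset_univ _)
            fun i _ _ => Real.rpow_nonneg (norm_nonneg _) _
  have h2 : ‖v‖ ^ P = ∑ i, ‖v i‖ ^ P := by
    rw [PiLp.norm_eq_sum hp0, ← Real.rpow_mul
      (Finset.sum_nonneg fun i _ => Real.rpow_nonneg (norm_nonneg _) _), one_div,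
      inv_mul_cancel₀ hp0.ne', Real.rpow_one]
  rw [Real.div_rpow (norm_nonneg _) hτ.le, le_div_iff₀ (Real.rpow_pos_of_pos hτ _), h2]
  exact h1

end Vale.Agent.P249
end
end

section

section

open MeasureTheory
open scoped ENNReal BigOperators

namespace Vale.Agent.P249

variable {p : ℝ≥0∞}

theorem split_maps [Fact (1 ≤ p)] (hp : p ≠ ∞) {V : Type*} [Fintype V] [PseudoMetricSpace V]
    {N : ℕ} (f : V → PiLp p (fun _ : Fin N => ℝ)) (hf : ∀ x y, ‖f x - f y‖ = dist x y)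
    (C₀ : ℝ) (hC₀ : 1 ≤ C₀) (L : ℕ) (hL : 2 * (Fintype.card V : ℝ) ≤ C₀ ^ L)
    (R : ℝ) (hR : 0 < R) (τ : ℝ) (hτ : 0 < τ)
    (w : V × V → ℝ) (hw : ∀ a, 0 ≤ w a) (hws : ∀ a, w a ≠ 0 → dist a.1 a.2 ≤ R * 7 ^ L) :
    ∃ GT GD : V → PiLp p (fun _ : Fin N => ℝ),
      (∀ x y, ‖GT x - GT y‖ ≤ 10 * dist x y) ∧ (∀ x y, ‖GD x - GD y‖ ≤ 10 * dist x y) ∧
      (∀ x, ‖GT x‖ ≤ 4 * R * 49 ^ L) ∧ (∀ x, ‖GD x‖ ≤ 4 * R * 49 ^ L) ∧
      (∀ x i, |GT x i| ≤ τ) ∧
      (∀ x, ((Finset.univ.filter (fun i => GD x i ≠ 0)).card : ℝ)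
        ≤ (4 * R * 49 ^ L / τ) ^ p.toReal) ∧
      ∃ S : Finset (V × V), (∀ a ∈ S, dist a.1 a.2 ≤ ‖GT a.1 - GT a.2‖ + ‖GD a.1 - GD a.2‖) ∧
        ∑ a, w a ≤ 2 * C₀ * ∑ a ∈ S, w a := by
  classical
  have hP0 := toReal_pos_of_fact (p := p) hp
  have h7 : (0:ℝ) < 7 ^ L := by positivity
  have h49 : (7:ℝ) ^ L * 7 ^ L = 49 ^ L := by rw [← mul_pow]; norm_num
  obtain ⟨Z, r, hr, hdisj, S₀, hS₀, hsum⟩ := exists_balls (fun x => ∑ y, w (x, y))
    (fun x => Finset.sum_nonneg fun y _ => hw _) C₀ hC₀ L hL (2 * R * 7 ^ L) (by positivity)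
  have hr0 : ∀ z ∈ Z, 0 < r z := fun z hz => lt_of_lt_of_le (by positivity) (hr z hz).1
  have hr2 : ∀ z ∈ Z, 2 * r z ≤ 4 * R * 49 ^ L := by
    intro z hz
    have := (hr z hz).2
    have h1 : 2 * R * 7 ^ L * 7 ^ L = 2 * R * 49 ^ L := by rw [mul_assoc, h49]
    linarith only [this, h1]
  -- clamp family
  have hc0 : clampL τ (0 : PiLp p (fun _ : Fin N => ℝ)) = 0 := by
    ext i
    rw [clampL_apply]
    simp only [PiLp.zero_apply, hτ.le, inf_of_le_right, Left.neg_nonpos_iff, sup_of_le_right]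
  have hgT0 : ∀ z : V, clampL τ (f z - f z) = 0 := by intro z; rw [sub_self, hc0]
  have hgT : ∀ z x y : V, ‖clampL τ (f x - f z) - clampL τ (f y - f z)‖ ≤ dist x y := by
    intro z x y
    refine (norm_clampL_sub_le hp τ _ _).trans ?_
    rw [sub_sub_sub_cancel_right, hf]
  have hgD0 : ∀ z : V, (f z - f z) - clampL τ (f z - f z) = 0 := by
    intro z; rw [hgT0, sub_self, sub_self]
  have hgD : ∀ z x y : V, ‖((f x - f z) - clampL τ (f x - f z)) -
      ((f y - f z) - clampL τ (f y - f z))‖ ≤ dist x y := by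
    intro z x y
    refine (norm_soft_sub_le hp τ _ _).trans ?_
    rw [sub_sub_sub_cancel_right, hf]
  obtain ⟨GT, hGT1, hGT2, hGT3⟩ := exists_local Z r hr0 hdisj
    (fun z x => clampL τ (f x - f z)) hgT0 hgT
  obtain ⟨GD, hGD1, hGD2, hGD3⟩ := exists_local Z r hr0 hdisj
    (fun z x => (f x - f z) - clampL τ (f x - f z)) hgD0 hgD
  have hRpos : 0 ≤ 4 * R * 49 ^ L := by positivity
  -- norm bounds
  have hnorm : ∀ (g : V → V → PiLp p (fun _ : Fin N => ℝ)) (G : V → PiLp p (fun _ : Fin N => ℝ)),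
      (∀ z, g z z = 0) → (∀ z x y, ‖g z x - g z y‖ ≤ dist x y) →
      (∀ x, G x = 0 ∨ ∃ z ∈ Z, ∃ t : ℝ, 0 ≤ t ∧ t ≤ 1 ∧ dist x z ≤ 2 * r z ∧ G x = t • g z x) →
      ∀ x, ‖G x‖ ≤ 4 * R * 49 ^ L := by
    intro g G hg0 hg hG x
    rcases hG x with h | ⟨z, hz, t, ht0, ht1, hxz, h⟩
    · rw [h, norm_zero]; exact hRpos
    · rw [h, norm_smul, Real.norm_eq_abs, abs_of_nonneg ht0]
      have h1 : ‖g z x‖ ≤ dist x z := by
        have := hg z x z
        rwa [hg0, sub_zero] at this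
      calc t * ‖g z x‖ ≤ 1 * ‖g z x‖ := by gcongr
        _ ≤ dist x z := by rw [one_mul]; exact h1
        _ ≤ 2 * r z := hxz
        _ ≤ _ := hr2 z hz
  refine ⟨GT, GD, hGT1, hGD1, hnorm _ GT hgT0 hgT hGT3, hnorm _ GD hgD0 hgD hGD3, ?_, ?_, ?_⟩
  · intro x i
    rcases hGT3 x with h | ⟨z, hz, t, ht0, ht1, hxz, h⟩
    · rw [h]; simp only [PiLp.zero_apply, abs_zero, hτ.le]
    · rw [h, PiLp.smul_apply, smul_eq_mul, abs_mul, abs_of_nonneg ht0]
      have := abs_clampL_le τ hτ.le (f x - f z) i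
      calc t * |clampL τ (f x - f z) i| ≤ 1 * τ := by (clear * - ht1 this; gcongr)
        _ = τ := one_mul _
  · intro x
    rcases hGD3 x with h | ⟨z, hz, t, ht0, ht1, hxz, h⟩
    · rw [h]; simp only [PiLp.zero_apply, ne_eq, not_true_eq_false, Finset.filter_false,
                Finset.card_empty, CharP.cast_eq_zero]; positivity
    · rw [h]
      have h1 := card_soft_support_le hp τ hτ (f x - f z)
      have h2 : (Finset.univ.filter (fun i => (t • ((f x - f z) - clampL τ (f x - f z))) i ≠ 0))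
          ⊆ Finset.univ.filter (fun i => ((f x - f z) - clampL τ (f x - f z)) i ≠ 0) := by
        intro i hi
        simp only [Finset.mem_filter, Finset.mem_univ, true_and, PiLp.smul_apply, smul_eq_mul,
          ne_eq, mul_eq_zero, not_or] at hi ⊢
        exact hi.2
      calc ((Finset.univ.filter (fun i => (t • ((f x - f z) - clampL τ (f x - f z))) i ≠ 0)).card : ℝ)
          ≤ ((Finset.univ.filter (fun i => ((f x - f z) - clampL τ (f x - f z)) i ≠ 0)).card : ℝ) := by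
            exact_mod_cast Finset.card_le_card h2
        _ ≤ (‖f x - f z‖ / τ) ^ p.toReal := h1
        _ ≤ (4 * R * 49 ^ L / τ) ^ p.toReal := by
            apply Real.rpow_le_rpow (by positivity) _ hP0.le
            rw [hf]
            gcongr
            exact hxz.trans (hr2 z hz)
  · refine ⟨Finset.univ.filter (fun a : V × V => a.1 ∈ S₀ ∧ dist a.1 a.2 ≤ R * 7 ^ L), ?_, ?_⟩
    · rintro ⟨x, y⟩ ha
      simp only [Finset.mem_filter, Finset.mem_univ, true_and] at ha
      obtain ⟨hxS, hxy⟩ := ha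
      obtain ⟨z, hz, hxz⟩ := hS₀ x hxS
      have hrz := (hr z hz).1
      have hyz : dist y z ≤ 3 / 2 * r z := by
        have := dist_triangle y x z
        rw [dist_comm y x] at this
        linarith only [hxy, hxz, hrz, this]
      have hxz' : dist x z ≤ 3 / 2 * r z := by linarith only [hr0 z hz, hr0, hz, hxz]
      rw [hGT2 z hz x hxz', hGT2 z hz y hyz, hGD2 z hz x hxz', hGD2 z hz y hyz]
      rw [← hf x y]
      have : f x - f y = (clampL τ (f x - f z) - clampL τ (f y - f z)) +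
          ((f x - f z - clampL τ (f x - f z)) - (f y - f z - clampL τ (f y - f z))) := by
        abel
      calc ‖f x - f y‖ = ‖(clampL τ (f x - f z) - clampL τ (f y - f z)) +
          ((f x - f z - clampL τ (f x - f z)) - (f y - f z - clampL τ (f y - f z)))‖ := by
            rw [← this]
        _ ≤ _ := norm_add_le _ _
    · rw [Fintype.sum_prod_type]
      refine hsum.trans ?_
      gcongr
      rw [Finset.sum_filter, Fintype.sum_prod_type]
      have : ∀ x, (∑ y, if (x, y).1 ∈ S₀ ∧ dist (x, y).1 (x, y).2 ≤ R * 7 ^ L then w (x, y) else 0)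
          = if x ∈ S₀ then ∑ y, w (x, y) else 0 := by
        intro x
        by_cases hx : x ∈ S₀
        · simp only [hx, true_and, if_true]
          apply Finset.sum_congr rfl
          intro y _
          by_cases hy : dist x y ≤ R * 7 ^ L
          · simp [hy]
          · simp only [hy, if_false]
            by_contra h
            exact hy (hws (x, y) (fun h0 => h h0.symm))
        · simp only [hx, false_and, ↓reduceIte, Finset.sum_const_zero]
      simp_rw [this]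
      rw [← Finset.sum_filter, Finset.filter_univ_mem]

end Vale.Agent.P249
end
end

section

section

open MeasureTheory
open scoped ENNReal BigOperators

namespace Vale.Agent.P249

variable {p : ℝ≥0∞}

theorem hash_part [Fact (1 ≤ p)] (hp : p ≠ ∞) {V : Type*} [Fintype V] [PseudoMetricSpace V]
    {N b : ℕ} (hb : 0 < b) (G : V → PiLp p (fun _ : Fin N => ℝ))
    (hG : ∀ x y, ‖G x - G y‖ ≤ 10 * dist x y) (K Q : ℝ)
    (hK : ∀ x, ((Finset.univ.filter (fun i => G x i ≠ 0)).card : ℝ) ≤ K)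
    (hQ : 4 * 40 ^ p.toReal ≤ Q) (hbK : 2 * K * Q ≤ b) (ℓ : ℕ)
    (hℓ : 2 * Real.exp 1 * ((Fintype.card V : ℝ) ^ 2 + 1) * b ≤ Q ^ ℓ)
    (w : V × V → ℝ) (hw : ∀ a, 0 ≤ w a) :
    ∃ H : V → PiLp p (fun _ : Fin b => ℝ),
      (∀ x y, ‖H x - H y‖ ≤ ℓ * ‖G x - G y‖) ∧ (∀ x, ‖H x‖ ≤ ℓ * ‖G x‖) ∧
      ∑ a with dist a.1 a.2 ≤ 2 * ‖G a.1 - G a.2‖, w a ≤
        2 * ∑ a with dist a.1 a.2 ≤ 4 * ‖H a.1 - H a.2‖, w a := by
  classical
  have hP0 := toReal_pos_of_fact (p := p) hp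
  have hP1 := one_le_toReal_of_fact (p := p) hp
  set P := p.toReal with hPdef
  have h40 : (1:ℝ) ≤ 40 ^ P := Real.one_le_rpow (by norm_num) hP0.le
  have hQ1 : 1 < Q := by linarith only [hQ, h40]
  -- index data
  set S : V × V → Finset (Fin N) := fun a =>
    Finset.univ.filter (fun i => G a.1 i ≠ 0) ∪ Finset.univ.filter (fun i => G a.2 i ≠ 0) with hS
  have hScard : ∀ a, ((S a).card : ℝ) ≤ 2 * K := by
    intro a
    have h1 : ((S a).card : ℝ) ≤ ((Finset.univ.filter (fun i => G a.1 i ≠ 0)).card : ℝ) +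
      ((Finset.univ.filter (fun i => G a.2 i ≠ 0)).card : ℝ) := by
      rw [← Nat.cast_add]
      exact Nat.cast_le.2 (Finset.card_union_le _ _)
    linarith only [hK a.1, hK a.2, hK, h1]
  set A : Finset (V × V) := Finset.univ.filter (fun a : V × V => 0 < dist a.1 a.2 ∧
    dist a.1 a.2 ≤ 2 * ‖G a.1 - G a.2‖) with hA
  set q : V × V → Fin N → ℝ := fun a i => if a ∈ A then
    w a * (|(G a.1 - G a.2) i| ^ P / dist a.1 a.2 ^ P) else 0 with hq
  have hq0 : ∀ a i, 0 ≤ q a i := by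
    intro a i
    simp only [hq]
    split_ifs
    · exact mul_nonneg (hw a) (div_nonneg (Real.rpow_nonneg (abs_nonneg _) _)
        (Real.rpow_nonneg dist_nonneg _))
    · exact le_rfl
  have hcardP : (Fintype.card (V × V) : ℝ) = (Fintype.card V : ℝ) ^ 2 := by
    rw [Fintype.card_prod]; push_cast; ring
  obtain ⟨π, hπ1, hπ2⟩ := exists_hash hb S (2 * K) Q hScard hQ1 hbK q hq0 ℓ
    (by rw [hcardP]; exact hℓ)
  have hsupp : ∀ x y : V, ∀ i, (G x - G y) i ≠ 0 → i ∈ S (x, y) := by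
    intro x y i hi
    simp only [hS, Finset.mem_union, Finset.mem_filter, Finset.mem_univ, true_and]
    by_contra h
    push Not at h
    apply hi
    simp [h.1, h.2]
  have hsupp1 : ∀ x : V, ∀ i, (G x) i ≠ 0 → i ∈ S (x, x) := by
    intro x i hi
    simp only [hS, Finset.mem_union, Finset.mem_filter, Finset.mem_univ, true_and]
    exact Or.inl hi
  refine ⟨fun x => hashL π (G x), ?_, ?_, ?_⟩
  · intro x y
    rw [← hashL_sub]
    exact norm_hashL_le hp π (S (x, y)) ℓ (hπ1 (x, y)) _ (hsupp x y)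
  · intro x
    exact norm_hashL_le hp π (S (x, x)) ℓ (hπ1 (x, x)) _ (hsupp1 x)
  -- the weight estimate
  set bad : V × V → ℝ := fun a =>
    ∑ i ∈ (S a).filter (fun i => ∃ j ∈ S a, j ≠ i ∧ π j = π i),
      |(G a.1 - G a.2) i| ^ P / dist a.1 a.2 ^ P with hbad
  have hbad0 : ∀ a, 0 ≤ bad a := fun a => Finset.sum_nonneg fun i _ =>
    div_nonneg (Real.rpow_nonneg (abs_nonneg _) _) (Real.rpow_nonneg dist_nonneg _)
  have hsum1 : ∑ a ∈ A, w a * bad a ≤ (2 / Q) * ∑ a ∈ A, w a * 10 ^ P := by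
    have e1 : ∑ a, ∑ i ∈ (S a).filter (fun i => ∃ j ∈ S a, j ≠ i ∧ π j = π i), q a i =
        ∑ a ∈ A, w a * bad a := by
      rw [← Finset.sum_filter_add_sum_filter_not Finset.univ (· ∈ A)]
      rw [Finset.filter_univ_mem]
      have z : ∑ x ∈ Finset.univ.filter (fun x => x ∉ A),
          ∑ i ∈ (S x).filter (fun i => ∃ j ∈ S x, j ≠ i ∧ π j = π i), q x i = 0 := by
        apply Finset.sum_eq_zero
        intro a ha
        apply Finset.sum_eq_zero
        intro i _
        simp only [Finset.mem_filter, Finset.mem_univ, true_and] at ha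
        simp [hq, ha]
      rw [z, add_zero]
      apply Finset.sum_congr rfl
      intro a ha
      simp only [hbad]
      rw [Finset.mul_sum]
      apply Finset.sum_congr rfl
      intro i _
      simp only [hq, PiLp.sub_apply, ha, ↓reduceIte]
    have e2 : ∑ a, ∑ i ∈ S a, q a i ≤ ∑ a ∈ A, w a * 10 ^ P := by
      rw [← Finset.sum_filter_add_sum_filter_not Finset.univ (· ∈ A)]
      rw [Finset.filter_univ_mem]
      have z : ∑ x ∈ Finset.univ.filter (fun x => x ∉ A), ∑ i ∈ S x, q x i = 0 := by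
        apply Finset.sum_eq_zero
        intro a ha
        apply Finset.sum_eq_zero
        intro i _
        simp only [Finset.mem_filter, Finset.mem_univ, true_and] at ha
        simp [hq, ha]
      rw [z, add_zero]
      apply Finset.sum_le_sum
      intro a ha
      have hda : 0 < dist a.1 a.2 := by
        simp only [hA, Finset.mem_filter] at ha
        exact ha.2.1
      have hdP : 0 < dist a.1 a.2 ^ P := Real.rpow_pos_of_pos hda _
      calc ∑ i ∈ S a, q a i ≤ ∑ i, q a i :=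
            Finset.sum_le_sum_of_subset_of_nonneg (Finset.subset_univ _) fun i _ _ => hq0 a i
        _ = w a * ((∑ i, |(G a.1 - G a.2) i| ^ P) / dist a.1 a.2 ^ P) := by
            rw [Finset.sum_div, Finset.mul_sum]
            apply Finset.sum_congr rfl
            intro i _
            simp only [hq, PiLp.sub_apply, ha, ↓reduceIte]
        _ ≤ w a * 10 ^ P := by
            apply mul_le_mul_of_nonneg_left _ (hw a)
            rw [← norm_rpow_eq_sum hp, div_le_iff₀ hdP, ← Real.mul_rpow (by norm_num) hda.le]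
            exact Real.rpow_le_rpow (norm_nonneg _) (hG _ _) hP0.le
    calc ∑ a ∈ A, w a * bad a = _ := e1.symm
      _ ≤ _ := hπ2
      _ ≤ _ := by (clear * - hQ1 e2; gcongr)
  have h4P : (0:ℝ) < 4 ^ P := by positivity
  have hB : ∑ a ∈ A.filter (fun a => (4 ^ P)⁻¹ < bad a), w a ≤ (1 / 2) * ∑ a ∈ A, w a := by
    have s1 : (4 ^ P)⁻¹ * ∑ a ∈ A.filter (fun a => (4 ^ P)⁻¹ < bad a), w a ≤
        ∑ a ∈ A, w a * bad a := by
      rw [Finset.mul_sum]
      calc ∑ a ∈ A.filter (fun a => (4 ^ P)⁻¹ < bad a), (4 ^ P)⁻¹ * w a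
          ≤ ∑ a ∈ A.filter (fun a => (4 ^ P)⁻¹ < bad a), w a * bad a := by
            apply Finset.sum_le_sum
            intro a ha
            simp only [Finset.mem_filter] at ha
            rw [mul_comm]
            exact mul_le_mul_of_nonneg_left ha.2.le (hw a)
        _ ≤ _ := Finset.sum_le_sum_of_subset_of_nonneg (Finset.filter_subset _ _)
            fun a _ _ => mul_nonneg (hw a) (hbad0 a)
    have s2 := s1.trans hsum1
    rw [← Finset.sum_mul] at s2
    have hW0 : 0 ≤ ∑ a ∈ A, w a := Finset.sum_nonneg fun a _ => hw a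
    have s3 : ∑ a ∈ A.filter (fun a => (4 ^ P)⁻¹ < bad a), w a ≤
        4 ^ P * (2 / Q * ((∑ a ∈ A, w a) * 10 ^ P)) := by
      rwa [inv_mul_le_iff₀ h4P] at s2
    refine s3.trans ?_
    have h410 : (4:ℝ) ^ P * 10 ^ P = 40 ^ P := by
      rw [← Real.mul_rpow (by norm_num) (by norm_num)]; norm_num
    have : 4 ^ P * (2 / Q * ((∑ a ∈ A, w a) * 10 ^ P)) = (2 * 40 ^ P / Q) * ∑ a ∈ A, w a := by
      rw [← h410]; ring
    rw [this]
    apply mul_le_mul_of_nonneg_right _ hW0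
    rw [div_le_iff₀ (by linarith only [hQ, h40])]
    linarith only [hQ]
  -- good pairs
  have hgood : ∀ a ∈ A, bad a ≤ (4 ^ P)⁻¹ → dist a.1 a.2 ≤ 4 * ‖hashL π (G a.1) - hashL π (G a.2)‖ := by
    intro a ha hba
    simp only [hA, Finset.mem_filter, Finset.mem_univ, true_and] at ha
    obtain ⟨hda, hdG⟩ := ha
    have hdP : 0 < dist a.1 a.2 ^ P := Real.rpow_pos_of_pos hda _
    have l1 := le_norm_hashL_rpow hp π (S a) (G a.1 - G a.2) (hsupp a.1 a.2)
    rw [hashL_sub] at l1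
    have l2 : ∑ i ∈ (S a).filter (fun i => ∃ j ∈ S a, j ≠ i ∧ π j = π i), |(G a.1 - G a.2) i| ^ P
        = bad a * dist a.1 a.2 ^ P := by
      simp only [hbad]
      rw [← Finset.sum_div, div_mul_cancel₀ _ hdP.ne']
    rw [← hPdef, l2] at l1
    have l3 : (dist a.1 a.2 / 2) ^ P ≤ ‖G a.1 - G a.2‖ ^ P :=
      Real.rpow_le_rpow (by positivity) (by linarith only [hdG]) hP0.le
    rw [Real.div_rpow hda.le (by norm_num)] at l3
    have l4 : bad a * dist a.1 a.2 ^ P ≤ (4 ^ P)⁻¹ * dist a.1 a.2 ^ P :=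
      mul_le_mul_of_nonneg_right hba hdP.le
    have h24 : (2:ℝ) * (4 ^ P)⁻¹ ≤ (2 ^ P)⁻¹ := by
      have h2 : (2:ℝ) ≤ 2 ^ P := by
        simpa only [Real.rpow_one] using Real.rpow_le_rpow_of_exponent_le (by norm_num : (1 : ℝ) ≤ 2) hP1
      have h4 : (4:ℝ) ^ P = 2 ^ P * 2 ^ P := by
        rw [← Real.mul_rpow (by norm_num) (by norm_num)]; norm_num
      have h2' : (0:ℝ) < 2 ^ P := by positivity
      rw [h4, mul_inv, ← mul_assoc]
      calc 2 * (2 ^ P : ℝ)⁻¹ * (2 ^ P)⁻¹ ≤ 1 * (2 ^ P)⁻¹ := by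
            apply mul_le_mul_of_nonneg_right _ (by positivity)
            rw [← div_eq_mul_inv, div_le_one h2']; exact h2
        _ = _ := one_mul _
    have l5 : (dist a.1 a.2 / 4) ^ P ≤ ‖hashL π (G a.1) - hashL π (G a.2)‖ ^ P := by
      rw [Real.div_rpow hda.le (by norm_num)]
      have : dist a.1 a.2 ^ P / 4 ^ P = (4 ^ P)⁻¹ * dist a.1 a.2 ^ P := by ring
      rw [this]
      have h6 : dist a.1 a.2 ^ P / 2 ^ P = (2 ^ P)⁻¹ * dist a.1 a.2 ^ P := by ring
      rw [h6] at l3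
      nlinarith only [hdP, l1, l3, l4, h24]
    have := (Real.rpow_le_rpow_iff (by positivity) (norm_nonneg _) hP0).1 l5
    linarith
  -- conclusion
  set T : Finset (V × V) := Finset.univ.filter (fun a : V × V =>
    dist a.1 a.2 ≤ 4 * ‖hashL π (G a.1) - hashL π (G a.2)‖) with hT
  have hsub : Finset.univ.filter (fun a : V × V => dist a.1 a.2 ≤ 2 * ‖G a.1 - G a.2‖) ⊆
      A ∪ Finset.univ.filter (fun a : V × V => dist a.1 a.2 = 0) := by
    intro a ha
    simp only [Finset.mem_filter, Finset.mem_univ, true_and, Finset.mem_union, hA] at ha ⊢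
    rcases (dist_nonneg (x := a.1) (y := a.2)).eq_or_lt with h | h
    · exact Or.inr h.symm
    · exact Or.inl ⟨h, ha⟩
  have hAsplit : ∑ a ∈ A, w a ≤ 2 * ∑ a ∈ A.filter (fun a => ¬ ((4 ^ P)⁻¹ < bad a)), w a := by
    have := Finset.sum_filter_add_sum_filter_not A (fun a => (4 ^ P)⁻¹ < bad a) w
    linarith only [hB, this]
  have hAdisj : Disjoint (A.filter (fun a => ¬ ((4 ^ P)⁻¹ < bad a)))
      (Finset.univ.filter (fun a : V × V => dist a.1 a.2 = 0)) := by
    rw [Finset.disjoint_left]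
    intro a ha hb
    simp only [Finset.mem_filter, Finset.mem_univ, true_and, hA] at ha hb
    linarith only [ha.1.1, ha, hb]
  calc ∑ a with dist a.1 a.2 ≤ 2 * ‖G a.1 - G a.2‖, w a
      ≤ ∑ a ∈ A ∪ Finset.univ.filter (fun a : V × V => dist a.1 a.2 = 0), w a :=
        Finset.sum_le_sum_of_subset_of_nonneg hsub fun a _ _ => hw a
    _ ≤ ∑ a ∈ A, w a + ∑ a ∈ Finset.univ.filter (fun a : V × V => dist a.1 a.2 = 0), w a := by
        rw [← Finset.sum_union_inter]
        have : 0 ≤ ∑ a ∈ A ∩ Finset.univ.filter (fun a : V × V => dist a.1 a.2 = 0), w a :=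
          Finset.sum_nonneg fun a _ => hw a
        linarith only [this]
    _ ≤ 2 * ∑ a ∈ A.filter (fun a => ¬ ((4 ^ P)⁻¹ < bad a)), w a +
        2 * ∑ a ∈ Finset.univ.filter (fun a : V × V => dist a.1 a.2 = 0), w a := by
        have : 0 ≤ ∑ a ∈ Finset.univ.filter (fun a : V × V => dist a.1 a.2 = 0), w a :=
          Finset.sum_nonneg fun a _ => hw a
        linarith only [hAsplit, this]
    _ = 2 * ∑ a ∈ A.filter (fun a => ¬ ((4 ^ P)⁻¹ < bad a)) ∪
        Finset.univ.filter (fun a : V × V => dist a.1 a.2 = 0), w a := by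
        rw [Finset.sum_union hAdisj]; ring
    _ ≤ 2 * ∑ a ∈ T, w a := by
        gcongr
        · intro a _ _
          exact hw a
        · intro a ha
          simp only [Finset.mem_filter, Finset.mem_univ, true_and, Finset.mem_union, hT] at ha ⊢
          rcases ha with ⟨h1, h2⟩ | h
          · exact hgood a h1 (not_lt.1 h2)
          · rw [h]; positivity

end Vale.Agent.P249
end
end

section

section

namespace Vale.Agent.P249

open Finset in
theorem exists_collapse {V : Type*} [Fintype V] [PseudoMetricSpace V] (η : ℝ) (hη : 0 ≤ η) :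
    ∃ ρ : V → V → ℝ, (∀ x, ρ x x = 0) ∧ (∀ x y, ρ x y = ρ y x) ∧
      (∀ x y z, ρ x z ≤ ρ x y + ρ y z) ∧ (∀ x y, 0 ≤ ρ x y) ∧
      (∀ x y, ρ x y ≤ max 0 (dist x y - η)) ∧
      (∀ x y, dist x y ≤ ρ x y + Fintype.card V * η) := by
  classical
  let u : V → V → ℝ := fun v z => dist v z - η * (univ.filter (fun y => dist v y < dist v z)).card
  have hne : ∀ v z : V, (univ.filter (fun y => dist v y ≤ dist v z)).Nonempty :=
    fun v z => ⟨z, by simp only [mem_filter, mem_univ, Std.le_refl, and_self]⟩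
  let ub : V → V → ℝ := fun v z => (univ.filter (fun y => dist v y ≤ dist v z)).sup' (hne v z) (u v)
  have hub : ∀ v z y, dist v y ≤ dist v z → u v y ≤ ub v z := by
    intro v z y h
    exact Finset.le_sup' (u v) (by simp only [mem_filter, mem_univ, h, and_self])
  have hubex : ∀ v z, ∃ y, dist v y ≤ dist v z ∧ ub v z = u v y := by
    intro v z
    obtain ⟨y, hy, h⟩ := Finset.exists_mem_eq_sup' (hne v z) (u v)
    exact ⟨y, by simpa only [mem_filter, mem_univ, true_and] using hy, h⟩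
  have mono : ∀ v a b, dist v a ≤ dist v b → ub v a ≤ ub v b := by
    intro v a b h
    obtain ⟨y, hy, he⟩ := hubex v a
    rw [he]
    exact hub v b y (hy.trans h)
  have key : ∀ v a b, dist v a ≤ dist v b → ub v b ≤ ub v a + max 0 (dist a b - η) := by
    intro v a b h
    obtain ⟨y, hy, he⟩ := hubex v b
    rw [he]
    rcases le_or_gt (dist v y) (dist v a) with h1 | h1
    · have := hub v a y h1
      linarith only [le_max_left 0 (dist a b - η), this]
    · have h2 := hub v a a le_rfl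
      have h3 : u v y ≤ u v a + (dist a b - η) := by
        have hsub : insert a (univ.filter (fun z => dist v z < dist v a))
            ⊆ univ.filter (fun z => dist v z < dist v y) := by
          intro z hz
          rw [Finset.mem_insert] at hz
          rcases hz with rfl | hz
          · simp [h1]
          · simp only [mem_filter, mem_univ, true_and] at hz ⊢
            exact hz.trans h1
        have hcard := Finset.card_le_card hsub
        rw [Finset.card_insert_of_notMem (by simp)] at hcard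
        have hcard' : ((univ.filter (fun z => dist v z < dist v a)).card : ℝ) + 1
            ≤ (univ.filter (fun z => dist v z < dist v y)).card := by exact_mod_cast hcard
        have h4 := mul_le_mul_of_nonneg_left hcard' hη
        have h5 : dist v y ≤ dist v a + dist a b := by
          have := dist_triangle v a b
          linarith only [hy, this]
        simp only [u]
        nlinarith only [h4, h5]
      linarith [le_max_right 0 (dist a b - η)]
  have lip : ∀ v a b, |ub v a - ub v b| ≤ max 0 (dist a b - η) := by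
    intro v a b
    rcases le_total (dist v a) (dist v b) with h | h
    · have h1 := mono v a b h
      have h2 := key v a b h
      rw [abs_sub_comm, abs_of_nonneg (by linarith)]
      linarith
    · have h1 := mono v b a h
      have h2 := key v b a h
      rw [abs_of_nonneg (by linarith), dist_comm a b]
      linarith
  have bdd : ∀ x y : V, BddAbove (Set.range (fun v => |ub v x - ub v y|)) :=
    fun x y => (Set.finite_range _).bddAbove
  refine ⟨fun x y => ⨆ v, |ub v x - ub v y|, ?_, ?_, ?_, ?_, ?_, ?_⟩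
  · intro x
    simp only [sub_self, abs_zero, Real.iSup_const_zero]
  · intro x y
    simp only [abs_sub_comm]
  · intro x y z
    have : Nonempty V := ⟨x⟩
    refine ciSup_le fun v => ?_
    have h1 := le_ciSup (bdd x y) v
    have h2 := le_ciSup (bdd y z) v
    have h3 := abs_sub_le (ub v x) (ub v y) (ub v z)
    linarith only [h1, h2, h3]
  · intro x y
    exact Real.iSup_nonneg fun v => abs_nonneg _
  · intro x y
    have : Nonempty V := ⟨x⟩
    exact ciSup_le fun v => lip v x y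
  · intro x y
    have h1 := le_ciSup (bdd x y) x
    have h2 : ub x x ≤ 0 := by
      obtain ⟨z, hz, he⟩ := hubex x x
      rw [he]
      rw [dist_self] at hz
      simp only [u]
      have : 0 ≤ η * ((univ.filter (fun y => dist x y < dist x z)).card : ℝ) := by (clear * - hη; positivity)
      linarith
    have h3 : dist x y - Fintype.card V * η ≤ ub x y := by
      refine le_trans ?_ (hub x y y le_rfl)
      simp only [u]
      have h4 : ((univ.filter (fun z => dist x z < dist x y)).card : ℝ) ≤ Fintype.card V := by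
        exact_mod_cast Finset.card_le_univ _
      nlinarith only [hη, h4]
    have h5 := neg_abs_le (ub x x - ub x y)
    linarith

end Vale.Agent.P249
end
end

section

section

open MeasureTheory
open scoped ENNReal BigOperators

namespace Vale.Agent.P249

set_option linter.unusedSectionVars false
set_option linter.unusedVariables false

namespace Gibbs

variable {V : Type*} [Fintype V] (ρ : V → V → ℝ)

/-- unnormalised weight -/
noncomputable def wt (β : ℝ) (x z : V) : ℝ := Real.exp (-(β * ρ x z))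

/-- partition function -/
noncomputable def Zp (β : ℝ) (x : V) : ℝ := ∑ z, wt ρ β x z

/-- Gibbs kernel -/
noncomputable def Gk (β : ℝ) (x z : V) : ℝ := wt ρ β x z / Zp ρ β x

/-- mean displacement -/
noncomputable def En (β : ℝ) (x : V) : ℝ := ∑ z, Gk ρ β x z * ρ x z

lemma wt_pos (β : ℝ) (x z : V) : 0 < wt ρ β x z := Real.exp_pos _

lemma Zp_pos (β : ℝ) (x : V) : 0 < Zp ρ β x :=
  Finset.sum_pos (fun z _ => wt_pos ρ β x z) ⟨x, Finset.mem_univ x⟩

lemma Gk_nonneg (β : ℝ) (x z : V) : 0 ≤ Gk ρ β x z :=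
  div_nonneg (wt_pos ρ β x z).le (Zp_pos ρ β x).le

lemma Gk_sum (β : ℝ) (x : V) : ∑ z, Gk ρ β x z = 1 := by
  have : ∑ z, Gk ρ β x z = (∑ z, wt ρ β x z) / Zp ρ β x := by
    rw [Finset.sum_div]; rfl
  rw [this]
  exact div_self (Zp_pos ρ β x).ne'

lemma one_le_Zp (h0 : ∀ x, ρ x x = 0) (β : ℝ) (x : V) : 1 ≤ Zp ρ β x := by
  have h1 : wt ρ β x x = 1 := by rw [wt, h0, mul_zero, neg_zero, Real.exp_zero]
  rw [← h1]
  exact Finset.single_le_sum (f := fun z => wt ρ β x z) (fun z _ => (wt_pos ρ β x z).le)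
    (Finset.mem_univ x)

lemma Zp_le (hnn : ∀ x y, 0 ≤ ρ x y) (β : ℝ) (hβ : 0 ≤ β) (x : V) :
    Zp ρ β x ≤ Fintype.card V := by
  have h1 : ∀ z ∈ Finset.univ, wt ρ β x z ≤ 1 := by
    intro z _
    rw [wt, Real.exp_le_one_iff]
    have := mul_nonneg hβ (hnn x z)
    linarith
  refine (Finset.sum_le_sum h1).trans (le_of_eq ?_)
  simp only [Finset.sum_const, Finset.card_univ, nsmul_eq_mul, mul_one]

lemma wt_le (htri : ∀ x y z, ρ x z ≤ ρ x y + ρ y z) (β : ℝ) (hβ : 0 ≤ β) (x y z : V) :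
    wt ρ β y z ≤ Real.exp (β * ρ x y) * wt ρ β x z := by
  rw [wt, wt, ← Real.exp_add, Real.exp_le_exp]
  have := mul_le_mul_of_nonneg_left (htri x y z) hβ
  rw [mul_add] at this
  linarith only [this]

lemma Zp_le' (htri : ∀ x y z, ρ x z ≤ ρ x y + ρ y z) (β : ℝ) (hβ : 0 ≤ β) (x y : V) :
    Zp ρ β y ≤ Real.exp (β * ρ x y) * Zp ρ β x := by
  rw [Zp, Zp, Finset.mul_sum]
  exact Finset.sum_le_sum fun z _ => wt_le ρ htri β hβ x y z

lemma Gk_le (hsym : ∀ x y, ρ x y = ρ y x) (htri : ∀ x y z, ρ x z ≤ ρ x y + ρ y z)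
    (β : ℝ) (hβ : 0 ≤ β) (x y z : V) :
    Gk ρ β y z ≤ Real.exp (2 * β * ρ x y) * Gk ρ β x z := by
  have h1 := wt_le ρ htri β hβ x y z
  have h2 := Zp_le' ρ htri β hβ y x
  rw [hsym y x] at h2
  have hx := Zp_pos ρ β x
  have hy := Zp_pos ρ β y
  rw [Gk, Gk, ← mul_div_assoc, div_le_div_iff₀ hy hx]
  have e : Real.exp (2 * β * ρ x y) = Real.exp (β * ρ x y) * Real.exp (β * ρ x y) := by
    rw [← Real.exp_add]; congr 1; ring
  rw [e]
  calc wt ρ β y z * Zp ρ β x
      ≤ (Real.exp (β * ρ x y) * wt ρ β x z) * (Real.exp (β * ρ x y) * Zp ρ β y) :=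
        mul_le_mul h1 h2 hx.le (mul_nonneg (Real.exp_pos _).le (wt_pos ρ β x z).le)
    _ = _ := by ring

lemma Gk_diff (hsym : ∀ x y, ρ x y = ρ y x) (htri : ∀ x y z, ρ x z ≤ ρ x y + ρ y z)
    (hnn : ∀ x y, 0 ≤ ρ x y)
    (β : ℝ) (hβ : 0 ≤ β) (x y z : V) :
    |Gk ρ β x z - Gk ρ β y z| ≤ (Real.exp (2 * β * ρ x y) - 1) * Gk ρ β x z := by
  have h1 := Gk_le ρ hsym htri β hβ x y z
  have h2 := Gk_le ρ hsym htri β hβ y x z
  rw [hsym y x] at h2
  have hE : 1 ≤ Real.exp (2 * β * ρ x y) := by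
    rw [Real.one_le_exp_iff]
    have := mul_nonneg hβ (hnn x y)
    nlinarith
  have ha := Gk_nonneg ρ β x z
  have hb := Gk_nonneg ρ β y z
  rw [abs_le]
  constructor
  · nlinarith only [h1]
  · rcases le_total (Gk ρ β y z) (Gk ρ β x z) with h | h
    · nlinarith only [h2, hE, h]
    · nlinarith only [h1, h]

/-- entropy step -/
lemma En_step (γ : ℝ) (x : V) :
    γ * En ρ (2 * γ) x ≤ Real.log (Zp ρ γ x) - Real.log (Zp ρ (2 * γ) x) := by
  set s := γ * En ρ (2 * γ) x with hs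
  have h1 : ∑ z, Gk ρ (2 * γ) x z * (1 + γ * ρ x z - s) = 1 := by
    have : ∀ z ∈ Finset.univ, Gk ρ (2 * γ) x z * (1 + γ * ρ x z - s)
        = (1 - s) * Gk ρ (2 * γ) x z + γ * (Gk ρ (2 * γ) x z * ρ x z) := by
      intro z _; ring
    rw [Finset.sum_congr rfl this, Finset.sum_add_distrib, ← Finset.mul_sum, ← Finset.mul_sum,
      Gk_sum]
    change (1 - s) * 1 + γ * En ρ (2 * γ) x = 1
    rw [← hs]; ring
  have h2 : ∑ z, Gk ρ (2 * γ) x z * (1 + γ * ρ x z - s)
      ≤ ∑ z, Gk ρ (2 * γ) x z * Real.exp (γ * ρ x z - s) := by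
    refine Finset.sum_le_sum fun z _ => mul_le_mul_of_nonneg_left ?_ (Gk_nonneg ρ _ x z)
    have := Real.add_one_le_exp (γ * ρ x z - s)
    linarith
  have h3 : ∑ z, Gk ρ (2 * γ) x z * Real.exp (γ * ρ x z - s)
      = Real.exp (-s) * (Zp ρ γ x / Zp ρ (2 * γ) x) := by
    have : ∀ z ∈ Finset.univ, Gk ρ (2 * γ) x z * Real.exp (γ * ρ x z - s)
        = Real.exp (-s) / Zp ρ (2 * γ) x * wt ρ γ x z := by
      intro z _
      have e : wt ρ (2 * γ) x z * Real.exp (γ * ρ x z - s) = Real.exp (-s) * wt ρ γ x z := by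
        rw [wt, wt, ← Real.exp_add, ← Real.exp_add]
        congr 1; ring
      rw [Gk, div_mul_eq_mul_div, e]
      ring
    rw [Finset.sum_congr rfl this, ← Finset.mul_sum]
    change Real.exp (-s) / Zp ρ (2 * γ) x * Zp ρ γ x = _
    ring
  rw [h1, h3] at h2
  have hZ1 := Zp_pos ρ γ x
  have hZ2 := Zp_pos ρ (2 * γ) x
  have h4 : Real.exp s * Zp ρ (2 * γ) x ≤ Zp ρ γ x := by
    have h5 : Real.exp s * Zp ρ (2 * γ) x * 1
        ≤ Real.exp s * Zp ρ (2 * γ) x * (Real.exp (-s) * (Zp ρ γ x / Zp ρ (2 * γ) x)) :=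
      mul_le_mul_of_nonneg_left h2 (by positivity)
    have h6 : Real.exp s * Zp ρ (2 * γ) x * (Real.exp (-s) * (Zp ρ γ x / Zp ρ (2 * γ) x))
        = (Real.exp s * Real.exp (-s)) * Zp ρ γ x := by
      field_simp
    rw [h6, ← Real.exp_add, add_neg_cancel, Real.exp_zero, one_mul, mul_one] at h5
    exact h5
  have h7 := Real.log_le_log (by positivity) h4
  rw [Real.log_mul (Real.exp_pos s).ne' hZ2.ne', Real.log_exp] at h7
  linarith only [h7]

lemma En_sum (h0 : ∀ x, ρ x x = 0) (hnn : ∀ x y, 0 ≤ ρ x y) (b : ℝ) (hb : 0 < b) (L : ℕ) (x : V) :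
    ∑ j ∈ Finset.range L, (b * 2 ^ (j + 1)) * En ρ (b * 2 ^ (j + 1)) x
      ≤ 2 * Real.log (Fintype.card V) := by
  have h1 : ∀ j ∈ Finset.range L, (b * 2 ^ (j + 1)) * En ρ (b * 2 ^ (j + 1)) x
      ≤ 2 * (Real.log (Zp ρ (b * 2 ^ j) x) - Real.log (Zp ρ (b * 2 ^ (j + 1)) x)) := by
    intro j _
    have := En_step ρ (b * 2 ^ j) x
    have e : b * 2 ^ (j + 1) = 2 * (b * 2 ^ j) := by ring
    rw [e]
    linarith only [this]
  refine (Finset.sum_le_sum h1).trans ?_
  rw [← Finset.mul_sum, Finset.sum_range_sub']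
  have h2 : Real.log (Zp ρ (b * 2 ^ 0) x) ≤ Real.log (Fintype.card V) :=
    Real.log_le_log (Zp_pos ρ _ x) (Zp_le ρ hnn _ (by positivity) x)
  have h3 : 0 ≤ Real.log (Zp ρ (b * 2 ^ L) x) := Real.log_nonneg (one_le_Zp ρ h0 _ x)
  linarith only [h2, h3]

lemma exp_sub_one_le {t : ℝ} (h0 : 0 ≤ t) (h1 : t ≤ 1) : Real.exp t - 1 ≤ 2 * t := by
  have h := (abs_le.mp (Real.abs_exp_sub_one_sub_id_le
    (x := t) (by rw [abs_of_nonneg h0]; exact h1))).2
  nlinarith only [h0, h1, h]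

lemma En_nonneg (hnn : ∀ x y, 0 ≤ ρ x y) (β : ℝ) (x : V) : 0 ≤ En ρ β x :=
  Finset.sum_nonneg fun z _ => mul_nonneg (Gk_nonneg ρ β x z) (hnn x z)

/-- total variation -/
lemma tv (h0 : ∀ x, ρ x x = 0)
    (hsym : ∀ x y, ρ x y = ρ y x) (htri : ∀ x y z, ρ x z ≤ ρ x y + ρ y z)
    (hnn : ∀ x y, 0 ≤ ρ x y) (β : ℝ) (hβ : 0 ≤ β) (x y : V) :
    ∑ z, |Gk ρ β x z - Gk ρ β y z| ≤ 4 * β * ρ x y := by
  have ht : 0 ≤ 2 * β * ρ x y := by
    have := mul_nonneg hβ (hnn x y)
    linarith only [this]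
  rcases le_or_gt (2 * β * ρ x y) 1 with h | h
  · have h1 : ∑ z, |Gk ρ β x z - Gk ρ β y z|
        ≤ ∑ z, (Real.exp (2 * β * ρ x y) - 1) * Gk ρ β x z :=
      Finset.sum_le_sum fun z _ => Gk_diff ρ hsym htri hnn β hβ x y z
    rw [← Finset.mul_sum, Gk_sum, mul_one] at h1
    have := exp_sub_one_le ht h
    linarith
  · have h1 : ∑ z, |Gk ρ β x z - Gk ρ β y z| ≤ ∑ z, (Gk ρ β x z + Gk ρ β y z) := by
      refine Finset.sum_le_sum fun z _ => ?_
      rw [abs_le]
      have ha := Gk_nonneg ρ β x z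
      have hb := Gk_nonneg ρ β y z
      constructor <;> linarith
    rw [Finset.sum_add_distrib, Gk_sum, Gk_sum] at h1
    linarith only [h, h1]

section lip

variable [PseudoMetricSpace V] {E : Type*} [NormedAddCommGroup E] [NormedSpace ℝ E]

lemma disp (κ : ℝ) (hle : ∀ x y, dist x y ≤ ρ x y + κ) (β : ℝ) (h : V → E) (K : ℝ) (hK : 0 ≤ K)
    (hh : ∀ x y, ‖h x - h y‖ ≤ K * dist x y) (x : V) :
    ∑ z, Gk ρ β x z * ‖h z - h x‖ ≤ K * (En ρ β x + κ) := by
  have h1 : ∀ z ∈ Finset.univ, Gk ρ β x z * ‖h z - h x‖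
      ≤ K * (Gk ρ β x z * ρ x z) + K * κ * Gk ρ β x z := by
    intro z _
    have h2 : ‖h z - h x‖ ≤ K * (ρ x z + κ) := by
      refine (hh z x).trans (mul_le_mul_of_nonneg_left ?_ hK)
      rw [dist_comm]; exact hle x z
    have := mul_le_mul_of_nonneg_left h2 (Gk_nonneg ρ β x z)
    linarith
  refine (Finset.sum_le_sum h1).trans (le_of_eq ?_)
  rw [Finset.sum_add_distrib, ← Finset.mul_sum, ← Finset.mul_sum, Gk_sum]
  change K * En ρ β x + K * κ * 1 = _
  ring

lemma avg_sub (β : ℝ) (h : V → E) (x : V) (v : E) :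
    ∑ z, Gk ρ β x z • h z - v = ∑ z, Gk ρ β x z • (h z - v) := by
  simp only [smul_sub, Finset.sum_sub_distrib]
  rw [← Finset.sum_smul, Gk_sum, one_smul]

lemma avg_disp (κ : ℝ) (hle : ∀ x y, dist x y ≤ ρ x y + κ) (β : ℝ) (h : V → E) (K : ℝ)
    (hK : 0 ≤ K) (hh : ∀ x y, ‖h x - h y‖ ≤ K * dist x y) (x : V) :
    ‖∑ z, Gk ρ β x z • h z - h x‖ ≤ K * (En ρ β x + κ) := by
  rw [avg_sub]
  refine (norm_sum_le _ _).trans ?_
  refine le_trans (le_of_eq ?_) (disp ρ κ hle β h K hK hh x)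
  refine Finset.sum_congr rfl fun z _ => ?_
  rw [norm_smul, Real.norm_of_nonneg (Gk_nonneg ρ β x z)]

lemma lip_one (hsym : ∀ x y, ρ x y = ρ y x) (htri : ∀ x y z, ρ x z ≤ ρ x y + ρ y z)
    (hnn : ∀ x y, 0 ≤ ρ x y) (hρd : ∀ x y, ρ x y ≤ dist x y)
    (κ : ℝ) (hκ : 0 ≤ κ) (hle : ∀ x y, dist x y ≤ ρ x y + κ) (β : ℝ) (hβ : 0 ≤ β)
    (hβκ : β * κ ≤ 1)
    (h : V → E) (K : ℝ) (hK : 0 ≤ K) (hh : ∀ x y, ‖h x - h y‖ ≤ K * dist x y) (x y : V) :
    ‖∑ z, Gk ρ β x z • h z - ∑ z, Gk ρ β y z • h z‖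
      ≤ (7 + 6 * (β * En ρ β x + β * En ρ β y)) * (K * dist x y) := by
  have hEx := En_nonneg ρ hnn β x
  have hEy := En_nonneg ρ hnn β y
  have hd : 0 ≤ dist x y := dist_nonneg
  have hKd : 0 ≤ K * dist x y := mul_nonneg hK hd
  have ht : 0 ≤ 2 * β * ρ x y := by
    have := mul_nonneg hβ (hnn x y)
    linarith only [this]
  have hβE : 0 ≤ β * En ρ β x := mul_nonneg hβ hEx
  have hβE' : 0 ≤ β * En ρ β y := mul_nonneg hβ hEy
  rcases le_or_gt (2 * β * ρ x y) 1 with hc | hc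
  · have e1 : ∑ z, Gk ρ β x z • h z - ∑ z, Gk ρ β y z • h z
        = ∑ z, (Gk ρ β x z - Gk ρ β y z) • (h z - h x) := by
      have e2 := avg_sub ρ β h x (h x)
      have e3 := avg_sub ρ β h y (h x)
      simp only [sub_smul, Finset.sum_sub_distrib]
      rw [← e2, ← e3]
      abel
    rw [e1]
    have h1 : ‖∑ z, (Gk ρ β x z - Gk ρ β y z) • (h z - h x)‖
        ≤ (Real.exp (2 * β * ρ x y) - 1) * ∑ z, Gk ρ β x z * ‖h z - h x‖ := by
      refine (norm_sum_le _ _).trans ?_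
      rw [Finset.mul_sum]
      refine Finset.sum_le_sum fun z _ => ?_
      rw [norm_smul, Real.norm_eq_abs, ← mul_assoc]
      exact mul_le_mul_of_nonneg_right (Gk_diff ρ hsym htri hnn β hβ x y z) (norm_nonneg _)
    have h2 := disp ρ κ hle β h K hK hh x
    have h3 := exp_sub_one_le ht hc
    have h4 : 0 ≤ K * (En ρ β x + κ) := by (clear * - hκ hK hEx; positivity)
    have h5 : (Real.exp (2 * β * ρ x y) - 1) * ∑ z, Gk ρ β x z * ‖h z - h x‖
        ≤ (2 * (2 * β * ρ x y)) * (K * (En ρ β x + κ)) :=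
      mul_le_mul h3 h2 (Finset.sum_nonneg fun z _ =>
        mul_nonneg (Gk_nonneg ρ β x z) (norm_nonneg _)) (by linarith only [ht])
    have h6 : (2 * (2 * β * ρ x y)) * (K * (En ρ β x + κ))
        ≤ (2 * (2 * β * dist x y)) * (K * (En ρ β x + κ)) := by
      apply mul_le_mul_of_nonneg_right _ h4
      have := mul_le_mul_of_nonneg_left (hρd x y) hβ
      linarith only [this]
    have h7 : (2 * (2 * β * dist x y)) * (K * (En ρ β x + κ))
        = (4 * (β * En ρ β x) + 4 * (β * κ)) * (K * dist x y) := by ring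
    have h8 : (4 * (β * En ρ β x) + 4 * (β * κ)) * (K * dist x y)
        ≤ (7 + 6 * (β * En ρ β x + β * En ρ β y)) * (K * dist x y) := by
      apply mul_le_mul_of_nonneg_right _ hKd
      linarith only [hβκ, hβE, hβE']
    linarith only [h1, h5, h6, h8]
  · have e1 : ∑ z, Gk ρ β x z • h z - ∑ z, Gk ρ β y z • h z
        = (∑ z, Gk ρ β x z • h z - h x) - (∑ z, Gk ρ β y z • h z - h y) + (h x - h y) := by
      abel
    have h1 : ‖∑ z, Gk ρ β x z • h z - ∑ z, Gk ρ β y z • h z‖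
        ≤ K * (En ρ β x + κ) + K * (En ρ β y + κ) + K * dist x y := by
      rw [e1]
      refine (norm_add_le _ _).trans (add_le_add ((norm_sub_le _ _).trans (add_le_add ?_ ?_))
        (hh x y))
      · exact avg_disp ρ κ hle β h K hK hh x
      · exact avg_disp ρ κ hle β h K hK hh y
    have h2 : 1 ≤ 2 * β * dist x y := by
      have := mul_le_mul_of_nonneg_left (hρd x y) hβ
      linarith only [hc, this]
    have h3 : 0 ≤ K * (En ρ β x + En ρ β y + 2 * κ) := by (clear * - hκ hK hEx hEy; positivity)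
    have h4 : K * (En ρ β x + En ρ β y + 2 * κ)
        ≤ (K * (En ρ β x + En ρ β y + 2 * κ)) * (2 * β * dist x y) :=
      le_mul_of_one_le_right h3 h2
    have h5 : (K * (En ρ β x + En ρ β y + 2 * κ)) * (2 * β * dist x y)
        = (2 * (β * En ρ β x) + 2 * (β * En ρ β y) + 4 * (β * κ)) * (K * dist x y) := by ring
    have h6 : (2 * (β * En ρ β x) + 2 * (β * En ρ β y) + 4 * (β * κ)) * (K * dist x y)
        ≤ (6 + 6 * (β * En ρ β x + β * En ρ β y)) * (K * dist x y) := by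
      apply mul_le_mul_of_nonneg_right _ hKd
      linarith only [hβκ, hβE, hβE']
    nlinarith only [h1, h4, h6]

end lip

end Gibbs

open Gibbs in
theorem exists_smoothing (p : ℝ≥0∞) [Fact (1 ≤ p)] {V : Type*} [Fintype V] [PseudoMetricSpace V]
    (L : ℕ) (hL : 0 < L)
    (b η : ℝ) (hb : 0 < b) (hη : 0 < η) (hηb : Fintype.card V * η * (b * 2 ^ L) ≤ 1) :
    ∃ A : V → V → ℝ, (∀ x z, 0 ≤ A x z) ∧ (∀ x, ∑ z, A x z = 1) ∧
      (∀ x y, dist x y ≤ η → A x = A y) ∧
      (∀ x y, ∑ z, |A x z - A y z| ≤ 16 * b * 2 ^ L * dist x y) ∧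
      (∀ (d : ℕ) (h : V → PiLp p (fun _ : Fin d => ℝ)) (K : ℝ), 0 ≤ K →
        (∀ x y, ‖h x - h y‖ ≤ K * dist x y) →
        (∀ x y, ‖∑ z, A x z • h z - ∑ z, A y z • h z‖ ≤
          (7 + 24 * Real.log (Fintype.card V) / L) * K * dist x y) ∧
        (∀ x, ‖∑ z, A x z • h z - h x‖ ≤ (1 + 2 * Real.log (Fintype.card V) / L) * K / b)) := by
  obtain ⟨ρ, h0, hsym, htri, hnn, hρ1, hρ2⟩ := exists_collapse (V := V) η hη.le
  have hρd : ∀ x y, ρ x y ≤ dist x y := by
    intro x y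
    refine (hρ1 x y).trans (max_le dist_nonneg (by linarith only [hη]))
  have hρ0 : ∀ x y, dist x y ≤ η → ρ x y = 0 := by
    intro x y h
    have h1 := hρ1 x y
    rw [max_eq_left (by linarith only [h])] at h1
    exact le_antisymm h1 (hnn x y)
  have hL' : (0 : ℝ) < L := by exact_mod_cast hL
  have hL0 : (L : ℝ) ≠ 0 := hL'.ne'
  set κ : ℝ := Fintype.card V * η with hκ
  have hκ0 : 0 ≤ κ := by (clear * - hη; positivity)
  have hbj : ∀ j ∈ Finset.range L, 0 < b * 2 ^ (j + 1) ∧ b * 2 ^ (j + 1) ≤ b * 2 ^ L := by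
    intro j hj
    refine ⟨by positivity, mul_le_mul_of_nonneg_left ?_ hb.le⟩
    apply pow_le_pow_right₀ (by norm_num)
    have := Finset.mem_range.mp hj
    omega
  have hbκ : ∀ j ∈ Finset.range L, (b * 2 ^ (j + 1)) * κ ≤ 1 := by
    intro j hj
    refine le_trans (mul_le_mul_of_nonneg_right (hbj j hj).2 hκ0) ?_
    linarith only [hηb]
  have hsumL : ∀ (c : ℝ), (∑ _j ∈ Finset.range L, c) = L * c := by
    intro c; rw [Finset.sum_const, Finset.card_range, nsmul_eq_mul]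
  refine ⟨fun x z => (L : ℝ)⁻¹ * ∑ j ∈ Finset.range L, Gk ρ (b * 2 ^ (j + 1)) x z, ?_, ?_, ?_, ?_,
    ?_⟩
  · intro x z
    exact mul_nonneg (inv_nonneg.mpr hL'.le) (Finset.sum_nonneg fun j _ => Gk_nonneg ρ _ x z)
  · intro x
    rw [← Finset.mul_sum, Finset.sum_comm]
    simp only [Gk_sum]
    rw [hsumL, mul_one, inv_mul_cancel₀ hL0]
  · intro x y hxy
    have h1 : ∀ z, ρ x z = ρ y z := by
      intro z
      have h2 := htri x y z
      have h3 := htri y x z
      rw [hρ0 x y hxy] at h2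
      rw [hsym y x, hρ0 x y hxy] at h3
      linarith only [h2, h3]
    funext z
    have h4 : ∀ β z, Gk ρ β x z = Gk ρ β y z := by
      intro β z
      simp only [Gk, Zp, wt, h1]
    simp only [h4]
  · intro x y
    have h1 : ∀ z ∈ Finset.univ, |(L : ℝ)⁻¹ * ∑ j ∈ Finset.range L, Gk ρ (b * 2 ^ (j + 1)) x z
          - (L : ℝ)⁻¹ * ∑ j ∈ Finset.range L, Gk ρ (b * 2 ^ (j + 1)) y z|
        ≤ (L : ℝ)⁻¹ * ∑ j ∈ Finset.range L, |Gk ρ (b * 2 ^ (j + 1)) x z
            - Gk ρ (b * 2 ^ (j + 1)) y z| := by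
      intro z _
      rw [← mul_sub, ← Finset.sum_sub_distrib, abs_mul, abs_of_nonneg (inv_nonneg.mpr hL'.le)]
      exact mul_le_mul_of_nonneg_left (Finset.abs_sum_le_sum_abs _ _) (inv_nonneg.mpr hL'.le)
    refine (Finset.sum_le_sum h1).trans ?_
    rw [← Finset.mul_sum, Finset.sum_comm]
    have h2 : ∀ j ∈ Finset.range L, ∑ z, |Gk ρ (b * 2 ^ (j + 1)) x z
          - Gk ρ (b * 2 ^ (j + 1)) y z| ≤ 4 * (b * 2 ^ L) * dist x y := by
      intro j hj
      refine (tv ρ h0 hsym htri hnn _ (hbj j hj).1.le x y).trans ?_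
      have h3 := (hbj j hj).2
      have h4 := hρd x y
      have h5 := hnn x y
      have h6 := (hbj j hj).1
      calc 4 * (b * 2 ^ (j + 1)) * ρ x y ≤ 4 * (b * 2 ^ L) * ρ x y := by
            apply mul_le_mul_of_nonneg_right _ h5; linarith only [h3]
        _ ≤ 4 * (b * 2 ^ L) * dist x y := by
            apply mul_le_mul_of_nonneg_left h4; positivity
    have h3 : (L : ℝ)⁻¹ * ∑ j ∈ Finset.range L, ∑ z, |Gk ρ (b * 2 ^ (j + 1)) x z
          - Gk ρ (b * 2 ^ (j + 1)) y z| ≤ (L : ℝ)⁻¹ * (L * (4 * (b * 2 ^ L) * dist x y)) := by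
      apply mul_le_mul_of_nonneg_left _ (inv_nonneg.mpr hL'.le)
      rw [← hsumL]
      exact Finset.sum_le_sum h2
    rw [← mul_assoc, inv_mul_cancel₀ hL0, one_mul] at h3
    refine h3.trans ?_
    have h4 : 0 ≤ b * 2 ^ L * dist x y := by (clear * - hb; positivity)
    linarith only [h4]
  · intro d h K hK hh
    have eA : ∀ x, ∑ z, ((L : ℝ)⁻¹ * ∑ j ∈ Finset.range L, Gk ρ (b * 2 ^ (j + 1)) x z) • h z
        = (L : ℝ)⁻¹ • ∑ j ∈ Finset.range L, ∑ z, Gk ρ (b * 2 ^ (j + 1)) x z • h z := by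
      intro x
      rw [Finset.sum_comm, Finset.smul_sum]
      refine Finset.sum_congr rfl fun z _ => ?_
      rw [mul_smul, Finset.sum_smul]
    constructor
    · intro x y
      rw [eA, eA, ← smul_sub, ← Finset.sum_sub_distrib, norm_smul,
        Real.norm_of_nonneg (inv_nonneg.mpr hL'.le)]
      have h1 : ‖∑ j ∈ Finset.range L, (∑ z, Gk ρ (b * 2 ^ (j + 1)) x z • h z
            - ∑ z, Gk ρ (b * 2 ^ (j + 1)) y z • h z)‖
          ≤ ∑ j ∈ Finset.range L, (7 + 6 * ((b * 2 ^ (j + 1)) * En ρ (b * 2 ^ (j + 1)) x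
              + (b * 2 ^ (j + 1)) * En ρ (b * 2 ^ (j + 1)) y)) * (K * dist x y) := by
        refine (norm_sum_le _ _).trans (Finset.sum_le_sum fun j hj => ?_)
        exact lip_one ρ hsym htri hnn hρd κ hκ0 hρ2 _ (hbj j hj).1.le (hbκ j hj) h K hK hh x y
      have h2 : ∑ j ∈ Finset.range L, (7 + 6 * ((b * 2 ^ (j + 1)) * En ρ (b * 2 ^ (j + 1)) x
              + (b * 2 ^ (j + 1)) * En ρ (b * 2 ^ (j + 1)) y)) * (K * dist x y)
          ≤ (L * 7 + 24 * Real.log (Fintype.card V)) * (K * dist x y) := by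
        rw [← Finset.sum_mul]
        apply mul_le_mul_of_nonneg_right _ (by (clear * - hK; positivity))
        rw [Finset.sum_add_distrib, hsumL, ← Finset.mul_sum, Finset.sum_add_distrib]
        have h3 := En_sum ρ h0 hnn b hb L x
        have h4 := En_sum ρ h0 hnn b hb L y
        linarith only [h3, h4]
      calc (L : ℝ)⁻¹ * ‖∑ j ∈ Finset.range L, (∑ z, Gk ρ (b * 2 ^ (j + 1)) x z • h z
            - ∑ z, Gk ρ (b * 2 ^ (j + 1)) y z • h z)‖
          ≤ (L : ℝ)⁻¹ * ((L * 7 + 24 * Real.log (Fintype.card V)) * (K * dist x y)) :=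
            mul_le_mul_of_nonneg_left (h1.trans h2) (inv_nonneg.mpr hL'.le)
        _ = _ := by (clear * - hL hL0; field_simp)
    · intro x
      have e1 : ∑ z, ((L : ℝ)⁻¹ * ∑ j ∈ Finset.range L, Gk ρ (b * 2 ^ (j + 1)) x z) • h z - h x
          = (L : ℝ)⁻¹ • ∑ j ∈ Finset.range L, (∑ z, Gk ρ (b * 2 ^ (j + 1)) x z • h z - h x) := by
        rw [eA, Finset.sum_sub_distrib, smul_sub, Finset.sum_const, Finset.card_range,
          ← Nat.cast_smul_eq_nsmul ℝ, smul_smul, inv_mul_cancel₀ hL0, one_smul]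
      rw [e1, norm_smul, Real.norm_of_nonneg (inv_nonneg.mpr hL'.le)]
      have h1 : ‖∑ j ∈ Finset.range L, (∑ z, Gk ρ (b * 2 ^ (j + 1)) x z • h z - h x)‖
          ≤ ∑ j ∈ Finset.range L, (K / b) * ((b * 2 ^ (j + 1)) * En ρ (b * 2 ^ (j + 1)) x + 1) := by
        refine (norm_sum_le _ _).trans (Finset.sum_le_sum fun j hj => ?_)
        refine (avg_disp ρ κ hρ2 _ h K hK hh x).trans ?_
        have h2 : b ≤ b * 2 ^ (j + 1) := le_mul_of_one_le_right hb.le (one_le_pow₀ (by norm_num))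
        have h3 := En_nonneg ρ hnn (b * 2 ^ (j + 1)) x
        have h4 : b * (En ρ (b * 2 ^ (j + 1)) x + κ)
            ≤ (b * 2 ^ (j + 1)) * En ρ (b * 2 ^ (j + 1)) x + 1 := by
          have h5 := mul_le_mul_of_nonneg_right h2 h3
          have h6 := mul_le_mul_of_nonneg_right h2 hκ0
          have h7 := hbκ j hj
          linarith only [h5, h6, h7]
        calc K * (En ρ (b * 2 ^ (j + 1)) x + κ)
            = (K / b) * (b * (En ρ (b * 2 ^ (j + 1)) x + κ)) := by (clear * - hb; field_simp)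
          _ ≤ _ := mul_le_mul_of_nonneg_left h4 (by (clear * - hb hK; positivity))
      have h2 : ∑ j ∈ Finset.range L,
            (K / b) * ((b * 2 ^ (j + 1)) * En ρ (b * 2 ^ (j + 1)) x + 1)
          ≤ (K / b) * (2 * Real.log (Fintype.card V) + L) := by
        rw [← Finset.mul_sum, Finset.sum_add_distrib, hsumL, mul_one]
        apply mul_le_mul_of_nonneg_left _ (by (clear * - hb hK; positivity))
        have h3 := En_sum ρ h0 hnn b hb L x
        linarith only [h3]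
      calc (L : ℝ)⁻¹ * ‖∑ j ∈ Finset.range L, (∑ z, Gk ρ (b * 2 ^ (j + 1)) x z • h z - h x)‖
          ≤ (L : ℝ)⁻¹ * ((K / b) * (2 * Real.log (Fintype.card V) + L)) :=
            mul_le_mul_of_nonneg_left (h1.trans h2) (inv_nonneg.mpr hL'.le)
        _ = _ := by field_simp; ring

end Vale.Agent.P249
end
end

section

section

open MeasureTheory
open scoped ENNReal BigOperators

namespace Vale.Agent.P249

variable {p : ℝ≥0∞}

theorem sm_norm_le [Fact (1 ≤ p)] {V : Type*} [Fintype V] {d : ℕ} (A : V → V → ℝ)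
    (hA0 : ∀ x z, 0 ≤ A x z) (hA1 : ∀ x, ∑ z, A x z = 1) (h : V → PiLp p (fun _ : Fin d => ℝ))
    (M : ℝ) (hM : ∀ z, ‖h z‖ ≤ M) (x : V) : ‖∑ z, A x z • h z‖ ≤ M := by
  calc ‖∑ z, A x z • h z‖ ≤ ∑ z, ‖A x z • h z‖ := norm_sum_le _ _
    _ ≤ ∑ z, A x z * M := by
        apply Finset.sum_le_sum
        intro z _
        rw [norm_smul, Real.norm_eq_abs, abs_of_nonneg (hA0 x z)]
        exact mul_le_mul_of_nonneg_left (hM z) (hA0 x z)
    _ = M := by rw [← Finset.sum_mul, hA1, one_mul]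

theorem sm_coord_le {V : Type*} [Fintype V] {d : ℕ} (A : V → V → ℝ)
    (h : V → PiLp p (fun _ : Fin d => ℝ)) (τ : ℝ) (hτ : ∀ z i, |h z i| ≤ τ) (x y : V) (i : Fin d) :
    |((∑ z, A x z • h z) - ∑ z, A y z • h z) i| ≤ τ * ∑ z, |A x z - A y z| := by
  have : ((∑ z, A x z • h z) - ∑ z, A y z • h z) i = ∑ z, (A x z - A y z) * h z i := by
    simp only [PiLp.sub_apply, WithLp.ofLp_sum, Finset.sum_apply, PiLp.smul_apply, smul_eq_mul,
      sub_mul, Finset.sum_sub_distrib]
  rw [this, Finset.mul_sum]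
  refine (Finset.abs_sum_le_sum_abs _ _).trans ?_
  apply Finset.sum_le_sum
  intro z _
  rw [abs_mul, mul_comm]
  exact mul_le_mul_of_nonneg_right (hτ z i) (abs_nonneg _)

/-- One round: a map good for a fixed proportion of the weight. -/
theorem round_map [Fact (1 ≤ p)] (hp : p ≠ ∞) {V : Type*} [Fintype V] [Nonempty V]
    [PseudoMetricSpace V] {N b m : ℕ} (hN : 0 < N) (hb : 0 < b) (hm0 : 0 < m)
    (f : V → PiLp p (fun _ : Fin N => ℝ)) (hf : ∀ x y, ‖f x - f y‖ = dist x y)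
    (C₀ : ℝ) (hC₀ : 1 ≤ C₀) (L : ℕ) (hL0 : 0 < L) (hL : 2 * (Fintype.card V : ℝ) ≤ C₀ ^ L)
    (R : ℝ) (hR : 0 < R) (θ : ℝ) (hθ : 0 < θ) (K Q : ℝ)
    (hK : (4 * 49 ^ L / θ) ^ p.toReal ≤ K) (hQ : 4 * 40 ^ p.toReal ≤ Q) (hbK : 2 * K * Q ≤ b)
    (ℓ : ℕ) (hℓ0 : 0 < ℓ)
    (hℓ : 2 * Real.exp 1 * ((Fintype.card V : ℝ) ^ 2 + 1) * b ≤ Q ^ ℓ)
    (κ C₂ : ℝ) (hκ : κ = 160 * ℓ * (1 + 2 * Real.log C₀))
    (hC₂ : C₂ = 10 * (7 + 24 * Real.log C₀))
    (hm : 4 * (N * (16 * θ * κ * 2 ^ L) ^ p.toReal) * C₂ ^ p.toReal *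
      Real.log (2 * (Fintype.card V : ℝ) ^ 2 + 1) ≤ ((8 ^ p.toReal)⁻¹) ^ 2 * m)
    (w : V × V → ℝ) (hw : ∀ a, 0 ≤ w a)
    (hws : ∀ a, w a ≠ 0 → R ≤ dist a.1 a.2 ∧ dist a.1 a.2 ≤ R * 7 ^ L) :
    ∃ F : V → PiLp p (fun _ : Fin (b + m) => ℝ),
      (∀ x y, ‖F x - F y‖ ≤ C₂ * (ℓ + 2) * min (dist x y) (R * 49 ^ L)) ∧
      (∀ x y, dist x y ≤ R / (Fintype.card V * κ * 2 ^ L) → F x = F y) ∧
      ∑ a, w a ≤ 6 * C₀ * ∑ a with dist a.1 a.2 ≤ 8 * ‖F a.1 - F a.2‖, w a := by
  classical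
  have hP0 := toReal_pos_of_fact (p := p) hp
  have hP1 := one_le_toReal_of_fact (p := p) hp
  set P := p.toReal with hPdef
  have hn0 : (0:ℝ) < Fintype.card V := by exact_mod_cast Fintype.card_pos
  have hLr : (0:ℝ) < L := by exact_mod_cast hL0
  have hlog0 : 0 ≤ Real.log C₀ := Real.log_nonneg hC₀
  have hℓ1 : (1:ℝ) ≤ ℓ := by exact_mod_cast hℓ0
  have hκ160 : 160 ≤ κ := by rw [hκ]; nlinarith only [hlog0, hℓ1]
  have hκ0 : 0 < κ := by linarith only [hκ160]
  have hC₂70 : 70 ≤ C₂ := by rw [hC₂]; linarith only [hlog0]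
  have hC₂0 : 0 < C₂ := by linarith only [hC₂, hlog0]
  have h2L : (1:ℝ) ≤ 2 ^ L := one_le_pow₀ (by norm_num)
  have h49L : (1:ℝ) ≤ 49 ^ L := one_le_pow₀ (by norm_num)
  have h749 : (7:ℝ) ^ L ≤ 49 ^ L := pow_le_pow_left₀ (by norm_num) (by norm_num) L
  have hlogn : Real.log (Fintype.card V) / L ≤ Real.log C₀ := by
    rw [div_le_iff₀ hLr]
    calc Real.log (Fintype.card V) ≤ Real.log (C₀ ^ L) := by
          apply Real.log_le_log hn0
          linarith only [hL, hn0]
      _ = Real.log C₀ * L := by rw [Real.log_pow]; ring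
  -- step A
  have hτ : 0 < θ * R := by positivity
  obtain ⟨GT, GD, hGT1, hGD1, hGT2, hGD2, hGTi, hGDs, S, hS1, hS2⟩ :=
    split_maps hp f hf C₀ hC₀ L hL R hR (θ * R) hτ w hw (fun a ha => (hws a ha).2)
  have hcard : ∀ x, ((Finset.univ.filter (fun i => GD x i ≠ 0)).card : ℝ) ≤ K := by
    intro x
    refine (hGDs x).trans (le_trans (le_of_eq ?_) hK)
    congr 1
    (clear * - hR hθ; field_simp)
  -- step B
  obtain ⟨H, hH1, hH2, hH3⟩ := hash_part hp hb GD hGD1 K Q hcard hQ hbK ℓ hℓ w hw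
  -- step C
  have hβ : 0 < κ / R := by positivity
  have hη : 0 < R / (Fintype.card V * κ * 2 ^ L) := by positivity
  obtain ⟨A, hA0, hA1, hAc, hATV, hA⟩ := exists_smoothing p (V := V) L hL0 (κ / R)
    (R / (Fintype.card V * κ * 2 ^ L)) hβ hη (le_of_eq (by field_simp))
  have hlip : 7 + 24 * Real.log (Fintype.card V) / L ≤ C₂ / 10 := by
    rw [hC₂, mul_div_assoc]; linarith only [hlogn]
  have hdis : 1 + 2 * Real.log (Fintype.card V) / L ≤ 1 + 2 * Real.log C₀ := by
    rw [mul_div_assoc]; linarith only [hlogn]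
  have hHlip : ∀ x y, ‖H x - H y‖ ≤ (10 * ℓ) * dist x y := by
    intro x y
    refine (hH1 x y).trans ?_
    calc (ℓ:ℝ) * ‖GD x - GD y‖ ≤ ℓ * (10 * dist x y) := by gcongr; exact hGD1 x y
      _ = _ := by ring
  obtain ⟨hUD1, hUD2⟩ := hA b H (10 * ℓ) (by positivity) hHlip
  obtain ⟨hUT1, hUT2⟩ := hA N GT 10 (by norm_num) hGT1
  set UD : V → PiLp p (fun _ : Fin b => ℝ) := fun x => ∑ z, A x z • H z with hUD
  set UT : V → PiLp p (fun _ : Fin N => ℝ) := fun x => ∑ z, A x z • GT z with hUT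
  have hUDdis : ∀ x, ‖UD x - H x‖ ≤ R / 16 := by
    intro x
    refine (hUD2 x).trans ?_
    rw [div_le_iff₀ hβ]
    have : R / 16 * (κ / R) = κ / 16 := by (clear * - hR hκ160; field_simp)
    rw [this, hκ]
    have := mul_le_mul_of_nonneg_right hdis (by positivity : (0:ℝ) ≤ 10 * ℓ)
    linarith only [this]
  have hUTdis : ∀ x, ‖UT x - GT x‖ ≤ R / 16 := by
    intro x
    refine (hUT2 x).trans ?_
    rw [div_le_iff₀ hβ]
    have : R / 16 * (κ / R) = κ / 16 := by (clear * - hR hκ160; field_simp)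
    rw [this, hκ]
    have := mul_le_mul_of_nonneg_right hdis (by positivity : (0:ℝ) ≤ 10)
    nlinarith only [hlog0, hℓ1, hdis]
  set ρ : V → V → ℝ := fun x y => min (dist x y) (R * 49 ^ L) with hρdef
  have hρ0 : ∀ x y, 0 ≤ ρ x y := fun x y => le_min dist_nonneg (by positivity)
  have hUDρ : ∀ x y, ‖UD x - UD y‖ ≤ C₂ * ℓ * ρ x y := by
    intro x y
    simp only [hρdef]
    rw [mul_min_of_nonneg _ _ (by positivity)]
    apply le_min
    · refine (hUD1 x y).trans ?_
      calc (7 + 24 * Real.log (Fintype.card V) / L) * (10 * ℓ) * dist x y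
          ≤ (C₂ / 10) * (10 * ℓ) * dist x y := by (clear * - hℓ0 hlip; gcongr)
        _ = _ := by ring
    · have hHb : ∀ z, ‖H z‖ ≤ ℓ * (4 * R * 49 ^ L) := fun z =>
        (hH2 z).trans (by gcongr; exact hGD2 z)
      have h1 := sm_norm_le A hA0 hA1 H _ hHb x
      have h2 := sm_norm_le A hA0 hA1 H _ hHb y
      calc ‖UD x - UD y‖ ≤ ‖UD x‖ + ‖UD y‖ := norm_sub_le _ _
        _ ≤ ℓ * (4 * R * 49 ^ L) + ℓ * (4 * R * 49 ^ L) := add_le_add h1 h2
        _ = 8 * ℓ * (R * 49 ^ L) := by ring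
        _ ≤ C₂ * ℓ * (R * 49 ^ L) := by gcongr; linarith only [hC₂, hlog0]
  have hUTρ : ∀ x y, ‖UT x - UT y‖ ≤ C₂ * ρ x y := by
    intro x y
    simp only [hρdef]
    rw [mul_min_of_nonneg _ _ (by positivity)]
    apply le_min
    · refine (hUT1 x y).trans ?_
      calc (7 + 24 * Real.log (Fintype.card V) / L) * 10 * dist x y
          ≤ (C₂ / 10) * 10 * dist x y := by (clear * - hlip; gcongr)
        _ = _ := by ring
    · have h1 := sm_norm_le A hA0 hA1 GT _ hGT2 x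
      have h2 := sm_norm_le A hA0 hA1 GT _ hGT2 y
      calc ‖UT x - UT y‖ ≤ ‖UT x‖ + ‖UT y‖ := norm_sub_le _ _
        _ ≤ 4 * R * 49 ^ L + 4 * R * 49 ^ L := add_le_add h1 h2
        _ = 8 * (R * 49 ^ L) := by ring
        _ ≤ C₂ * (R * 49 ^ L) := by gcongr; linarith only [hC₂, hlog0]
  have hUTi : ∀ x y i, |(UT x - UT y) i| ≤ (16 * θ * κ * 2 ^ L) * ρ x y := by
    intro x y i
    have h1 := sm_coord_le A GT (θ * R) hGTi x y i
    simp only [hρdef]
    rw [mul_min_of_nonneg _ _ (by positivity)]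
    apply le_min
    · refine h1.trans ?_
      calc θ * R * ∑ z, |A x z - A y z| ≤ θ * R * (16 * (κ / R) * 2 ^ L * dist x y) := by
            gcongr; exact hATV x y
        _ = _ := by (clear * - hR hθ hκ160; field_simp)
    · have h2 : ∑ z, |A x z - A y z| ≤ 2 := by
        calc ∑ z, |A x z - A y z| ≤ ∑ z, (A x z + A y z) := by
              apply Finset.sum_le_sum
              intro z _
              refine (abs_sub _ _).trans ?_
              rw [abs_of_nonneg (hA0 x z), abs_of_nonneg (hA0 y z)]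
          _ = 2 := by rw [Finset.sum_add_distrib, hA1, hA1]; norm_num
      calc |(UT x - UT y) i| ≤ θ * R * ∑ z, |A x z - A y z| := h1
        _ ≤ θ * R * 2 := by (clear * - hR hθ h2; gcongr)
        _ = 2 * (θ * R) := by ring
        _ ≤ (16 * κ * 2 ^ L * 49 ^ L) * (θ * R) := by
            apply mul_le_mul_of_nonneg_right _ hτ.le
            have : 1 ≤ κ * 2 ^ L * 49 ^ L := by
              have : (1:ℝ) ≤ κ := by linarith only [hκ160]
              calc (1:ℝ) = 1 * 1 * 1 := by norm_num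
                _ ≤ κ * 2 ^ L * 49 ^ L := by (clear * - hκ160 h2L h49L this; gcongr)
            linarith only [this]
        _ = _ := by ring
  -- sampling
  have h8P : (0:ℝ) < 8 ^ P := by positivity
  have h8P1 : (1:ℝ) ≤ 8 ^ P := Real.one_le_rpow (by norm_num) hP0.le
  have hC₂P : (1:ℝ) ≤ C₂ ^ P := Real.one_le_rpow (by linarith only [hC₂, hlog0]) hP0.le
  have h8inv : (8 ^ P : ℝ)⁻¹ ≤ 1 := inv_le_one_of_one_le₀ h8P1
  have h2P : (2:ℝ) ≤ 2 ^ P := by
    simpa only [Real.rpow_one] using Real.rpow_le_rpow_of_exponent_le (by norm_num : (1 : ℝ) ≤ 2) hP1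
  obtain ⟨WT, hWT1, hWT2⟩ := sample_map hp hN hm0 UT ρ hρ0 (16 * θ * κ * 2 ^ L) (by (clear * - hθ hκ160; positivity))
    hUTi C₂ ((8 ^ P)⁻¹) hC₂0 hUTρ (by positivity) (by linarith only [hC₂P, h8inv]) hm
  refine ⟨fun x => joinL (UD x) (WT x), ?_, ?_, ?_⟩
  · -- Lipschitz
    intro x y
    have hWTρ : ‖WT x - WT y‖ ≤ 2 * C₂ * ρ x y := by
      have h1 := (abs_le.1 (hWT2 x y)).2
      have h2 : ‖UT x - UT y‖ ^ P ≤ C₂ ^ P * ρ x y ^ P := by
        rw [← Real.mul_rpow hC₂0.le (hρ0 _ _)]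
        exact Real.rpow_le_rpow (norm_nonneg _) (hUTρ x y) hP0.le
      have hρP : 0 ≤ ρ x y ^ P := Real.rpow_nonneg (hρ0 _ _) _
      have h3 : ‖WT x - WT y‖ ^ P ≤ (2 * C₂ * ρ x y) ^ P := by
        rw [Real.mul_rpow (by positivity) (hρ0 _ _), Real.mul_rpow (by norm_num) hC₂0.le]
        have h4 : (8 ^ P : ℝ)⁻¹ * ρ x y ^ P ≤ C₂ ^ P * ρ x y ^ P := by
          apply mul_le_mul_of_nonneg_right _ hρP
          linarith only [hC₂P, h8inv]
        have h5 : 2 * C₂ ^ P * ρ x y ^ P ≤ 2 ^ P * C₂ ^ P * ρ x y ^ P := by (clear * - hR hC₂70 h2P; gcongr)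
        linarith only [h1, h2, h4, h5]
      exact (Real.rpow_le_rpow_iff (norm_nonneg _) (mul_nonneg (by positivity) (hρ0 _ _)) hP0).1 h3
    have h1 := norm_joinL_sub_rpow hp (UD x) (UD y) (WT x) (WT y)
    have h2 : (‖UD x - UD y‖ ^ P + ‖WT x - WT y‖ ^ P) ≤ (‖UD x - UD y‖ + ‖WT x - WT y‖) ^ P :=
      Real.add_rpow_le_rpow_add (norm_nonneg _) (norm_nonneg _) hP1
    have h3 : ‖joinL (UD x) (WT x) - joinL (UD y) (WT y)‖ ≤ ‖UD x - UD y‖ + ‖WT x - WT y‖ := by
      rw [← Real.rpow_le_rpow_iff (norm_nonneg _) (by positivity) hP0]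
      rw [h1]; exact h2
    calc ‖joinL (UD x) (WT x) - joinL (UD y) (WT y)‖ ≤ ‖UD x - UD y‖ + ‖WT x - WT y‖ := h3
      _ ≤ C₂ * ℓ * ρ x y + 2 * C₂ * ρ x y := add_le_add (hUDρ x y) hWTρ
      _ = C₂ * (ℓ + 2) * min (dist x y) (R * 49 ^ L) := by simp only [hρdef]; ring
  · intro x y hxy
    have hAxy := hAc x y hxy
    have h1 : UD x = UD y := by simp only [hUD, hAxy]
    have h2 : UT x = UT y := by simp only [hUT, hAxy]
    simp only [h1, hWT1 x y h2]
  · -- weights
    have hjD : ∀ x y, ‖UD x - UD y‖ ≤ ‖joinL (UD x) (WT x) - joinL (UD y) (WT y)‖ := by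
      intro x y
      rw [← Real.rpow_le_rpow_iff (norm_nonneg _) (norm_nonneg _) hP0,
        norm_joinL_sub_rpow hp]
      have := Real.rpow_nonneg (norm_nonneg (WT x - WT y)) P
      linarith
    have hjT : ∀ x y, ‖WT x - WT y‖ ≤ ‖joinL (UD x) (WT x) - joinL (UD y) (WT y)‖ := by
      intro x y
      rw [← Real.rpow_le_rpow_iff (norm_nonneg _) (norm_nonneg _) hP0,
        norm_joinL_sub_rpow hp]
      have := Real.rpow_nonneg (norm_nonneg (UD x - UD y)) P
      linarith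
    set T : Finset (V × V) := Finset.univ.filter (fun a : V × V => dist a.1 a.2 ≤
      8 * ‖joinL (UD a.1) (WT a.1) - joinL (UD a.2) (WT a.2)‖) with hT
    -- dense pairs
    have key1 : ∀ a : V × V, w a ≠ 0 → dist a.1 a.2 ≤ 4 * ‖H a.1 - H a.2‖ → a ∈ T := by
      intro a ha hda
      have hRa := (hws a ha).1
      simp only [hT, Finset.mem_filter, Finset.mem_univ, true_and]
      have h1 := hUDdis a.1
      have h2 := hUDdis a.2
      have h3 : ‖H a.1 - H a.2‖ ≤ ‖UD a.1 - UD a.2‖ + R / 16 + R / 16 := by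
        have : H a.1 - H a.2 = (UD a.1 - UD a.2) - (UD a.1 - H a.1) + (UD a.2 - H a.2) := by abel
        rw [this]
        refine (norm_add_le _ _).trans ?_
        have := norm_sub_le (UD a.1 - UD a.2) (UD a.1 - H a.1)
        linarith
      have h4 := hjD a.1 a.2
      linarith only [hda, hRa, h3, h4]
    have key2 : ∀ a : V × V, w a ≠ 0 → dist a.1 a.2 ≤ 2 * ‖GT a.1 - GT a.2‖ → a ∈ T := by
      intro a ha hda
      have hRa := (hws a ha).1
      have hRa2 := (hws a ha).2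
      simp only [hT, Finset.mem_filter, Finset.mem_univ, true_and]
      have h1 := hUTdis a.1
      have h2 := hUTdis a.2
      have h3 : ‖GT a.1 - GT a.2‖ ≤ ‖UT a.1 - UT a.2‖ + R / 16 + R / 16 := by
        have : GT a.1 - GT a.2 = (UT a.1 - UT a.2) - (UT a.1 - GT a.1) + (UT a.2 - GT a.2) := by
          abel
        rw [this]
        refine (norm_add_le _ _).trans ?_
        have := norm_sub_le (UT a.1 - UT a.2) (UT a.1 - GT a.1)
        linarith
      have hda0 : 0 < dist a.1 a.2 := by linarith only [hR, hRa]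
      have hρa : ρ a.1 a.2 = dist a.1 a.2 := by
        simp only [hρdef]
        apply min_eq_left
        refine hRa2.trans ?_
        (clear * - hR h749; gcongr)
      have h5 : dist a.1 a.2 / 4 ≤ ‖UT a.1 - UT a.2‖ := by linarith only [hR, hda, hRa, h3]
      have h6 := (abs_le.1 (hWT2 a.1 a.2)).1
      rw [hρa] at h6
      have h7 : (dist a.1 a.2 / 4) ^ P ≤ ‖UT a.1 - UT a.2‖ ^ P :=
        Real.rpow_le_rpow (by (clear * - hda0; positivity)) h5 hP0.le
      rw [Real.div_rpow hda0.le (by norm_num)] at h7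
      have hdP : 0 < dist a.1 a.2 ^ P := Real.rpow_pos_of_pos hda0 _
      have h8 : (8:ℝ) ^ P = 2 ^ P * 4 ^ P := by
        rw [← Real.mul_rpow (by norm_num) (by norm_num)]; norm_num
      have h4P : (0:ℝ) < 4 ^ P := by positivity
      have h9 : 2 * (8 ^ P : ℝ)⁻¹ ≤ (4 ^ P)⁻¹ := by
        rw [h8, mul_inv, ← mul_assoc]
        calc 2 * (2 ^ P : ℝ)⁻¹ * (4 ^ P)⁻¹ ≤ 1 * (4 ^ P)⁻¹ := by
              apply mul_le_mul_of_nonneg_right _ (by positivity)
              rw [← div_eq_mul_inv, div_le_one (by positivity)]; exact h2P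
          _ = _ := one_mul _
      have h10 : (dist a.1 a.2 / 8) ^ P ≤ ‖WT a.1 - WT a.2‖ ^ P := by
        rw [Real.div_rpow hda0.le (by norm_num)]
        have e1 : dist a.1 a.2 ^ P / 8 ^ P = (8 ^ P)⁻¹ * dist a.1 a.2 ^ P := by ring
        have e2 : dist a.1 a.2 ^ P / 4 ^ P = (4 ^ P)⁻¹ * dist a.1 a.2 ^ P := by ring
        rw [e1]
        rw [e2] at h7
        have := mul_le_mul_of_nonneg_right h9 hdP.le
        linarith only [h6, h7, this]
      have h11 := (Real.rpow_le_rpow_iff (by (clear * - hda0; positivity)) (norm_nonneg _) hP0).1 h10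
      have h12 := hjT a.1 a.2
      linarith
    have hfil : ∀ (q : V × V → Prop) [DecidablePred q], (∀ a, w a ≠ 0 → q a → a ∈ T) →
        ∑ a with q a, w a ≤ ∑ a ∈ T, w a := by
      intro q _ hq
      have : ∑ a with q a, w a = ∑ a ∈ Finset.univ.filter (fun a => q a ∧ w a ≠ 0), w a := by
        rw [← Finset.filter_filter]
        exact (Finset.sum_filter_ne_zero _).symm
      rw [this]
      apply Finset.sum_le_sum_of_subset_of_nonneg
      · intro a ha
        simp only [Finset.mem_filter, Finset.mem_univ, true_and] at ha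
        exact hq a ha.2 ha.1
      · intro a _ _
        exact hw a
    have b1 := hfil _ key1
    have b2 := hfil _ key2
    have b3 : ∑ a ∈ S, w a ≤ ∑ a with dist a.1 a.2 ≤ 2 * ‖GT a.1 - GT a.2‖, w a +
        ∑ a with dist a.1 a.2 ≤ 2 * ‖GD a.1 - GD a.2‖, w a := by
      rw [← Finset.sum_union_inter]
      have h0 : 0 ≤ ∑ a ∈ Finset.univ.filter (fun a : V × V => dist a.1 a.2 ≤
        2 * ‖GT a.1 - GT a.2‖) ∩ Finset.univ.filter (fun a : V × V => dist a.1 a.2 ≤
        2 * ‖GD a.1 - GD a.2‖), w a := Finset.sum_nonneg fun a _ => hw a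
      have h1 : ∑ a ∈ S, w a ≤ ∑ a ∈ Finset.univ.filter (fun a : V × V => dist a.1 a.2 ≤
        2 * ‖GT a.1 - GT a.2‖) ∪ Finset.univ.filter (fun a : V × V => dist a.1 a.2 ≤
        2 * ‖GD a.1 - GD a.2‖), w a := by
        apply Finset.sum_le_sum_of_subset_of_nonneg
        · intro a ha
          simp only [Finset.mem_filter, Finset.mem_univ, true_and, Finset.mem_union]
          have := hS1 a ha
          by_contra hcon
          push Not at hcon
          linarith only [hcon.1, hcon.2, this, hcon]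
        · intro a _ _
          exact hw a
      linarith only [h0, h1]
    have hTn : 0 ≤ ∑ a ∈ T, w a := Finset.sum_nonneg fun a _ => hw a
    have b4 : ∑ a ∈ S, w a ≤ 3 * ∑ a ∈ T, w a := by linarith only [hH3, b1, b2, b3]
    calc ∑ a, w a ≤ 2 * C₀ * ∑ a ∈ S, w a := hS2
      _ ≤ 2 * C₀ * (3 * ∑ a ∈ T, w a) := by (clear * - hC₀ b4; gcongr)
      _ = 6 * C₀ * ∑ a ∈ T, w a := by ring

end Vale.Agent.P249
end
end

section

section
open MeasureTheory
open scoped ENNReal BigOperators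
namespace Vale.Agent.P249

/-! T1: boosting by multiplicative weights -/

lemma exp_neg_le_lin {z : ℝ} (h0 : 0 ≤ z) (h1 : z ≤ 1) : Real.exp (-z) ≤ 1 - 0.6 * z := by
  have hc := convexOn_exp.2 (Set.mem_univ (0 : ℝ)) (Set.mem_univ (-1 : ℝ))
    (by linarith : (0 : ℝ) ≤ 1 - z) h0 (by ring)
  simp only [smul_eq_mul, mul_zero, zero_add, Real.exp_zero, mul_one] at hc
  have he : Real.exp (-1) ≤ 0.4 := by
    have := Real.exp_neg_one_lt_d9
    linarith only [this]
  have e : z * -1 = -z := by ring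
  rw [e] at hc
  nlinarith only [h0, hc, he]

theorem boost {P ι : Type*} [Fintype P] (Z : ι → P → ℝ) (hZ0 : ∀ i a, 0 ≤ Z i a)
    (hZ1 : ∀ i a, Z i a ≤ 1) (c₀ : ℝ) (hc₀ : 0 < c₀)
    (h : ∀ w : P → ℝ, (∀ a, 0 ≤ w a) → ∃ i, c₀ * ∑ a, w a ≤ ∑ a, w a * Z i a)
    (m : ℕ) (hm : 10 * Real.log (Fintype.card P) ≤ c₀ * m) :
    ∃ i : Fin m → ι, ∀ a, c₀ / 2 * m ≤ ∑ t, Z (i t) a := by
  have key : ∀ m : ℕ, ∃ i : Fin m → ι,
      ∑ a, Real.exp (-∑ t, Z (i t) a) ≤ Fintype.card P * Real.exp (-(0.6 * c₀ * m)) := by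
    intro m
    induction m with
    | zero => exact ⟨Fin.elim0, by simp only [Finset.univ_eq_empty, Finset.sum_empty, neg_zero,
                                     Real.exp_zero, Finset.sum_const, Finset.card_univ,
                                     nsmul_eq_mul, mul_one, CharP.cast_eq_zero, mul_zero,
                                     Std.le_refl]⟩
    | succ m ih =>
      obtain ⟨i, hi⟩ := ih
      set w : P → ℝ := fun a => Real.exp (-∑ t, Z (i t) a) with hw
      obtain ⟨i0, hi0⟩ := h w (fun a => (Real.exp_pos _).le)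
      refine ⟨Fin.snoc i i0, ?_⟩
      have e1 : ∀ a, Real.exp (-∑ t, Z (Fin.snoc (α := fun _ => ι) i i0 t) a) =
          w a * Real.exp (-(Z i0 a)) := by
        intro a
        rw [Fin.sum_univ_castSucc]
        simp only [Fin.snoc_castSucc, Fin.snoc_last]
        rw [neg_add, Real.exp_add]
      simp_rw [e1]
      calc ∑ a, w a * Real.exp (-(Z i0 a)) ≤ ∑ a, w a * (1 - 0.6 * Z i0 a) := by
            apply Finset.sum_le_sum
            intro a _
            exact mul_le_mul_of_nonneg_left (exp_neg_le_lin (hZ0 i0 a) (hZ1 i0 a))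
              (Real.exp_pos _).le
        _ = ∑ a, w a - 0.6 * ∑ a, w a * Z i0 a := by
            rw [Finset.mul_sum, ← Finset.sum_sub_distrib]
            apply Finset.sum_congr rfl
            intro a _
            ring
        _ ≤ (1 - 0.6 * c₀) * ∑ a, w a := by nlinarith only [hi0]
        _ ≤ Real.exp (-(0.6 * c₀)) * ∑ a, w a := by
            apply mul_le_mul_of_nonneg_right _ (Finset.sum_nonneg fun a _ => (Real.exp_pos _).le)
            have := Real.add_one_le_exp (-(0.6 * c₀))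
            linarith only [this]
        _ ≤ Real.exp (-(0.6 * c₀)) * (Fintype.card P * Real.exp (-(0.6 * c₀ * m))) :=
            mul_le_mul_of_nonneg_left hi (Real.exp_pos _).le
        _ = Fintype.card P * Real.exp (-(0.6 * c₀ * (m + 1 : ℕ))) := by
            rw [mul_left_comm, ← Real.exp_add]
            congr 2
            push_cast
            ring
  obtain ⟨i, hi⟩ := key m
  refine ⟨i, fun a => ?_⟩
  have h1 : Real.exp (-∑ t, Z (i t) a) ≤ Fintype.card P * Real.exp (-(0.6 * c₀ * m)) :=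
    le_trans (Finset.single_le_sum (f := fun a => Real.exp (-∑ t, Z (i t) a))
      (fun a _ => (Real.exp_pos _).le) (Finset.mem_univ a)) hi
  have hP : (0 : ℝ) < Fintype.card P := by
    exact_mod_cast Fintype.card_pos_iff.mpr ⟨a⟩
  have h2 := Real.log_le_log (Real.exp_pos _) h1
  rw [Real.log_exp, Real.log_mul hP.ne' (Real.exp_pos _).ne', Real.log_exp] at h2
  linarith only [hm, h2]

end Vale.Agent.P249
end
end

section

section

open MeasureTheory
open scoped ENNReal BigOperators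

namespace Vale.Agent.P249

variable {p : ℝ≥0∞}

/-- A map good for all pairs in a block of scales. -/
theorem block_map [Fact (1 ≤ p)] (hp : p ≠ ∞) {V : Type*} [Fintype V] [Nonempty V]
    [PseudoMetricSpace V] {N b m M : ℕ} (hN : 0 < N) (hb : 0 < b) (hm0 : 0 < m) (hM0 : 0 < M)
    (f : V → PiLp p (fun _ : Fin N => ℝ)) (hf : ∀ x y, ‖f x - f y‖ = dist x y)
    (C₀ : ℝ) (hC₀ : 1 ≤ C₀) (L : ℕ) (hL0 : 0 < L) (hL : 2 * (Fintype.card V : ℝ) ≤ C₀ ^ L)
    (hM : 120 * C₀ * Real.log (Fintype.card V) ≤ M)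
    (R : ℝ) (hR : 0 < R) (θ : ℝ) (hθ : 0 < θ) (K Q : ℝ)
    (hK : (4 * 49 ^ L / θ) ^ p.toReal ≤ K) (hQ : 4 * 40 ^ p.toReal ≤ Q) (hbK : 2 * K * Q ≤ b)
    (ℓ : ℕ) (hℓ0 : 0 < ℓ)
    (hℓ : 2 * Real.exp 1 * ((Fintype.card V : ℝ) ^ 2 + 1) * b ≤ Q ^ ℓ)
    (κ C₂ : ℝ) (hκ : κ = 160 * ℓ * (1 + 2 * Real.log C₀))
    (hC₂ : C₂ = 10 * (7 + 24 * Real.log C₀))
    (hm : 4 * (N * (16 * θ * κ * 2 ^ L) ^ p.toReal) * C₂ ^ p.toReal *
      Real.log (2 * (Fintype.card V : ℝ) ^ 2 + 1) ≤ ((8 ^ p.toReal)⁻¹) ^ 2 * m) :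
    ∃ F : V → PiLp p (fun _ : Fin (M * (b + m)) => ℝ),
      (∀ x y, ‖F x - F y‖ ≤ C₂ * (ℓ + 2) * min (dist x y) (R * 49 ^ L)) ∧
      (∀ x y, dist x y ≤ R / (Fintype.card V * κ * 2 ^ L) → F x = F y) ∧
      (∀ x y, R ≤ dist x y → dist x y ≤ R * 7 ^ L →
        1 / (96 * C₀) * dist x y ≤ ‖F x - F y‖) := by
  classical
  have hP0 := toReal_pos_of_fact (p := p) hp
  have hP1 := one_le_toReal_of_fact (p := p) hp
  set P := p.toReal with hPdef
  have hC₀0 : 0 < C₀ := by linarith only [hC₀]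
  have hMr : (0:ℝ) < M := by exact_mod_cast hM0
  have hn1 : (1:ℝ) ≤ Fintype.card V := by exact_mod_cast (Fintype.card_pos : 0 < Fintype.card V)
  have hlog0 : 0 ≤ Real.log C₀ := Real.log_nonneg hC₀
  have hC₂0 : 0 < C₂ := by rw [hC₂]; (clear * - hlog0; positivity)
  let Pr : Type _ := {a : V × V // R ≤ dist a.1 a.2 ∧ dist a.1 a.2 ≤ R * 7 ^ L}
  let ι : Type _ := {F : V → PiLp p (fun _ : Fin (b + m) => ℝ) //
      (∀ x y, ‖F x - F y‖ ≤ C₂ * (ℓ + 2) * min (dist x y) (R * 49 ^ L)) ∧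
      (∀ x y, dist x y ≤ R / (Fintype.card V * κ * 2 ^ L) → F x = F y)}
  let Z : ι → Pr → ℝ := fun F a =>
    if dist a.1.1 a.1.2 ≤ 8 * ‖F.1 a.1.1 - F.1 a.1.2‖ then 1 else 0
  have hZ0 : ∀ F a, 0 ≤ Z F a := by intro F a; simp only [Z]; split_ifs <;> norm_num
  have hZ1 : ∀ F a, Z F a ≤ 1 := by intro F a; simp only [Z]; split_ifs <;> norm_num
  have key : ∀ w : Pr → ℝ, (∀ a, 0 ≤ w a) →
      ∃ F, 1 / (6 * C₀) * ∑ a, w a ≤ ∑ a, w a * Z F a := by
    intro w hw
    let w' : V × V → ℝ := fun a =>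
      if h : R ≤ dist a.1 a.2 ∧ dist a.1 a.2 ≤ R * 7 ^ L then w ⟨a, h⟩ else 0
    have hw' : ∀ a, 0 ≤ w' a := by
      intro a; simp only [w']; split_ifs
      · exact hw _
      · exact le_rfl
    have hws' : ∀ a, w' a ≠ 0 → R ≤ dist a.1 a.2 ∧ dist a.1 a.2 ≤ R * 7 ^ L := by
      intro a ha
      by_contra h
      exact ha (by simp only [w', h, dite_false])
    obtain ⟨F, hF1, hF2, hF3⟩ := round_map hp hN hb hm0 f hf C₀ hC₀ L hL0 hL R hR θ hθ K Q hK hQ
      hbK ℓ hℓ0 hℓ κ C₂ hκ hC₂ hm w' hw' hws'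
    refine ⟨⟨F, hF1, hF2⟩, ?_⟩
    have hconv : ∀ g : V × V → ℝ, (∀ a, ¬ (R ≤ dist a.1 a.2 ∧ dist a.1 a.2 ≤ R * 7 ^ L) → g a = 0) →
        ∑ a, g a = ∑ a : Pr, g a.1 := by
      intro g hg
      rw [← Finset.sum_subtype (Finset.univ.filter (fun a : V × V => R ≤ dist a.1 a.2 ∧
        dist a.1 a.2 ≤ R * 7 ^ L)) (fun x => by simp only [Finset.mem_filter, Finset.mem_univ,
                                                  true_and]) g]
      symm
      apply Finset.sum_subset (Finset.subset_univ _)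
      intro a _ ha
      apply hg
      simpa only [not_and, not_le, Finset.mem_filter, Finset.mem_univ, true_and] using ha
    have hval : ∀ a : Pr, w' a.1 = w a := by
      intro a
      simp only [w']
      rw [dif_pos a.2]
    have h1 : ∑ a, w' a = ∑ a : Pr, w a := by
      rw [hconv w' (fun a ha => by simp only [w', ha, dite_false])]
      exact Finset.sum_congr rfl fun a _ => hval a
    have h2 : ∑ a with dist a.1 a.2 ≤ 8 * ‖F a.1 - F a.2‖, w' a =
        ∑ a : Pr, w a * Z ⟨F, hF1, hF2⟩ a := by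
      rw [Finset.sum_filter]
      rw [hconv _ (fun a ha => by simp only [w', ha, dite_false, ite_self])]
      apply Finset.sum_congr rfl
      intro a _
      rw [hval a]
      simp only [Z, mul_ite, mul_one, mul_zero]
    rw [h1, h2] at hF3
    rw [one_div, inv_mul_le_iff₀ (by positivity)]
    exact hF3
  have hcard : 10 * Real.log (Fintype.card Pr) ≤ 1 / (6 * C₀) * M := by
    have h1 : Real.log (Fintype.card Pr) ≤ 2 * Real.log (Fintype.card V) := by
      rcases Nat.eq_zero_or_pos (Fintype.card Pr) with h | h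
      · rw [h]; simp only [Nat.cast_zero, Real.log_zero]
        have := Real.log_nonneg hn1
        (clear * -; positivity)
      · have h2 : (Fintype.card Pr : ℝ) ≤ (Fintype.card V : ℝ) ^ 2 := by
          have : Fintype.card Pr ≤ Fintype.card (V × V) := Fintype.card_subtype_le _
          rw [Fintype.card_prod] at this
          have h3 : (Fintype.card Pr : ℝ) ≤ ((Fintype.card V * Fintype.card V : ℕ) : ℝ) := by
            exact_mod_cast this
          rw [sq]; push_cast at h3; exact h3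
        calc Real.log (Fintype.card Pr) ≤ Real.log ((Fintype.card V : ℝ) ^ 2) :=
              Real.log_le_log (by exact_mod_cast h) h2
          _ = 2 * Real.log (Fintype.card V) := by rw [Real.log_pow]; norm_num
    rw [one_div, ← div_eq_inv_mul, le_div_iff₀ (by positivity)]
    nlinarith only [hC₀, hM, h1]
  obtain ⟨F, hF⟩ := boost Z hZ0 hZ1 (1 / (6 * C₀)) (by positivity) key M hcard
  have hMinv : (0:ℝ) ≤ (M:ℝ)⁻¹ := by positivity
  have hnorm : ∀ x y : V, ‖((M:ℝ)⁻¹ ^ (1 / P)) • stackL (fun t => (F t).1 x) -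
      ((M:ℝ)⁻¹ ^ (1 / P)) • stackL (fun t => (F t).1 y)‖ ^ P =
      (M:ℝ)⁻¹ * ∑ t, ‖(F t).1 x - (F t).1 y‖ ^ P := by
    intro x y
    rw [← smul_sub, norm_smul, Real.mul_rpow (norm_nonneg _) (norm_nonneg _),
      norm_stackL_sub_rpow hp, Real.norm_eq_abs, abs_of_nonneg (Real.rpow_nonneg hMinv _),
      ← Real.rpow_mul hMinv, one_div, inv_mul_cancel₀ hP0.ne', Real.rpow_one]
  refine ⟨fun x => ((M:ℝ)⁻¹ ^ (1 / P)) • stackL (fun t => (F t).1 x), ?_, ?_, ?_⟩
  · intro x y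
    have hr : 0 ≤ C₂ * (ℓ + 2) * min (dist x y) (R * 49 ^ L) :=
      mul_nonneg (by positivity) (le_min dist_nonneg (by positivity))
    rw [← Real.rpow_le_rpow_iff (norm_nonneg _) hr hP0, hnorm]
    rw [inv_mul_le_iff₀ hMr]
    calc ∑ t, ‖(F t).1 x - (F t).1 y‖ ^ P
        ≤ ∑ t : Fin M, (C₂ * (ℓ + 2) * min (dist x y) (R * 49 ^ L)) ^ P := by
          apply Finset.sum_le_sum
          intro t _
          exact Real.rpow_le_rpow (norm_nonneg _) ((F t).2.1 x y) hP0.le
      _ = _ := by simp only [Finset.sum_const, Finset.card_univ, Fintype.card_fin, nsmul_eq_mul]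
  · intro x y hxy
    have : (fun t => (F t).1 x) = (fun t => (F t).1 y) := by
      funext t
      exact (F t).2.2 x y hxy
    simp only [this]
  · intro x y h1 h2
    have hd0 : 0 < dist x y := by linarith only [hR, h1]
    have hFa := hF ⟨(x, y), h1, h2⟩
    rw [← Real.rpow_le_rpow_iff (by positivity) (norm_nonneg _) hP0, hnorm]
    have h3 : ∀ t, Z (F t) ⟨(x, y), h1, h2⟩ * (dist x y / 8) ^ P ≤ ‖(F t).1 x - (F t).1 y‖ ^ P := by
      intro t
      simp only [Z]
      split_ifs with h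
      · rw [one_mul]
        apply Real.rpow_le_rpow (by (clear * - hd0; positivity)) _ hP0.le
        linarith only [h]
      · rw [zero_mul]
        exact Real.rpow_nonneg (norm_nonneg _) _
    have h4 : 1 / (6 * C₀) / 2 * M * (dist x y / 8) ^ P ≤ ∑ t, ‖(F t).1 x - (F t).1 y‖ ^ P := by
      calc 1 / (6 * C₀) / 2 * M * (dist x y / 8) ^ P
          ≤ (∑ t, Z (F t) ⟨(x, y), h1, h2⟩) * (dist x y / 8) ^ P := by
            apply mul_le_mul_of_nonneg_right hFa (by positivity)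
        _ = ∑ t, Z (F t) ⟨(x, y), h1, h2⟩ * (dist x y / 8) ^ P := Finset.sum_mul _ _ _
        _ ≤ _ := Finset.sum_le_sum fun t _ => h3 t
    have h5 : (1 / (96 * C₀) * dist x y) ^ P ≤ 1 / (12 * C₀) * (dist x y / 8) ^ P := by
      have e1 : 1 / (96 * C₀) * dist x y = (1 / (12 * C₀)) * (dist x y / 8) := by
        field_simp; norm_num
      rw [e1, Real.mul_rpow (by positivity) (by positivity)]
      apply mul_le_mul_of_nonneg_right _ (by positivity)
      have h6 : 1 / (12 * C₀) ≤ 1 := by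
        rw [div_le_one (by positivity)]; linarith only [hC₀]
      calc (1 / (12 * C₀)) ^ P ≤ (1 / (12 * C₀)) ^ (1:ℝ) :=
            Real.rpow_le_rpow_of_exponent_ge (by positivity) h6 hP1
        _ = _ := Real.rpow_one _
    refine h5.trans ?_
    rw [← div_eq_inv_mul, le_div_iff₀ hMr]
    refine le_trans (le_of_eq ?_) h4
    field_simp
    norm_num

end Vale.Agent.P249
end
end

section

section
open MeasureTheory
open scoped ENNReal BigOperators
namespace Vale.Agent.P249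

/-! T12: gluing of blocks -/

lemma geom_le (Q : ℝ) (hQ : 2 ≤ Q) (N : ℕ) : ∑ i ∈ Finset.range N, Q ^ i ≤ Q ^ N := by
  induction N with
  | zero => simp only [Finset.range_zero, Finset.sum_empty, pow_zero, zero_le_one]
  | succ N ih =>
    rw [Finset.sum_range_succ, pow_succ]
    have : 0 ≤ Q ^ N := by positivity
    nlinarith only [hQ, ih, this]

/-- concatenation of `m` vectors of length `d` -/
noncomputable def concatL {p : ℝ≥0∞} {m d : ℕ} (g : Fin m → PiLp p (fun _ : Fin d => ℝ)) :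
    PiLp p (fun _ : Fin (m * d) => ℝ) :=
  WithLp.toLp p (fun t => g (finProdFinEquiv.symm t).1 (finProdFinEquiv.symm t).2)

lemma concatL_sub {p : ℝ≥0∞} {m d : ℕ} (g g' : Fin m → PiLp p (fun _ : Fin d => ℝ)) :
    concatL g - concatL g' = concatL (fun j => g j - g' j) := by
  ext t
  simp only [concatL, finProdFinEquiv_symm_apply, PiLp.sub_apply]

lemma norm_concatL_rpow {p : ℝ≥0∞} [Fact (1 ≤ p)] (hp : p ≠ ∞) {m d : ℕ}
    (g : Fin m → PiLp p (fun _ : Fin d => ℝ)) :
    ‖concatL g‖ ^ p.toReal = ∑ j, ‖g j‖ ^ p.toReal := by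
  have hp1 : 1 ≤ p := Fact.out
  have hp0 : 0 < p.toReal := ENNReal.toReal_pos (by
    intro h; rw [h] at hp1; simp at hp1) hp
  have hrp : ∀ {n : ℕ} (f : PiLp p (fun _ : Fin n => ℝ)),
      ‖f‖ ^ p.toReal = ∑ i, ‖f i‖ ^ p.toReal := by
    intro n f
    rw [PiLp.norm_eq_sum hp0, ← Real.rpow_mul (by positivity), one_div_mul_cancel hp0.ne',
      Real.rpow_one]
  rw [hrp]
  simp_rw [hrp]
  rw [← Fintype.sum_prod_type', ← finProdFinEquiv.symm.sum_comp]
  rfl

lemma norm_le_norm_concatL {p : ℝ≥0∞} [Fact (1 ≤ p)] (hp : p ≠ ∞) {m d : ℕ}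
    (g : Fin m → PiLp p (fun _ : Fin d => ℝ)) (j : Fin m) : ‖g j‖ ≤ ‖concatL g‖ := by
  have hp1 : 1 ≤ p := Fact.out
  have hp0 : 0 < p.toReal := ENNReal.toReal_pos (by
    intro h; rw [h] at hp1; simp at hp1) hp
  rw [← Real.rpow_le_rpow_iff (norm_nonneg _) (norm_nonneg _) hp0, norm_concatL_rpow hp]
  exact Finset.single_le_sum (f := fun j => ‖g j‖ ^ p.toReal)
    (fun j _ => by positivity) (Finset.mem_univ j)

lemma norm_concatL_le {p : ℝ≥0∞} [Fact (1 ≤ p)] (hp : p ≠ ∞) {m d : ℕ} (hm : 1 ≤ m)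
    (g : Fin m → PiLp p (fun _ : Fin d => ℝ)) (B : ℝ) (hB : 0 ≤ B) (h : ∀ j, ‖g j‖ ≤ B) :
    ‖concatL g‖ ≤ m * B := by
  have hp1 : 1 ≤ p := Fact.out
  have hp0 : 0 < p.toReal := ENNReal.toReal_pos (by
    intro h; rw [h] at hp1; simp at hp1) hp
  have hp1' : 1 ≤ p.toReal := by
    rw [← ENNReal.toReal_one]
    exact ENNReal.toReal_mono hp hp1
  rw [← Real.rpow_le_rpow_iff (norm_nonneg _) (by positivity) hp0, norm_concatL_rpow hp]
  calc ∑ j, ‖g j‖ ^ p.toReal ≤ ∑ _j : Fin m, B ^ p.toReal := by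
        apply Finset.sum_le_sum
        intro j _
        exact Real.rpow_le_rpow (norm_nonneg _) (h j) hp0.le
    _ = m * B ^ p.toReal := by simp only [Finset.sum_const, Finset.card_univ, Fintype.card_fin,
                                 nsmul_eq_mul]
    _ ≤ (m : ℝ) ^ p.toReal * B ^ p.toReal := by
        gcongr
        have hm' : (1 : ℝ) ≤ m := by exact_mod_cast hm
        calc (m : ℝ) = (m : ℝ) ^ (1 : ℝ) := (Real.rpow_one _).symm
          _ ≤ (m : ℝ) ^ p.toReal := Real.rpow_le_rpow_of_exponent_le hm' hp1'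
    _ = (m * B) ^ p.toReal := by rw [Real.mul_rpow (by positivity) hB]

/-- tail estimate -/
lemma tail_le (C₁ R₀ Q : ℝ) (hC₁ : 0 ≤ C₁) (hR₀ : 0 ≤ R₀) (hQ : 2 ≤ Q) (k n : ℕ)
    (T : Finset ℕ) (hT : ∀ i ∈ T, i + (k + 4) ≤ n) (a : ℕ → ℝ)
    (ha : ∀ i ∈ T, a i ≤ C₁ * (R₀ * Q ^ i * Q ^ 2)) :
    (∑ i ∈ T, a i) * Q ^ (k + 1) ≤ C₁ * (R₀ * Q ^ n) := by
  have hQ0 : 0 < Q := by linarith only [hQ]
  rcases T.eq_empty_or_nonempty with h0 | ⟨i1, hi1⟩
  · rw [h0]; simp only [Finset.sum_empty, zero_mul, ge_iff_le]; (clear * - hC₁ hR₀ hQ; positivity)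
  · have hn : k + 4 ≤ n := by have := hT i1 hi1; omega
    obtain ⟨N, rfl⟩ : ∃ N, n = N + (k + 4) := ⟨n - (k + 4), by omega⟩
    have hsub : T ⊆ Finset.range (N + 1) := by
      intro i hi
      have := hT i hi
      rw [Finset.mem_range]; omega
    calc (∑ i ∈ T, a i) * Q ^ (k + 1) ≤ (∑ i ∈ T, C₁ * (R₀ * Q ^ i * Q ^ 2)) * Q ^ (k + 1) := by
          gcongr with i hi
          exact ha i hi
      _ = (C₁ * R₀ * Q ^ 2 * ∑ i ∈ T, Q ^ i) * Q ^ (k + 1) := by
          rw [Finset.mul_sum]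
          congr 1
          apply Finset.sum_congr rfl
          intro i _; ring
      _ ≤ (C₁ * R₀ * Q ^ 2 * Q ^ (N + 1)) * Q ^ (k + 1) := by
          gcongr
          exact le_trans (Finset.sum_le_sum_of_subset_of_nonneg hsub
            (fun i _ _ => by positivity)) (geom_le Q hQ (N + 1))
      _ = C₁ * (R₀ * Q ^ (N + (k + 4))) := by ring

/-- sum over one residue class, away from the main scale -/
lemma rest_le (C₁ c₁ R₀ Q ρ : ℝ) (hC₁ : 1 ≤ C₁) (hc₁ : 0 < c₁) (hR₀ : 0 < R₀) (hQ : 2 ≤ Q)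
    (hQc : 16 * C₁ ≤ c₁ * Q) (hρ : 0 < ρ) (k i0 : ℕ) (hi0 : R₀ * Q ^ i0 ≤ ρ)
    (hi0' : ρ < R₀ * Q ^ (i0 + 1)) (S : Finset ℕ)
    (hS : ∀ i ∈ S, i ≠ i0 ∧ i % (k + 4) = i0 % (k + 4)) (a : ℕ → ℝ) (ha0 : ∀ i, 0 ≤ a i)
    (ha1 : ∀ i, a i ≤ C₁ * min ρ (R₀ * Q ^ i * Q ^ 2))
    (ha2 : ∀ i, ρ * Q ^ k ≤ R₀ * Q ^ i → a i = 0) :
    ∑ i ∈ S, a i ≤ c₁ / 2 * ρ := by
  have hQ0 : 0 < Q := by linarith only [hQ]
  have hbig : ∀ i ∈ S, i0 < i → a i = 0 := by
    intro i hi hlt
    have h1 : i0 + (k + 4) ≤ i := by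
      have h2 := (hS i hi).2
      have h3 : (i0 : ℕ) ≡ i [MOD (k + 4)] := h2.symm
      have h4 := (Nat.modEq_iff_dvd' hlt.le).mp h3
      have h5 := Nat.le_of_dvd (by omega) h4
      omega
    apply ha2
    have h6 : Q ^ (i0 + (k + 4)) ≤ Q ^ i := pow_le_pow_right₀ (by linarith only [hQ]) h1
    have h7 : Q ^ (k + 1) ≤ Q ^ (k + 4) := pow_le_pow_right₀ (by linarith only [hQ]) (by omega)
    calc ρ * Q ^ k ≤ (R₀ * Q ^ (i0 + 1)) * Q ^ k := by gcongr
      _ = R₀ * (Q ^ i0 * Q ^ (k + 1)) := by ring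
      _ ≤ R₀ * (Q ^ i0 * Q ^ (k + 4)) := by (clear * - hR₀ hQ h7; gcongr)
      _ = R₀ * Q ^ (i0 + (k + 4)) := by ring
      _ ≤ R₀ * Q ^ i := by (clear * - hR₀ h6; gcongr)
  have hsplit : ∑ i ∈ S, a i = ∑ i ∈ S.filter (fun i => i < i0), a i := by
    rw [Finset.sum_filter]
    apply Finset.sum_congr rfl
    intro i hi
    split_ifs with h
    · rfl
    · exact hbig i hi (lt_of_le_of_ne (not_lt.mp h) (Ne.symm (hS i hi).1))
  rw [hsplit]
  have ht := tail_le C₁ R₀ Q (by linarith only [hC₁]) hR₀.le hQ k i0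
    (S.filter (fun i => i < i0)) (by
      intro i hi
      rw [Finset.mem_filter] at hi
      have h2 := (hS i hi.1).2
      have h3 : (i : ℕ) ≡ i0 [MOD (k + 4)] := h2
      have h4 := (Nat.modEq_iff_dvd' hi.2.le).mp h3
      have h5 := Nat.le_of_dvd (by omega) h4
      omega) a (by
      intro i _
      refine le_trans (ha1 i) ?_
      gcongr
      exact min_le_right _ _)
  have hQk : Q ≤ Q ^ (k + 1) := by
    calc Q = Q ^ 1 := (pow_one Q).symm
      _ ≤ Q ^ (k + 1) := pow_le_pow_right₀ (by linarith only [hQ]) (by omega)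
  set s := ∑ i ∈ S.filter (fun i => i < i0), a i with hs
  have hs0 : 0 ≤ s := Finset.sum_nonneg fun i _ => ha0 i
  have h1 : s * Q ≤ C₁ * ρ := by
    calc s * Q ≤ s * Q ^ (k + 1) := by (clear * - hQk hs0; gcongr)
      _ ≤ C₁ * (R₀ * Q ^ i0) := ht
      _ ≤ C₁ * ρ := by gcongr
  have h2 : s * Q * 16 ≤ c₁ * Q * ρ := by nlinarith only [hQc, hρ, h1]
  have h3 : s * 16 ≤ c₁ * ρ := by
    have : (s * 16) * Q ≤ (c₁ * ρ) * Q := by nlinarith only [h2]
    exact le_of_mul_le_mul_right this hQ0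
  nlinarith only [hs0, h3]

/-- sum over one residue class -/
lemma class_le (C₁ R₀ Q ρ : ℝ) (hC₁ : 1 ≤ C₁) (hR₀ : 0 < R₀) (hQ : 2 ≤ Q)
    (hρ : 0 < ρ) (k j : ℕ) (T : Finset ℕ)
    (hT : ∀ i ∈ T, i % (k + 4) = j) (a : ℕ → ℝ) (ha0 : ∀ i, 0 ≤ a i)
    (ha1 : ∀ i, a i ≤ C₁ * min ρ (R₀ * Q ^ i * Q ^ 2))
    (ha2 : ∀ i, ρ * Q ^ k ≤ R₀ * Q ^ i → a i = 0) :
    ∑ i ∈ T, a i ≤ 2 * C₁ * ρ := by
  have hQ0 : 0 < Q := by linarith only [hQ]
  set S := T.filter (fun i => R₀ * Q ^ i < ρ * Q ^ k) with hS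
  have hsplit : ∑ i ∈ T, a i = ∑ i ∈ S, a i := by
    rw [hS, Finset.sum_filter]
    apply Finset.sum_congr rfl
    intro i _
    split_ifs with h
    · rfl
    · exact ha2 i (not_lt.mp h)
  rw [hsplit]
  rcases S.eq_empty_or_nonempty with hSe | hSne
  · rw [hSe]; simp only [Finset.sum_empty, ge_iff_le]; positivity
  · set i1 := S.max' hSne with hi1
    have hmem : i1 ∈ S := S.max'_mem hSne
    rw [← Finset.add_sum_erase _ _ hmem]
    have hmod : ∀ i ∈ S, i % (k + 4) = j := by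
      intro i hi
      rw [hS, Finset.mem_filter] at hi
      exact hT i hi.1
    have ht := tail_le C₁ R₀ Q (by linarith only [hC₁]) hR₀.le hQ k i1 (S.erase i1) (by
        intro i hi
        rw [Finset.mem_erase] at hi
        have hle : i ≤ i1 := S.le_max' i hi.2
        have hlt : i < i1 := lt_of_le_of_ne hle hi.1
        have h3 : (i : ℕ) ≡ i1 [MOD (k + 4)] := by
          rw [Nat.ModEq, hmod i hi.2, hmod i1 hmem]
        have h4 := (Nat.modEq_iff_dvd' hlt.le).mp h3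
        have h5 := Nat.le_of_dvd (by omega) h4
        omega) a (by
        intro i _
        refine le_trans (ha1 i) ?_
        gcongr
        exact min_le_right _ _)
    have hfirst : a i1 ≤ C₁ * ρ := by
      refine le_trans (ha1 i1) ?_
      gcongr
      exact min_le_left _ _
    have hlt : R₀ * Q ^ i1 < ρ * Q ^ k := by
      rw [hS, Finset.mem_filter] at hmem
      exact hmem.2
    set s := ∑ i ∈ S.erase i1, a i with hs
    have h1 : s * Q ^ (k + 1) ≤ C₁ * (ρ * Q ^ k) := le_trans ht (by (clear * - hC₁ hlt; gcongr))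
    have h2 : s * Q ≤ C₁ * ρ := by
      have : (s * Q) * Q ^ k ≤ (C₁ * ρ) * Q ^ k := by
        calc (s * Q) * Q ^ k = s * Q ^ (k + 1) := by ring
          _ ≤ C₁ * (ρ * Q ^ k) := h1
          _ = (C₁ * ρ) * Q ^ k := by ring
      exact le_of_mul_le_mul_right this (by positivity)
    have hs0 : 0 ≤ s := Finset.sum_nonneg fun i _ => ha0 i
    have h3 : s ≤ C₁ * ρ := by nlinarith only [hC₁, hQ, hρ, h2, hs0]
    linarith only [hfirst, h3]

theorem glue (p : ℝ≥0∞) [Fact (1 ≤ p)] (hp : p ≠ ∞) (C₁ c₁ : ℝ) (hC₁ : 1 ≤ C₁) (hc₁ : 0 < c₁)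
    (Q : ℝ) (hQ : 2 ≤ Q) (hQc : 16 * C₁ ≤ c₁ * Q) (k : ℕ) {V : Type*} [Fintype V] [PseudoMetricSpace V]
    (d : ℕ)
    (hF : ∀ R : ℝ, 0 < R → ∃ F : V → PiLp p (fun _ : Fin d => ℝ),
      (∀ x y, ‖F x - F y‖ ≤ C₁ * min (dist x y) (R * Q ^ 2)) ∧
      (∀ x y, dist x y * Q ^ k ≤ R → F x = F y) ∧
      (∀ x y, R ≤ dist x y → dist x y ≤ R * Q → c₁ * dist x y ≤ ‖F x - F y‖)) :
    ∃ F : V → PiLp p (fun _ : Fin ((k + 4) * d) => ℝ),
      ∀ x y, c₁ / 2 * dist x y ≤ ‖F x - F y‖ ∧ ‖F x - F y‖ ≤ 2 * C₁ * (k + 4) * dist x y := by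
  classical
  have hQ0 : 0 < Q := by linarith only [hQ]
  by_cases hex : ∃ x y : V, 0 < dist x y
  swap
  · push Not at hex
    refine ⟨fun _ => 0, fun x y => ?_⟩
    have : dist x y = 0 := le_antisymm (hex x y) dist_nonneg
    rw [this]; simp
  -- the smallest positive distance
  obtain ⟨x0, y0, h0⟩ := hex
  set D : Finset (V × V) := Finset.univ.filter (fun z => 0 < dist z.1 z.2) with hD
  have hDne : D.Nonempty := ⟨(x0, y0), by simp only [hD, Finset.mem_filter, Finset.mem_univ, h0,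
                                            and_self]⟩
  obtain ⟨z0, hz0, hmin⟩ := D.exists_min_image (fun z => dist z.1 z.2) hDne
  set R₀ : ℝ := dist z0.1 z0.2 with hR₀
  have hR₀pos : 0 < R₀ := by
    have := (Finset.mem_filter.mp hz0).2
    exact this
  have hmin' : ∀ x y : V, 0 < dist x y → R₀ ≤ dist x y := by
    intro x y hxy
    exact hmin (x, y) (by simp [hD, hxy])
  -- a large scale
  obtain ⟨z1, hz1, hmax⟩ := D.exists_max_image (fun z => dist z.1 z.2) hDne
  obtain ⟨I, hI⟩ := pow_unbounded_of_one_lt (dist z1.1 z1.2 / R₀) (by linarith only [hQ] : (1 : ℝ) < Q)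
  have hI' : ∀ x y : V, 0 < dist x y → dist x y < R₀ * Q ^ I := by
    intro x y hxy
    have h1 := hmax (x, y) (by simp [hD, hxy])
    rw [div_lt_iff₀ hR₀pos] at hI
    calc dist x y ≤ dist z1.1 z1.2 := h1
      _ < Q ^ I * R₀ := hI
      _ = R₀ * Q ^ I := mul_comm _ _
  -- the maps at each scale
  have hRi : ∀ i : ℕ, 0 < R₀ * Q ^ i := fun i => by positivity
  choose f hf1 hf2 hf3 using fun i : ℕ => hF (R₀ * Q ^ i) (hRi i)
  set idx : Fin (k + 4) → Finset ℕ := fun j =>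
    (Finset.range (I + 1)).filter (fun i => i % (k + 4) = (j : ℕ)) with hidx
  refine ⟨fun x => concatL (fun j => ∑ i ∈ idx j, f i x), fun x y => ?_⟩
  have hsub : concatL (fun j => ∑ i ∈ idx j, f i x) - concatL (fun j => ∑ i ∈ idx j, f i y) =
      concatL (p := p) (fun j => ∑ i ∈ idx j, (f i x - f i y)) := by
    rw [concatL_sub]
    congr 1
    ext1 j
    rw [Finset.sum_sub_distrib]
  rw [hsub]
  have hvan : ∀ i, dist x y * Q ^ k ≤ R₀ * Q ^ i → ‖f i x - f i y‖ = 0 := by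
    intro i hi
    rw [norm_eq_zero, sub_eq_zero]
    exact hf2 i x y hi
  have hnn : ∀ i, 0 ≤ ‖f i x - f i y‖ := fun i => norm_nonneg _
  have hup : ∀ i, ‖f i x - f i y‖ ≤ C₁ * min (dist x y) (R₀ * Q ^ i * Q ^ 2) :=
    fun i => hf1 i x y
  rcases (dist_nonneg (x := x) (y := y)).eq_or_lt with hz | hpos
  · -- distance zero
    have hzero : ∀ i, f i x - f i y = 0 := by
      intro i
      rw [← norm_eq_zero]
      apply hvan i
      rw [← hz, zero_mul]
      exact (hRi i).le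
    have : concatL (p := p) (fun j => ∑ i ∈ idx j, (f i x - f i y)) = 0 := by
      simp_rw [hzero]
      ext t
      simp [concatL]
    rw [this, ← hz]
    simp
  · have hm4 : 1 ≤ k + 4 := by omega
    constructor
    · -- lower bound
      obtain ⟨i0, hi0, hi0'⟩ := exists_nat_pow_near (x := dist x y / R₀) (y := Q)
        (by rw [le_div_iff₀ hR₀pos, one_mul]; exact hmin' x y hpos) (by linarith only [hQ])
      rw [le_div_iff₀ hR₀pos, mul_comm] at hi0
      rw [div_lt_iff₀ hR₀pos, mul_comm] at hi0'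
      have hi0I : i0 < I := by
        by_contra hcon
        push Not at hcon
        have h1 : Q ^ I ≤ Q ^ i0 := pow_le_pow_right₀ (by linarith only [hQ]) hcon
        have h2 := hI' x y hpos
        have h3 : R₀ * Q ^ I ≤ R₀ * Q ^ i0 := by (clear * - hR₀pos h1; gcongr)
        linarith only [hi0, h2, h3]
      have hmlt : i0 % (k + 4) < k + 4 := Nat.mod_lt _ (by omega)
      refine le_trans ?_ (norm_le_norm_concatL hp _ ⟨i0 % (k + 4), hmlt⟩)
      have hmem : i0 ∈ idx ⟨i0 % (k + 4), hmlt⟩ := by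
        simp only [hidx, Finset.mem_filter, Finset.mem_range]
        exact ⟨by omega, trivial⟩
      rw [← Finset.add_sum_erase _ _ hmem]
      have hmain : c₁ * dist x y ≤ ‖f i0 x - f i0 y‖ := by
        apply hf3 i0 x y hi0
        rw [mul_assoc, ← pow_succ]
        exact hi0'.le
      have hrest : ‖∑ i ∈ (idx ⟨i0 % (k + 4), hmlt⟩).erase i0, (f i x - f i y)‖ ≤
          c₁ / 2 * dist x y := by
        refine le_trans (norm_sum_le _ _) ?_
        apply rest_le C₁ c₁ R₀ Q (dist x y) hC₁ hc₁ hR₀pos hQ hQc hpos k i0 hi0 hi0' _ _ _ hnn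
          hup hvan
        intro i hi
        rw [Finset.mem_erase] at hi
        refine ⟨hi.1, ?_⟩
        have := hi.2
        simp only [hidx, Finset.mem_filter] at this
        exact this.2
      have htri := norm_sub_le ((f i0 x - f i0 y) +
        ∑ i ∈ (idx ⟨i0 % (k + 4), hmlt⟩).erase i0, (f i x - f i y))
        (∑ i ∈ (idx ⟨i0 % (k + 4), hmlt⟩).erase i0, (f i x - f i y))
      rw [add_sub_cancel_right] at htri
      linarith
    · -- upper bound
      have hub : ∀ j, ‖∑ i ∈ idx j, (f i x - f i y)‖ ≤ 2 * C₁ * dist x y := by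
        intro j
        refine le_trans (norm_sum_le _ _) ?_
        apply class_le C₁ R₀ Q (dist x y) hC₁ hR₀pos hQ hpos k j (idx j) _ _ hnn hup hvan
        intro i hi
        simp only [hidx, Finset.mem_filter] at hi
        exact hi.2
      refine le_trans (norm_concatL_le hp hm4 _ (2 * C₁ * dist x y) (by (clear * - hC₁ hpos; positivity)) hub) ?_
      push_cast
      apply le_of_eq
      ring

end Vale.Agent.P249
end
end

section

section

open scoped BigOperators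

namespace Vale.Agent.P249

theorem mul_pow_le_pow {x y : ℝ} (hx : 1 ≤ x) (hy : 0 ≤ y) {L : ℕ} (hL : 0 < L) :
    x * y ^ L ≤ (x * y) ^ L := by
  rw [mul_pow]
  apply mul_le_mul_of_nonneg_right _ (by positivity)
  calc x = x ^ 1 := (pow_one x).symm
    _ ≤ x ^ L := pow_le_pow_right₀ hx hL

/-- the hash parameters -/
theorem num_hash (g A₁ q C₀ s n : ℝ) (hg1 : 1 ≤ g) (hA₁ : 8 ≤ A₁) (hq : 1 ≤ q) (hC₀ : 2 ≤ C₀)
    (L : ℕ) (hL0 : 0 < L) (hs1 : 1 ≤ s) (hsC : s ≤ C₀ ^ (2 * L)) (hn1 : 1 ≤ n)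
    (hnC : 2 * n ≤ C₀ ^ L) (ℓ : ℕ)
    (hℓ : (2 * Real.exp 1 * (2 * A₁)) * (7 * g * C₀ ^ 4) < 7 ^ ℓ) :
    ∃ b : ℕ, 0 < b ∧ A₁ * (7 * g) ^ L * s ≤ b ∧ (b:ℝ) ≤ (2 * A₁) * ((7 * g) ^ L * s) ∧
      2 * Real.exp 1 * (n ^ 2 + 1) * b ≤ (q * 7 ^ L) ^ ℓ := by
  have he : (1:ℝ) ≤ Real.exp 1 := by
    have := Real.add_one_le_exp (1:ℝ)
    linarith only [this]
  have hC₀0 : 0 < C₀ := by linarith only [hC₀]
  have hbig1 : 1 ≤ 2 * Real.exp 1 * (2 * A₁) := by nlinarith only [hA₁, he]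
  have h7g : 1 ≤ (7 * g) ^ L * s := by
    have : 1 ≤ (7 * g) ^ L := one_le_pow₀ (by linarith only [hg1])
    nlinarith only [hs1, this]
  set X : ℝ := A₁ * (7 * g) ^ L * s with hX
  have hX1 : 1 ≤ X := by
    rw [hX, mul_assoc]; nlinarith only [hA₁, h7g]
  have hb2 : ((⌈X⌉₊ : ℕ):ℝ) ≤ 2 * X := by
    have := Nat.ceil_lt_add_one (show 0 ≤ X by linarith only [hX1])
    linarith only [hX1, this]
  refine ⟨⌈X⌉₊, ?_, Nat.le_ceil X, ?_, ?_⟩
  · exact Nat.ceil_pos.2 (by linarith only [hX1])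
  · refine hb2.trans (le_of_eq ?_)
    rw [hX]; ring
  · have h1 : n ^ 2 + 1 ≤ C₀ ^ (2 * L) := by
      have : (2 * n) ^ 2 ≤ (C₀ ^ L) ^ 2 := pow_le_pow_left₀ (by positivity) hnC 2
      rw [← pow_mul, mul_comm L 2] at this
      nlinarith only [hs1, hsC, hn1, this]
    have h2 : ((⌈X⌉₊ : ℕ):ℝ) ≤ 2 * (A₁ * (7 * g) ^ L * C₀ ^ (2 * L)) := by
      refine hb2.trans ?_
      rw [hX]
      (clear * - hg1 hA₁ hsC; gcongr)
    calc 2 * Real.exp 1 * (n ^ 2 + 1) * (⌈X⌉₊ : ℕ)
        ≤ 2 * Real.exp 1 * C₀ ^ (2 * L) * (2 * (A₁ * (7 * g) ^ L * C₀ ^ (2 * L))) := by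
          (clear * - hg1 hA₁ hC₀ hs1 h1 h2; gcongr)
      _ = (2 * Real.exp 1 * (2 * A₁)) * (7 * g * C₀ ^ 4) ^ L := by
          rw [mul_pow (7 * g) (C₀ ^ 4) L, ← pow_mul C₀ 4 L,
            show 4 * L = 2 * L + 2 * L by ring, pow_add]; ring
      _ ≤ ((2 * Real.exp 1 * (2 * A₁)) * (7 * g * C₀ ^ 4)) ^ L :=
          mul_pow_le_pow hbig1 (by positivity) hL0
      _ ≤ (7 ^ ℓ) ^ L := by gcongr
      _ = (7 ^ L) ^ ℓ := by rw [← pow_mul, ← pow_mul, mul_comm]
      _ ≤ (q * 7 ^ L) ^ ℓ := by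
          apply pow_le_pow_left₀ (by positivity)
          have h7 : (0:ℝ) < 7 ^ L := by positivity
          nlinarith only [hq, h7]

/-- the sampling parameters -/
theorem num_sample (P : ℝ) (hP : 1 ≤ P) (C₀ κ C₂ s t n N : ℝ) (hC₀ : 2 ≤ C₀)
    (hκ : 1 ≤ κ) (hC₂ : 1 ≤ C₂) (L : ℕ) (hs1 : 1 ≤ s) (hss : s * s = N)
    (ht0 : 0 < t) (htP : t ^ P = s) (hn1 : 1 ≤ n) (hnC : 2 * n ≤ C₀ ^ L) :
    ∃ m : ℕ, 0 < m ∧
      4 * (N * (16 * t⁻¹ * κ * 2 ^ L) ^ P) * C₂ ^ P * Real.log (2 * n ^ 2 + 1) ≤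
            ((8 ^ P)⁻¹) ^ 2 * m ∧
      (m:ℝ) ≤ (4 * (16 * κ) ^ P * C₂ ^ P * (8 ^ P) ^ 2 * (2 * Real.log C₀) + 2) *
        ((7 * 49 ^ P) ^ L * s) := by
  have hP0 : 0 < P := by linarith only [hP]
  have hκ0 : 0 < κ := by linarith
  have hC₂0 : 0 < C₂ := by linarith
  have hlogC : 0 < Real.log C₀ := Real.log_pos (by linarith)
  have hs0 : 0 < s := by linarith
  set E : ℝ := 4 * (16 * κ) ^ P * C₂ ^ P * (8 ^ P) ^ 2 * (2 * Real.log C₀) with hE
  have hE0 : 0 ≤ E := by positivity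
  set Y : ℝ := E * L * (2 ^ P) ^ L * s with hY
  have hY0 : 0 ≤ Y := by (clear * - hκ hC₂ hs1 hlogC; positivity)
  have hm1 : Y ≤ ((⌈Y⌉₊ + 1 : ℕ) : ℝ) := by
    push_cast
    have := Nat.le_ceil Y
    linarith only [this]
  have hm2 : ((⌈Y⌉₊ + 1 : ℕ) : ℝ) ≤ Y + 2 := by
    push_cast
    have := Nat.ceil_lt_add_one hY0
    linarith only [this]
  have hθ : (t⁻¹:ℝ) ^ P = s⁻¹ := by rw [Real.inv_rpow ht0.le, htP]
  have hLpow : (L:ℝ) ≤ 2 ^ L := by
    have : L < 2 ^ L := Nat.lt_two_pow_self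
    exact_mod_cast this.le
  refine ⟨⌈Y⌉₊ + 1, by omega, ?_, ?_⟩
  · have hlog : Real.log (2 * n ^ 2 + 1) ≤ 2 * L * Real.log C₀ := by
      have h1 : (2 * n ^ 2 + 1) ≤ C₀ ^ (2 * L) := by
        have : (2 * n) ^ 2 ≤ (C₀ ^ L) ^ 2 := pow_le_pow_left₀ (by positivity) hnC 2
        rw [← pow_mul, mul_comm L 2] at this
        nlinarith only [hn1, this]
      calc Real.log (2 * n ^ 2 + 1) ≤ Real.log (C₀ ^ (2 * L)) :=
            Real.log_le_log (by positivity) h1
        _ = 2 * L * Real.log C₀ := by rw [Real.log_pow]; push_cast; ring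
    have hθP : N * (16 * t⁻¹ * κ * 2 ^ L) ^ P = s * ((16 * κ) ^ P * (2 ^ P) ^ L) := by
      rw [show 16 * t⁻¹ * κ * 2 ^ L = (16 * κ) * 2 ^ L * t⁻¹ by ring,
        Real.mul_rpow (by positivity) (by positivity), hθ,
        Real.mul_rpow (by positivity) (by positivity),
        ← Real.rpow_pow_comm (by norm_num : (0:ℝ) ≤ 2) P L, ← hss]
      field_simp
    rw [hθP]
    have h8 : (0:ℝ) < 8 ^ P := by positivity
    calc 4 * (s * ((16 * κ) ^ P * (2 ^ P) ^ L)) * C₂ ^ P * Real.log (2 * n ^ 2 + 1)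
        ≤ 4 * (s * ((16 * κ) ^ P * (2 ^ P) ^ L)) * C₂ ^ P * (2 * L * Real.log C₀) := by (clear * - hκ hC₂ hs1 hlog; gcongr)
      _ = ((8 ^ P)⁻¹) ^ 2 * Y := by rw [hY, hE]; field_simp
      _ ≤ ((8 ^ P)⁻¹) ^ 2 * ((⌈Y⌉₊ + 1 : ℕ) : ℝ) := by (clear * - hm1; gcongr)
  · have h22 : (2:ℝ) * 2 ^ P ≤ 7 * 49 ^ P := by
      have : (2:ℝ) ^ P ≤ 49 ^ P := Real.rpow_le_rpow (by norm_num) (by norm_num) hP0.le
      have h2 : (0:ℝ) < 2 ^ P := by positivity
      linarith only [this, h2]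
    have hg1 : (1:ℝ) ≤ 49 ^ P := Real.one_le_rpow (by norm_num) hP0.le
    have h7g : 1 ≤ (7 * 49 ^ P) ^ L * s := by
      have : (1:ℝ) ≤ (7 * 49 ^ P) ^ L := one_le_pow₀ (by linarith only [hg1])
      nlinarith only [hs1, this]
    have h1 : Y ≤ E * ((7 * 49 ^ P) ^ L * s) := by
      rw [hY]
      calc E * L * (2 ^ P) ^ L * s ≤ E * 2 ^ L * (2 ^ P) ^ L * s := by (clear * - hκ hC₂ hs1 hlogC hLpow; gcongr)
        _ = E * ((2 * 2 ^ P) ^ L * s) := by rw [mul_pow]; ring
        _ ≤ E * ((7 * 49 ^ P) ^ L * s) := by (clear * - hκ hC₂ hs1 hlogC h22; gcongr)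
    linarith only [hm2, h7g, h1]

theorem num_M (C₀ n : ℝ) (hC₀ : 2 ≤ C₀) (L : ℕ) (hL0 : 0 < L) (hn1 : 1 ≤ n)
    (hnC : 2 * n ≤ C₀ ^ L) :
    ∃ M : ℕ, 0 < M ∧ 120 * C₀ * Real.log n ≤ M ∧
      (M:ℝ) ≤ (120 * C₀ * Real.log C₀ + 2) * 2 ^ L := by
  have hlogC : 0 < Real.log C₀ := Real.log_pos (by linarith only [hC₀])
  have hL1 : (1:ℝ) ≤ L := by exact_mod_cast hL0
  have hLpow : (L:ℝ) ≤ 2 ^ L := by
    have : L < 2 ^ L := Nat.lt_two_pow_self
    exact_mod_cast this.le
  set W : ℝ := 120 * C₀ * (L * Real.log C₀) with hW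
  have hW0 : 0 ≤ W := by positivity
  have hM1 : W ≤ ((⌈W⌉₊ + 1 : ℕ) : ℝ) := by
    push_cast
    have := Nat.le_ceil W
    linarith only [this]
  have hM2 : ((⌈W⌉₊ + 1 : ℕ) : ℝ) ≤ W + 2 := by
    push_cast
    have := Nat.ceil_lt_add_one hW0
    linarith only [this]
  refine ⟨⌈W⌉₊ + 1, by omega, ?_, ?_⟩
  · have : Real.log n ≤ L * Real.log C₀ := by
      rw [← Real.log_pow]
      exact Real.log_le_log (by linarith only [hn1]) (by linarith only [hn1, hnC])
    calc 120 * C₀ * Real.log n ≤ W := by rw [hW]; gcongr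
      _ ≤ _ := hM1
  · calc ((⌈W⌉₊ + 1 : ℕ) : ℝ) ≤ W + 2 := hM2
      _ ≤ (120 * C₀ * Real.log C₀ + 2) * L := by
        have e : W = (120 * C₀ * Real.log C₀) * L := by rw [hW]; ring
        rw [e]; linarith only [hL1]
      _ ≤ _ := by gcongr

end Vale.Agent.P249
end
end

section

section

open MeasureTheory
open scoped ENNReal BigOperators

namespace Vale.Agent.P249

variable {p : ℝ≥0∞}

/-- block maps with explicit dimension bound -/
theorem block_dim [Fact (1 ≤ p)] (hp : p ≠ ∞) {V : Type*} [Fintype V] [Nonempty V]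
    [PseudoMetricSpace V] {N : ℕ} (hN : 0 < N)
    (f : V → PiLp p (fun _ : Fin N => ℝ)) (hf : ∀ x y, ‖f x - f y‖ = dist x y)
    (C₀ : ℝ) (hC₀ : 2 ≤ C₀) (L : ℕ) (hL0 : 0 < L) (hNC : (N : ℝ) ≤ C₀ ^ (4 * L))
    (hnC : 2 * (Fintype.card V : ℝ) ≤ C₀ ^ L) (ℓ : ℕ) (hℓ0 : 0 < ℓ) (A₁ : ℝ)
    (hA₁ : A₁ = 8 * 4 ^ p.toReal * 40 ^ p.toReal)
    (hℓ : (2 * Real.exp 1 * (2 * A₁)) * (7 * 49 ^ p.toReal * C₀ ^ 4) < 7 ^ ℓ)
    (κ C₂ : ℝ) (hκ : κ = 160 * ℓ * (1 + 2 * Real.log C₀))
    (hC₂ : C₂ = 10 * (7 + 24 * Real.log C₀)) (hκ1 : 1 ≤ κ) (hC₂1 : 1 ≤ C₂) :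
    ∃ D : ℕ, 0 < D ∧ (D:ℝ) ≤ ((120 * C₀ * Real.log C₀ + 2) * (2 * A₁ +
        (4 * (16 * κ) ^ p.toReal * C₂ ^ p.toReal * (8 ^ p.toReal) ^ 2 * (2 * Real.log C₀) + 2))) *
          (14 * 49 ^ p.toReal) ^ L * Real.sqrt N ∧
      ∀ R : ℝ, 0 < R → ∃ F : V → PiLp p (fun _ : Fin D => ℝ),
      (∀ x y, ‖F x - F y‖ ≤ C₂ * (ℓ + 2) * min (dist x y) (R * 49 ^ L)) ∧
      (∀ x y, dist x y ≤ R / (Fintype.card V * κ * 2 ^ L) → F x = F y) ∧
      (∀ x y, R ≤ dist x y → dist x y ≤ R * 7 ^ L →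
        1 / (96 * C₀) * dist x y ≤ ‖F x - F y‖) := by
  have hP0 := toReal_pos_of_fact (p := p) hp
  have hP1 := one_le_toReal_of_fact (p := p) hp
  obtain ⟨P, hPdef⟩ : ∃ P : ℝ, P = p.toReal := ⟨_, rfl⟩
  rw [← hPdef] at hP0 hP1 hℓ hA₁ ⊢
  have hg1 : (1:ℝ) ≤ 49 ^ P := Real.one_le_rpow (by norm_num) hP0.le
  have h4P : (1:ℝ) ≤ 4 ^ P := Real.one_le_rpow (by norm_num) hP0.le
  have h40P : (1:ℝ) ≤ 40 ^ P := Real.one_le_rpow (by norm_num) hP0.le
  have hA₁8 : 8 ≤ A₁ := by
    rw [hA₁]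
    nlinarith only [h4P, h40P]
  have hN1 : (1:ℝ) ≤ N := by exact_mod_cast hN
  have hn1 : (1:ℝ) ≤ Fintype.card V := by exact_mod_cast (Fintype.card_pos : 0 < Fintype.card V)
  obtain ⟨s, hs⟩ : ∃ s : ℝ, s = Real.sqrt N := ⟨_, rfl⟩
  have hs1 : 1 ≤ s := by rw [hs, Real.one_le_sqrt]; exact hN1
  rw [← hs]
  have hs0 : 0 < s := by linarith only [hs1]
  have hss : s * s = N := by rw [hs]; exact Real.mul_self_sqrt (by linarith only [hN1])
  have hsC : s ≤ C₀ ^ (2 * L) := by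
    rw [hs]
    apply Real.sqrt_le_iff.2
    refine ⟨by positivity, ?_⟩
    rw [← pow_mul]
    calc (N:ℝ) ≤ C₀ ^ (4 * L) := hNC
      _ = C₀ ^ (2 * L * 2) := by congr 1; ring
  obtain ⟨t, ht⟩ : ∃ t : ℝ, t = s ^ (1 / P) := ⟨_, rfl⟩
  have ht0 : 0 < t := by rw [ht]; exact Real.rpow_pos_of_pos hs0 _
  have htP : t ^ P = s := by
    rw [ht, ← Real.rpow_mul hs0.le, one_div, inv_mul_cancel₀ hP0.ne', Real.rpow_one]
  have h7L : (1:ℝ) ≤ 7 ^ L := one_le_pow₀ (by norm_num)
  obtain ⟨b, hb0, hb1, hb2, hb3⟩ := num_hash (49 ^ P) A₁ (4 * 40 ^ P) C₀ s (Fintype.card V) hg1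
    hA₁8 (by linarith only [h40P]) hC₀ L hL0 hs1 hsC hn1 hnC ℓ hℓ
  obtain ⟨m, hm0, hm1, hm2⟩ := num_sample P hP1 C₀ κ C₂ s t (Fintype.card V) N hC₀ hκ1 hC₂1 L hs1
    hss ht0 htP hn1 hnC
  obtain ⟨M, hM0, hM1, hM2⟩ := num_M C₀ (Fintype.card V) hC₀ L hL0 hn1 hnC
  have hK : (4 * 49 ^ L / t⁻¹) ^ P ≤ 4 ^ P * (49 ^ P) ^ L * s := by
    rw [div_inv_eq_mul, Real.mul_rpow (by positivity) ht0.le, htP,
      Real.mul_rpow (by norm_num) (by positivity),
      ← Real.rpow_pow_comm (by norm_num : (0:ℝ) ≤ 49) P L]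
  have hQ : 4 * 40 ^ P ≤ 4 * 40 ^ P * (7:ℝ) ^ L := by
    have : 0 ≤ 4 * (40:ℝ) ^ P := by linarith only [h40P]
    exact le_mul_of_one_le_right this h7L
  have hbK : 2 * (4 ^ P * (49 ^ P) ^ L * s) * (4 * 40 ^ P * 7 ^ L) ≤ b := by
    refine le_trans (le_of_eq ?_) hb1
    rw [hA₁, mul_pow]; ring
  refine ⟨M * (b + m), by (clear * - hb0 hm0 hM0; positivity), ?_, ?_⟩
  · push_cast
    have hc : 0 ≤ (120 * C₀ * Real.log C₀ + 2) * 2 ^ L := by
      have := Real.log_nonneg (show (1:ℝ) ≤ C₀ by linarith only [hC₀])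
      (clear * - hC₀ this; positivity)
    calc ((M * (b + m)) : ℝ)
        ≤ (((120 * C₀ * Real.log C₀ + 2) * 2 ^ L) * ((2 * A₁) * ((7 * 49 ^ P) ^ L * s) +
            (4 * (16 * κ) ^ P * C₂ ^ P * (8 ^ P) ^ 2 * (2 * Real.log C₀) + 2) *
              ((7 * 49 ^ P) ^ L * s))) :=
          mul_le_mul hM2 (add_le_add hb2 hm2) (by (clear * - hb0 hm0; positivity)) hc
      _ = _ := by
          rw [show (14:ℝ) * 49 ^ P = 2 * (7 * 49 ^ P) by ring, mul_pow 2 (7 * 49 ^ P)]; ring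
  · intro R hR
    subst hPdef
    exact block_map hp hN hb0 hm0 hM0 f hf C₀ (by linarith only [hC₀]) L hL0 hnC
      hM1 R hR t⁻¹ (inv_pos.2 ht0) _ _ hK hQ hbK ℓ hℓ0 hb3 κ C₂ hκ hC₂ hm1

/-- one halving step, given the constants -/
theorem halving_core [Fact (1 ≤ p)] (hp : p ≠ ∞) {V : Type*} [Fintype V] [Nonempty V]
    {N : ℕ} (hN : 0 < N) (f : V → PiLp p (fun _ : Fin N => ℝ))
    (C₀ : ℝ) (hC₀ : 2 ≤ C₀) (L : ℕ) (hL0 : 0 < L) (hNC : (N : ℝ) ≤ C₀ ^ (4 * L))
    (hnC : 2 * (Fintype.card V : ℝ) ≤ C₀ ^ L) (ℓ : ℕ) (hℓ0 : 0 < ℓ) (A₁ : ℝ)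
    (hA₁ : A₁ = 8 * 4 ^ p.toReal * 40 ^ p.toReal)
    (hℓ : (2 * Real.exp 1 * (2 * A₁)) * (7 * 49 ^ p.toReal * C₀ ^ 4) < 7 ^ ℓ)
    (κ C₂ : ℝ) (hκ : κ = 160 * ℓ * (1 + 2 * Real.log C₀))
    (hC₂ : C₂ = 10 * (7 + 24 * Real.log C₀)) (hκ1 : 1 ≤ κ) (hC₂1 : 1 ≤ C₂)
    (k : ℕ) (hk : κ * (2 * C₀) < 7 ^ k)
    (hL7 : 16 * (C₂ * (ℓ + 2)) * (96 * C₀) ≤ 7 ^ L) :
    ∃ (d : ℕ) (F : V → PiLp p (fun _ : Fin d => ℝ)), 0 < d ∧
      (d:ℝ) ≤ (k + 4) * ((120 * C₀ * Real.log C₀ + 2) * (2 * A₁ +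
        (4 * (16 * κ) ^ p.toReal * C₂ ^ p.toReal * (8 ^ p.toReal) ^ 2 * (2 * Real.log C₀) + 2))) *
          (14 * 49 ^ p.toReal) ^ L * Real.sqrt N ∧
      ∀ x y, ‖f x - f y‖ ≤ ‖F x - F y‖ ∧
        ‖F x - F y‖ ≤ (2 * (96 * C₀)) * (2 * (C₂ * (ℓ + 2)) * (k + 4)) * ‖f x - f y‖ := by
  let _ : PseudoMetricSpace V := PseudoMetricSpace.induced f inferInstance
  have hf : ∀ x y, ‖f x - f y‖ = dist x y := fun x y => (dist_eq_norm (f x) (f y)).symm
  obtain ⟨D, hD0, hD, hblock⟩ := block_dim hp hN f hf C₀ hC₀ L hL0 hNC hnC ℓ hℓ0 A₁ hA₁ hℓ κ C₂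
    hκ hC₂ hκ1 hC₂1
  have hℓ1 : (1:ℝ) ≤ ℓ := by exact_mod_cast hℓ0
  have hnC' : (Fintype.card V:ℝ) ≤ C₀ ^ L := by
    have : (0:ℝ) ≤ Fintype.card V := Nat.cast_nonneg _
    linarith only [hnC]
  have hn0 : (0:ℝ) < Fintype.card V := by exact_mod_cast (Fintype.card_pos : 0 < Fintype.card V)
  have hκ0 : 0 < κ := by linarith only [hκ1]
  have hC₁1 : 1 ≤ C₂ * (ℓ + 2) := by nlinarith only [hC₂1, hℓ1]
  have hQ2 : (2:ℝ) ≤ 7 ^ L := by
    calc (2:ℝ) ≤ 7 ^ 1 := by norm_num
      _ ≤ 7 ^ L := pow_le_pow_right₀ (by norm_num) hL0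
  have hQc : 16 * (C₂ * (ℓ + 2)) ≤ 1 / (96 * C₀) * 7 ^ L := by
    rw [one_div, ← div_eq_inv_mul, le_div_iff₀ (by positivity)]
    exact hL7
  have hkL : (Fintype.card V:ℝ) * κ * 2 ^ L ≤ (7 ^ L) ^ k := by
    calc (Fintype.card V:ℝ) * κ * 2 ^ L ≤ C₀ ^ L * κ * 2 ^ L := by (clear * - hκ1 hnC'; gcongr)
      _ = κ * (2 * C₀) ^ L := by rw [mul_pow]; ring
      _ ≤ (κ * (2 * C₀)) ^ L := mul_pow_le_pow hκ1 (by positivity) hL0
      _ ≤ (7 ^ k) ^ L := by (clear * - hC₀ hκ1 hk; gcongr)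
      _ = (7 ^ L) ^ k := by rw [← pow_mul, ← pow_mul, mul_comm]
  obtain ⟨G, hG⟩ := glue p hp (C₂ * (ℓ + 2)) (1 / (96 * C₀)) hC₁1 (by positivity) (7 ^ L) hQ2 hQc k
    D (fun R hR => by
      obtain ⟨F, hF1, hF2, hF3⟩ := hblock R hR
      refine ⟨F, ?_, ?_, hF3⟩
      · intro x y
        have : ((7:ℝ) ^ L) ^ 2 = 49 ^ L := by rw [← pow_mul, mul_comm, pow_mul]; norm_num
        rw [this]; exact hF1 x y
      · intro x y hxy
        apply hF2
        rw [le_div_iff₀ (by positivity)]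
        calc dist x y * (Fintype.card V * κ * 2 ^ L) ≤ dist x y * (7 ^ L) ^ k :=
              mul_le_mul_of_nonneg_left hkL dist_nonneg
          _ ≤ R := hxy)
  refine ⟨(k + 4) * D, fun x => (2 * (96 * C₀)) • G x, by (clear * - hD0; positivity), ?_, ?_⟩
  · push_cast
    have := mul_le_mul_of_nonneg_left hD (by (clear * -; positivity) : (0:ℝ) ≤ k + 4)
    refine this.trans (le_of_eq ?_)
    ring
  · intro x y
    have h1 := (hG x y).1
    have h2 := (hG x y).2
    rw [← smul_sub, norm_smul, Real.norm_eq_abs, abs_of_pos (by positivity), hf]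
    constructor
    · calc dist x y = (2 * (96 * C₀)) * (1 / (96 * C₀) / 2 * dist x y) := by
            (clear * - hC₀; field_simp)
        _ ≤ _ := mul_le_mul_of_nonneg_left h1 (by positivity)
    · calc (2 * (96 * C₀)) * ‖G x - G y‖
          ≤ (2 * (96 * C₀)) * (2 * (C₂ * (ℓ + 2)) * (k + 4) * dist x y) :=
            mul_le_mul_of_nonneg_left h2 (by positivity)
        _ = _ := by ring

theorem halving (p : ℝ≥0∞) [Fact (1 ≤ p)] (hp : p ≠ ∞) :
    ∃ C₄ : ℝ, 1 ≤ C₄ ∧ ∀ C₀ : ℝ, 2 ≤ C₀ → ∃ (B D₀ : ℝ) (L₀ : ℕ), 1 ≤ B ∧ 1 ≤ D₀ ∧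
      ∀ L : ℕ, L₀ ≤ L → ∀ (V : Type) [Fintype V] (N : ℕ) (f : V → PiLp p (fun _ : Fin N => ℝ)),
        0 < N → (N : ℝ) ≤ C₀ ^ (4 * L) → 2 * (Fintype.card V : ℝ) ≤ C₀ ^ L →
        ∃ (d : ℕ) (F : V → PiLp p (fun _ : Fin d => ℝ)), 0 < d ∧
          (d : ℝ) ≤ B * C₄ ^ L * Real.sqrt N ∧
          ∀ x y, ‖f x - f y‖ ≤ ‖F x - F y‖ ∧ ‖F x - F y‖ ≤ D₀ * ‖f x - f y‖ := by
  have hP0 := toReal_pos_of_fact (p := p) hp
  have hP1 := one_le_toReal_of_fact (p := p) hp
  have hg1 : (1:ℝ) ≤ 49 ^ p.toReal := Real.one_le_rpow (by norm_num) hP0.le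
  have h4P : (1:ℝ) ≤ 4 ^ p.toReal := Real.one_le_rpow (by norm_num) hP0.le
  have h40P : (1:ℝ) ≤ 40 ^ p.toReal := Real.one_le_rpow (by norm_num) hP0.le
  refine ⟨14 * 49 ^ p.toReal, by linarith only [hg1], ?_⟩
  intro C₀ hC₀
  have hC₀0 : 0 < C₀ := by linarith
  have hC₀1 : 1 ≤ C₀ := by linarith
  have hlogC : 0 < Real.log C₀ := Real.log_pos (by linarith)
  obtain ⟨A₁, hA₁⟩ : ∃ A₁ : ℝ, A₁ = 8 * 4 ^ p.toReal * 40 ^ p.toReal := ⟨_, rfl⟩
  have hA₁8 : 8 ≤ A₁ := by
    rw [hA₁]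
    nlinarith only [h4P, h40P]
  have he : (1:ℝ) ≤ Real.exp 1 := by
    have := Real.add_one_le_exp (1:ℝ)
    linarith
  obtain ⟨ℓ, hℓ⟩ := pow_unbounded_of_one_lt
    ((2 * Real.exp 1 * (2 * A₁)) * (7 * 49 ^ p.toReal * C₀ ^ 4)) (show (1:ℝ) < 7 by norm_num)
  have hℓ0 : 0 < ℓ := by
    rcases Nat.eq_zero_or_pos ℓ with h | h
    · rw [h, pow_zero] at hℓ
      have hbig1 : 1 ≤ 2 * Real.exp 1 * (2 * A₁) := by nlinarith only [hA₁8, he]
      have hC₀4 : 1 ≤ C₀ ^ 4 := one_le_pow₀ hC₀1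
      have hbig2 : (1:ℝ) ≤ 7 * 49 ^ p.toReal * C₀ ^ 4 := by nlinarith only [hg1, hC₀4]
      nlinarith only [hg1, hA₁8, he, hℓ, hbig1, hC₀4, hbig2]
    · exact h
  have hℓ1 : (1:ℝ) ≤ ℓ := by exact_mod_cast hℓ0
  obtain ⟨κ, hκ⟩ : ∃ κ : ℝ, κ = 160 * ℓ * (1 + 2 * Real.log C₀) := ⟨_, rfl⟩
  obtain ⟨C₂, hC₂⟩ : ∃ C₂ : ℝ, C₂ = 10 * (7 + 24 * Real.log C₀) := ⟨_, rfl⟩
  have hκ1 : 1 ≤ κ := by rw [hκ]; nlinarith only [hlogC, hℓ1]
  have hκ0 : 0 < κ := by linarith only [hκ1]
  have hC₂1 : 1 ≤ C₂ := by rw [hC₂]; linarith only [hlogC]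
  have hC₂0 : 0 < C₂ := by linarith only [hlogC, hC₂]
  obtain ⟨k, hk⟩ := pow_unbounded_of_one_lt (κ * (2 * C₀)) (show (1:ℝ) < 7 by norm_num)
  obtain ⟨L₁, hL₁⟩ := pow_unbounded_of_one_lt (16 * (C₂ * (ℓ + 2)) * (96 * C₀))
    (show (1:ℝ) < 7 by norm_num)
  obtain ⟨B, hB⟩ : ∃ B : ℝ, B = (k + 4) * ((120 * C₀ * Real.log C₀ + 2) * (2 * A₁ +
        (4 * (16 * κ) ^ p.toReal * C₂ ^ p.toReal * (8 ^ p.toReal) ^ 2 * (2 * Real.log C₀) + 2))) :=
    ⟨_, rfl⟩
  have hk0 : (0:ℝ) ≤ k := Nat.cast_nonneg k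
  have hB1 : 1 ≤ B := by
    have h3 : 0 ≤ 4 * (16 * κ) ^ p.toReal * C₂ ^ p.toReal * (8 ^ p.toReal) ^ 2 *
      (2 * Real.log C₀) := by positivity
    have h4 : 0 ≤ 120 * C₀ * Real.log C₀ := by positivity
    have h1 : (1:ℝ) ≤ k + 4 := by linarith only []
    have h2 : (1:ℝ) ≤ (120 * C₀ * Real.log C₀ + 2) * (2 * A₁ +
        (4 * (16 * κ) ^ p.toReal * C₂ ^ p.toReal * (8 ^ p.toReal) ^ 2 * (2 * Real.log C₀) + 2)) :=
      one_le_mul_of_one_le_of_one_le (by linarith only [h4]) (by linarith only [hA₁8, h3])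
    rw [hB]
    exact one_le_mul_of_one_le_of_one_le h1 h2
  have hC₁1 : 1 ≤ C₂ * (ℓ + 2) := by nlinarith only [hlogC, hℓ1, hC₂]
  have hD1 : 1 ≤ (2 * (96 * C₀)) * (2 * (C₂ * (ℓ + 2)) * (k + 4)) := by
    have h1 : 1 ≤ 2 * (C₂ * (ℓ + 2)) * (k + 4) := by nlinarith only [hlogC, hℓ1, hC₂, hC₁1]
    nlinarith only [hC₀, hlogC, hℓ1, hC₂, hC₁1, h1]
  refine ⟨B, (2 * (96 * C₀)) * (2 * (C₂ * (ℓ + 2)) * (k + 4)), L₁ + 1, hB1, hD1, ?_⟩
  intro L hL V _ N f hN hNC hnC
  have hL0 : 0 < L := by omega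
  have hL7 : 16 * (C₂ * (ℓ + 2)) * (96 * C₀) ≤ 7 ^ L :=
    hL₁.le.trans (pow_le_pow_right₀ (by norm_num) (by omega))
  rcases isEmpty_or_nonempty V with hV | hV
  · refine ⟨1, fun _ => 0, one_pos, ?_, fun x => (hV.false x).elim⟩
    have hN1 : (1:ℝ) ≤ N := by exact_mod_cast hN
    have hs1 : 1 ≤ Real.sqrt N := by rw [Real.one_le_sqrt]; exact hN1
    have hC₄L : (1:ℝ) ≤ (14 * 49 ^ p.toReal) ^ L := one_le_pow₀ (by linarith only [hg1])
    push_cast
    exact one_le_mul_of_one_le_of_one_le (one_le_mul_of_one_le_of_one_le hB1 hC₄L) hs1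
  rw [hB]
  exact halving_core hp hN f C₀ hC₀ L hL0 hNC hnC ℓ hℓ0 A₁ hA₁ hℓ κ C₂ hκ hC₂ hκ1 hC₂1 k hk hL7

end Vale.Agent.P249
end
end

section

section

open MeasureTheory Set Filter Topology
open scoped ENNReal NNReal Pointwise

namespace Vale.Agent.P249

section Shift

variable {E : Type*} [NormedAddCommGroup E] [NormedSpace ℝ E] [FiniteDimensional ℝ E]
  [MeasurableSpace E] [BorelSpace E] {ι : Type*} [Fintype ι]

/-- Integrals over a fundamental domain of periodic functions are translation invariant. -/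
theorem setLIntegral_shift (b : Module.Basis ι ℝ E) (μ : Measure E) [μ.IsAddHaarMeasure]
    (h : E → ℝ≥0∞) (hper : ∀ (l : Submodule.span ℤ (Set.range b)) (x : E), h (l +ᵥ x) = h x)
    (t : E) :
    ∫⁻ x in ZSpan.fundamentalDomain b, h (t + x) ∂μ =
      ∫⁻ x in ZSpan.fundamentalDomain b, h x ∂μ := by
  have hF := ZSpan.isAddFundamentalDomain b μ
  have : VAddInvariantMeasure (Submodule.span ℤ (Set.range b)) E μ :=
    inferInstanceAs <| VAddInvariantMeasure (Submodule.span ℤ (Set.range b)).toAddSubgroup E μ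
  have hFt : IsAddFundamentalDomain (Submodule.span ℤ (Set.range b))
      (t +ᵥ ZSpan.fundamentalDomain b) μ := hF.vadd_of_comm t
  have h1 : ∫⁻ x in ZSpan.fundamentalDomain b, h (t + x) ∂μ =
      ∫⁻ x in t +ᵥ ZSpan.fundamentalDomain b, h x ∂μ := by
    have := (measurePreserving_add_left μ t).setLIntegral_comp_emb
      (measurableEmbedding_addLeft t) h (ZSpan.fundamentalDomain b)
    rw [this]
    rfl
  rw [h1]
  exact hFt.setLIntegral_eq hF h hper

/-- The displacement of a periodic Lipschitz function along `w`, in `L_p` of a period cell, is at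
most the `L_p` norm of its directional derivative along `w`. -/
theorem shift_le_fderiv (b : Module.Basis ι ℝ E) (μ : Measure E) [μ.IsAddHaarMeasure]
    {p : ℝ} (hp : 1 ≤ p) {K : ℝ≥0} {g : E → ℝ} (hg : LipschitzWith K g)
    (hper : ∀ (l : Submodule.span ℤ (Set.range b)) (x : E), g (l +ᵥ x) = g x) (w : E) :
    ∫⁻ x in ZSpan.fundamentalDomain b, ‖g (x + w) - g x‖ₑ ^ p ∂μ ≤
      ∫⁻ x in ZSpan.fundamentalDomain b, ‖fderiv ℝ g x w‖ₑ ^ p ∂μ := by
  set F := ZSpan.fundamentalDomain b with hFdef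
  set ν := μ.restrict F with hν
  have hp0 : 0 < p := by linarith only [hp]
  have hFfin : μ F < ∞ := (ZSpan.fundamentalDomain_isBounded b).measure_lt_top
  have : IsFiniteMeasure ν := ⟨by rw [hν, Measure.restrict_apply_univ]; exact hFfin⟩
  have hgc : Continuous g := hg.continuous
  set P : ℝ≥0∞ := ENNReal.ofReal p with hP
  have hP1 : 1 ≤ P := by
    rw [hP, ← ENNReal.ofReal_one]; exact ENNReal.ofReal_le_ofReal hp
  have hP0 : P ≠ 0 := (zero_lt_one.trans_le hP1).ne'
  have hPtop : P ≠ ∞ := ENNReal.ofReal_ne_top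
  have hPreal : P.toReal = p := ENNReal.toReal_ofReal hp0.le
  have hnorm : ∀ h : E → ℝ, eLpNorm h P ν = (∫⁻ x, ‖h x‖ₑ ^ p ∂ν) ^ (1 / p) := by
    intro h
    rw [eLpNorm_eq_lintegral_rpow_enorm_toReal hP0 hPtop, hPreal]
  -- translation invariance of one step
  have hstep : ∀ t v : E, ∫⁻ x, ‖g (x + t + v) - g (x + t)‖ₑ ^ p ∂ν =
      ∫⁻ x, ‖g (x + v) - g x‖ₑ ^ p ∂ν := by
    intro t v
    have := setLIntegral_shift b μ (fun x => ‖g (x + v) - g x‖ₑ ^ p) (by
      intro l x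
      have e1 : (l +ᵥ x : E) + v = l +ᵥ (x + v) := by
        simp [Submodule.vadd_def, add_assoc]
      simp only [e1, hper]) t
    rw [hν, ← this]
    refine lintegral_congr fun x => ?_
    simp only [add_comm x t]
  -- telescoping
  have htel : ∀ M : ℕ, 0 < M → ∫⁻ x, ‖g (x + w) - g x‖ₑ ^ p ∂ν ≤
      ∫⁻ x, ‖(M : ℝ) • (g (x + (M : ℝ)⁻¹ • w) - g x)‖ₑ ^ p ∂ν := by
    intro M hM
    have hM' : (M : ℝ) ≠ 0 := by exact_mod_cast hM.ne'
    set v := (M : ℝ)⁻¹ • w with hv
    have hsum : (fun x => g (x + w) - g x) =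
        ∑ i ∈ Finset.range M, fun x => g (x + (i : ℝ) • v + v) - g (x + (i : ℝ) • v) := by
      funext x
      rw [Finset.sum_apply]
      have : ∀ i ∈ Finset.range M, g (x + (i : ℝ) • v + v) - g (x + (i : ℝ) • v) =
          (fun n : ℕ => g (x + (n : ℝ) • v)) (i + 1) - (fun n : ℕ => g (x + (n : ℝ) • v)) i := by
        intro i _
        simp only [add_assoc, Nat.cast_add, Nat.cast_one, add_smul, one_smul]
      rw [Finset.sum_congr rfl this, Finset.sum_range_sub (fun n : ℕ => g (x + (n : ℝ) • v)) M]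
      simp only [hv, smul_smul, mul_inv_cancel₀ hM', one_smul, Nat.cast_zero, zero_mul, zero_smul,
        add_zero]
    have h1 : eLpNorm (fun x => g (x + w) - g x) P ν ≤
        ∑ i ∈ Finset.range M, eLpNorm (fun x => g (x + (i : ℝ) • v + v) - g (x + (i : ℝ) • v)) P ν := by
      rw [hsum]
      refine eLpNorm_sum_le (fun i _ => ?_) hP1
      exact Continuous.aestronglyMeasurable (by fun_prop)
    have h2 : ∀ i ∈ Finset.range M,
        eLpNorm (fun x => g (x + (i : ℝ) • v + v) - g (x + (i : ℝ) • v)) P ν =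
          eLpNorm (fun x => g (x + v) - g x) P ν := by
      intro i _
      rw [hnorm, hnorm, hstep]
    rw [Finset.sum_congr rfl h2, Finset.sum_const, Finset.card_range, nsmul_eq_mul] at h1
    have h3 : (M : ℝ≥0∞) * eLpNorm (fun x => g (x + v) - g x) P ν =
        eLpNorm (fun x => (M : ℝ) • (g (x + v) - g x)) P ν := by
      have := eLpNorm_const_smul (M : ℝ) (fun x => g (x + v) - g x) P ν
      have e : ‖(M : ℝ)‖ₑ = (M : ℝ≥0∞) := by simp
      rw [e] at this
      rw [← this]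
      rfl
    rw [h3, hnorm, hnorm] at h1
    exact (ENNReal.rpow_le_rpow_iff (by positivity)).1 h1
  -- the limit
  have hbound : ∀ M : ℕ, 0 < M → ∀ x : E, ‖(M : ℝ) • (g (x + (M : ℝ)⁻¹ • w) - g x)‖ₑ ^ p ≤
      (ENNReal.ofReal (K * ‖w‖)) ^ p := by
    intro M hM x
    have hM' : (0 : ℝ) < M := by exact_mod_cast hM
    refine ENNReal.rpow_le_rpow ?_ hp0.le
    rw [← ofReal_norm]
    refine ENNReal.ofReal_le_ofReal ?_
    rw [norm_smul, Real.norm_of_nonneg hM'.le]
    have := hg.norm_sub_le (x + (M : ℝ)⁻¹ • w) x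
    rw [add_sub_cancel_left, norm_smul, norm_inv, Real.norm_of_nonneg hM'.le] at this
    calc (M : ℝ) * ‖g (x + (M : ℝ)⁻¹ • w) - g x‖ ≤ M * (K * ((M : ℝ)⁻¹ * ‖w‖)) := by (clear * - hM this; gcongr)
      _ = K * ‖w‖ := by (clear * - hM; field_simp)
  have hlim : Tendsto (fun M : ℕ => ∫⁻ x, ‖(M : ℝ) • (g (x + (M : ℝ)⁻¹ • w) - g x)‖ₑ ^ p ∂ν) atTop
      (𝓝 (∫⁻ x, ‖fderiv ℝ g x w‖ₑ ^ p ∂ν)) := by
    refine tendsto_lintegral_filter_of_dominated_convergence
      (fun _ => (ENNReal.ofReal (K * ‖w‖)) ^ p) ?_ ?_ ?_ ?_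
    · refine Eventually.of_forall fun M => ?_
      exact Measurable.pow_const (Continuous.measurable (by fun_prop)) _
    · filter_upwards [eventually_gt_atTop 0] with M hM
      exact Eventually.of_forall (hbound M hM)
    · rw [lintegral_const]
      exact ENNReal.mul_ne_top (ENNReal.rpow_ne_top_of_nonneg hp0.le ENNReal.ofReal_ne_top)
        (measure_ne_top _ _)
    · have hae : ∀ᵐ x ∂ν, DifferentiableAt ℝ g x :=
        ae_restrict_of_ae hg.ae_differentiableAt_of_real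
      filter_upwards [hae] with x hx
      have h1 := hx.hasFDerivAt.lim_real w
      have h2 : Tendsto (fun M : ℕ => (M : ℝ) • (g (x + (M : ℝ)⁻¹ • w) - g x)) atTop
          (𝓝 (fderiv ℝ g x w)) := h1.comp tendsto_natCast_atTop_atTop
      exact (ENNReal.continuous_rpow_const.tendsto _).comp ((continuous_enorm.tendsto _).comp h2)
  refine ge_of_tendsto hlim ?_
  filter_upwards [eventually_gt_atTop 0] with M hM using htel M hM

end Shift

end Vale.Agent.P249
end
end

section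

section

open Finset
open scoped Nat

namespace Vale.Agent.P249

/-- The sign attached to a boolean. -/
def sg (b : Bool) : ℝ := if b then 1 else -1

theorem rpow_le_factorial_mul_exp {p x : ℝ} (hp : 0 ≤ p) (hx : 0 ≤ x) :
    x ^ p ≤ (⌈p⌉₊ ! : ℝ) * Real.exp x := by
  have hf : (1 : ℝ) ≤ (⌈p⌉₊ ! : ℝ) := by exact_mod_cast Nat.succ_le_of_lt (Nat.factorial_pos _)
  rcases le_total x 1 with h | h
  · calc x ^ p ≤ 1 := Real.rpow_le_one hx h hp
      _ ≤ (⌈p⌉₊ ! : ℝ) * Real.exp x := by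
        have : (1 : ℝ) ≤ Real.exp x := Real.one_le_exp hx
        nlinarith only [hf, this]
  · have h1 : x ^ p ≤ x ^ (⌈p⌉₊ : ℝ) := Real.rpow_le_rpow_of_exponent_le h (Nat.le_ceil p)
    rw [Real.rpow_natCast] at h1
    have h2 := Real.pow_div_factorial_le_exp x hx ⌈p⌉₊
    rw [div_le_iff₀ (by positivity)] at h2
    linarith

theorem rademacher_exp {k : ℕ} (v : Fin k → ℝ) :
    ∑ ε : Fin k → Bool, Real.exp (∑ i, v i * sg (ε i)) ≤ 2 ^ k * Real.exp ((∑ i, v i ^ 2) / 2) := by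
  have h1 : ∑ ε : Fin k → Bool, Real.exp (∑ i, v i * sg (ε i)) =
      ∏ i : Fin k, ∑ b : Bool, Real.exp (v i * sg b) := by
    rw [Finset.prod_univ_sum, Fintype.piFinset_univ]
    exact Finset.sum_congr rfl fun ε _ => Real.exp_sum _ _
  have h2 : ∀ i : Fin k, ∑ b : Bool, Real.exp (v i * sg b) ≤ 2 * Real.exp (v i ^ 2 / 2) := by
    intro i
    have := Real.cosh_le_exp_half_sq (v i)
    rw [Real.cosh_eq] at this
    simp only [Fintype.sum_bool, sg, if_true, mul_one, Bool.false_eq_true, if_false, mul_neg]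
    linarith only [this]
  rw [h1]
  calc ∏ i : Fin k, ∑ b : Bool, Real.exp (v i * sg b) ≤ ∏ i : Fin k, 2 * Real.exp (v i ^ 2 / 2) := by
        refine Finset.prod_le_prod (fun i _ => Finset.sum_nonneg fun b _ => (Real.exp_pos _).le)
          fun i _ => h2 i
    _ = 2 ^ k * Real.exp ((∑ i, v i ^ 2) / 2) := by
        rw [Finset.prod_mul_distrib, ← Real.exp_sum, Finset.sum_div]
        simp only [prod_const, card_univ, Fintype.card_fin]

/-- Khinchin's inequality with an unspecified constant depending only on `p`. -/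
theorem khinchin {p : ℝ} (hp : 0 < p) : ∃ C : ℝ, 0 < C ∧ ∀ (k : ℕ) (v : Fin k → ℝ),
    ∑ ε : Fin k → Bool, |∑ i, v i * sg (ε i)| ^ p ≤ 2 ^ k * (C * Real.sqrt (∑ i, v i ^ 2) ^ p) := by
  refine ⟨(⌈p⌉₊ ! : ℝ) * (2 * Real.exp (1 / 2)), by positivity, fun k v => ?_⟩
  set σ := Real.sqrt (∑ i, v i ^ 2) with hσ
  have hnn : 0 ≤ ∑ i, v i ^ 2 := Finset.sum_nonneg fun i _ => sq_nonneg _
  rcases hnn.eq_or_lt with h0 | h0
  · have hv : ∀ i, v i = 0 := by
      intro i
      have := (Finset.sum_eq_zero_iff_of_nonneg (fun i _ => sq_nonneg (v i))).1 h0.symm i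
        (Finset.mem_univ i)
      exact pow_eq_zero_iff (two_ne_zero) |>.1 this
    have : ∀ ε : Fin k → Bool, |∑ i, v i * sg (ε i)| ^ p = 0 := by
      intro ε
      simp only [hv, zero_mul, sum_const_zero, abs_zero, Real.zero_rpow hp.ne']
    simp only [this, Finset.sum_const_zero]
    (clear * -; positivity)
  · have hσ0 : 0 < σ := Real.sqrt_pos.2 h0
    have hσ2 : σ ^ 2 = ∑ i, v i ^ 2 := Real.sq_sqrt hnn
    have key : ∀ ε : Fin k → Bool, |∑ i, v i * sg (ε i)| ^ p ≤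
        (⌈p⌉₊ ! : ℝ) * σ ^ p * (Real.exp (∑ i, (v i / σ) * sg (ε i)) +
          Real.exp (∑ i, (-v i / σ) * sg (ε i))) := by
      intro ε
      set S := ∑ i, v i * sg (ε i) with hS
      have e1 : ∑ i, (v i / σ) * sg (ε i) = S / σ := by
        rw [hS, Finset.sum_div]; exact Finset.sum_congr rfl fun i _ => by ring
      have e2 : ∑ i, (-v i / σ) * sg (ε i) = -(S / σ) := by
        rw [hS, Finset.sum_div, ← Finset.sum_neg_distrib]
        exact Finset.sum_congr rfl fun i _ => by ring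
      rw [e1, e2]
      have h1 := rpow_le_factorial_mul_exp hp.le (abs_nonneg (S / σ))
      have h2 : Real.exp |S / σ| ≤ Real.exp (S / σ) + Real.exp (-(S / σ)) := by
        rcases abs_cases (S / σ) with ⟨h, _⟩ | ⟨h, _⟩ <;> rw [h] <;>
          linarith only [Real.exp_pos (S / σ), Real.exp_pos (-(S / σ))]
      have h3 : |S| ^ p = σ ^ p * |S / σ| ^ p := by
        rw [abs_div, abs_of_pos hσ0, Real.div_rpow (abs_nonneg _) hσ0.le]
        (clear * - hσ0; field_simp)
      rw [h3]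
      have hf : (0 : ℝ) ≤ (⌈p⌉₊ ! : ℝ) := by positivity
      calc σ ^ p * |S / σ| ^ p ≤ σ ^ p * ((⌈p⌉₊ ! : ℝ) * Real.exp |S / σ|) := by (clear * - h0 h1; gcongr)
        _ ≤ σ ^ p * ((⌈p⌉₊ ! : ℝ) * (Real.exp (S / σ) + Real.exp (-(S / σ)))) := by (clear * - h0 h2; gcongr)
        _ = _ := by ring
    have hexp : ∀ w : Fin k → ℝ, (∑ i, w i ^ 2 = 1) →
        ∑ ε : Fin k → Bool, Real.exp (∑ i, w i * sg (ε i)) ≤ 2 ^ k * Real.exp (1 / 2) := by
      intro w hw
      have := rademacher_exp w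
      rwa [hw] at this
    have hw1 : ∑ i, (v i / σ) ^ 2 = 1 := by
      simp only [div_pow]
      rw [← Finset.sum_div, ← hσ2, div_self (by (clear * - h0; positivity))]
    have hw2 : ∑ i, (-v i / σ) ^ 2 = 1 := by
      simp only [div_pow, neg_sq]
      rw [← Finset.sum_div, ← hσ2, div_self (by (clear * - h0; positivity))]
    calc ∑ ε : Fin k → Bool, |∑ i, v i * sg (ε i)| ^ p
        ≤ ∑ ε : Fin k → Bool, (⌈p⌉₊ ! : ℝ) * σ ^ p * (Real.exp (∑ i, (v i / σ) * sg (ε i)) +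
          Real.exp (∑ i, (-v i / σ) * sg (ε i))) := Finset.sum_le_sum fun ε _ => key ε
      _ = (⌈p⌉₊ ! : ℝ) * σ ^ p * (∑ ε : Fin k → Bool, Real.exp (∑ i, (v i / σ) * sg (ε i)) +
          ∑ ε : Fin k → Bool, Real.exp (∑ i, (-v i / σ) * sg (ε i))) := by
          rw [← Finset.mul_sum, Finset.sum_add_distrib]
      _ ≤ (⌈p⌉₊ ! : ℝ) * σ ^ p * (2 ^ k * Real.exp (1 / 2) + 2 ^ k * Real.exp (1 / 2)) := by
          gcongr
          · exact hexp _ hw1
          · exact hexp _ hw2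
      _ = _ := by ring

end Vale.Agent.P249
end
end

section

section

open MeasureTheory Set Filter Topology
open scoped ENNReal NNReal Pointwise

namespace Vale.Agent.P249

/-- The map `u ↦ (exp (2 π i u_j))_j` from `ℝ^k` to `ℂ^k`. -/
noncomputable def torus (k : ℕ) (u : EuclideanSpace ℝ (Fin k)) : EuclideanSpace ℂ (Fin k) :=
  WithLp.toLp 2 fun i => Complex.exp (Complex.I * ((2 * Real.pi * u i : ℝ) : ℂ))

theorem torus_apply {k : ℕ} (u : EuclideanSpace ℝ (Fin k)) (i : Fin k) :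
    torus k u i = Complex.exp (Complex.I * ((2 * Real.pi * u i : ℝ) : ℂ)) := rfl

theorem norm_torus {k : ℕ} (u : EuclideanSpace ℝ (Fin k)) : ‖torus k u‖ = Real.sqrt k := by
  rw [EuclideanSpace.norm_eq]
  congr 1
  have : ∀ i : Fin k, ‖torus k u i‖ ^ 2 = 1 := by
    intro i
    rw [torus_apply, Complex.norm_exp_I_mul_ofReal, one_pow]
  rw [Finset.sum_congr rfl fun i _ => this i]
  simp only [Finset.sum_const, Finset.card_univ, Fintype.card_fin, nsmul_eq_mul, mul_one]

theorem norm_exp_sub_exp_le (a b : ℝ) :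
    ‖Complex.exp (Complex.I * (a : ℂ)) - Complex.exp (Complex.I * (b : ℂ))‖ ≤ |a - b| := by
  have h1 : Complex.exp (Complex.I * (a : ℂ)) - Complex.exp (Complex.I * (b : ℂ)) =
      Complex.exp (Complex.I * (b : ℂ)) * (Complex.exp (Complex.I * ((a - b : ℝ) : ℂ)) - 1) := by
    rw [mul_sub, mul_one, ← Complex.exp_add]
    congr 2
    push_cast
    ring
  rw [h1, norm_mul, Complex.norm_exp_I_mul_ofReal, one_mul]
  exact Real.norm_exp_I_mul_ofReal_sub_one_le

theorem torus_sub_le {k : ℕ} (u v : EuclideanSpace ℝ (Fin k)) :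
    ‖torus k u - torus k v‖ ≤ 2 * Real.pi * ‖u - v‖ := by
  rw [EuclideanSpace.norm_eq, EuclideanSpace.norm_eq]
  have hpi : (0 : ℝ) ≤ 2 * Real.pi := by positivity
  have h1 : ∀ i : Fin k, ‖(torus k u - torus k v) i‖ ^ 2 ≤ (2 * Real.pi) ^ 2 * ‖(u - v) i‖ ^ 2 := by
    intro i
    have : ‖(torus k u - torus k v) i‖ ≤ 2 * Real.pi * ‖(u - v) i‖ := by
      have e : (torus k u - torus k v) i = torus k u i - torus k v i := rfl
      rw [e, torus_apply, torus_apply]
      refine (norm_exp_sub_exp_le _ _).trans ?_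
      rw [← mul_sub, abs_mul, abs_of_nonneg hpi]
      rfl
    calc ‖(torus k u - torus k v) i‖ ^ 2 ≤ (2 * Real.pi * ‖(u - v) i‖) ^ 2 := by gcongr
      _ = _ := by ring
  calc Real.sqrt (∑ i, ‖(torus k u - torus k v) i‖ ^ 2)
      ≤ Real.sqrt (∑ i, (2 * Real.pi) ^ 2 * ‖(u - v) i‖ ^ 2) :=
        Real.sqrt_le_sqrt (Finset.sum_le_sum fun i _ => h1 i)
    _ = Real.sqrt ((2 * Real.pi) ^ 2 * ∑ i, ‖(u - v) i‖ ^ 2) := by rw [Finset.mul_sum]
    _ = 2 * Real.pi * Real.sqrt (∑ i, ‖(u - v) i‖ ^ 2) := by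
        rw [Real.sqrt_mul (by positivity), Real.sqrt_sq hpi]

theorem torus_lipschitz (k : ℕ) : LipschitzWith (Real.toNNReal (2 * Real.pi)) (torus k) := by
  refine LipschitzWith.of_dist_le_mul fun u v => ?_
  rw [dist_eq_norm, dist_eq_norm, Real.coe_toNNReal _ (by positivity)]
  exact torus_sub_le u v

theorem torus_add_int {k : ℕ} (u l : EuclideanSpace ℝ (Fin k)) (hl : ∀ i, ∃ n : ℤ, l i = n) :
    torus k (l + u) = torus k u := by
  ext i
  obtain ⟨n, hn⟩ := hl i
  rw [torus_apply, torus_apply]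
  have e : (l + u) i = n + u i := by rw [← hn]; rfl
  rw [e]
  have : Complex.I * ((2 * Real.pi * ((n : ℝ) + u i) : ℝ) : ℂ) =
      Complex.I * ((2 * Real.pi * u i : ℝ) : ℂ) + n * (2 * Real.pi * Complex.I) := by
    push_cast
    ring
  rw [this, Complex.exp_add, Complex.exp_int_mul_two_pi_mul_I, mul_one]

/-- the displacement vector with coordinates `± 1/2`. -/
noncomputable def half {k : ℕ} (ε : Fin k → Bool) : EuclideanSpace ℝ (Fin k) :=
  WithLp.toLp 2 fun i => sg (ε i) / 2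

theorem torus_add_half {k : ℕ} (u : EuclideanSpace ℝ (Fin k)) (ε : Fin k → Bool) :
    torus k (u + half ε) = -torus k u := by
  ext i
  have e : (u + half ε) i = u i + sg (ε i) / 2 := rfl
  have e2 : (-torus k u) i = - torus k u i := rfl
  rw [e2, torus_apply, torus_apply, e]
  have h1 : Complex.I * ((2 * Real.pi * (u i + sg (ε i) / 2) : ℝ) : ℂ) =
      Complex.I * ((2 * Real.pi * u i : ℝ) : ℂ) + (sg (ε i) : ℂ) * (Real.pi * Complex.I) := by
    push_cast
    ring
  rw [h1, Complex.exp_add]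
  have h2 : Complex.exp ((sg (ε i) : ℂ) * (Real.pi * Complex.I)) = -1 := by
    cases ε i
    · simp [sg, Complex.exp_neg]
    · simp [sg]
  rw [h2]
  ring

/-- The unit cell of `ℤ^k`. -/
noncomputable def cell (k : ℕ) : Set (EuclideanSpace ℝ (Fin k)) :=
  ZSpan.fundamentalDomain (EuclideanSpace.basisFun (Fin k) ℝ).toBasis

theorem cell_ne_zero (k : ℕ) : (volume (cell k) : ℝ≥0∞) ≠ 0 :=
  ZSpan.measure_fundamentalDomain_ne_zero _

theorem cell_ne_top (k : ℕ) : (volume (cell k) : ℝ≥0∞) ≠ ∞ :=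
  (ZSpan.fundamentalDomain_isBounded _).measure_lt_top.ne

theorem antipodal_one {p : ℝ} (hp : 1 ≤ p) : ∃ C : ℝ, 0 < C ∧ ∀ (k : ℕ) (K : ℝ≥0)
    (F : EuclideanSpace ℂ (Fin k) → ℝ), LipschitzWith K F →
    ∫⁻ x in cell k, ‖F (-torus k x) - F (torus k x)‖ₑ ^ p ≤
      ENNReal.ofReal (C * K ^ p) * volume (cell k) := by
  have hp0 : 0 < p := by linarith
  obtain ⟨C, hC, hkh⟩ := khinchin hp0
  refine ⟨C * Real.pi ^ p, by positivity, fun k K F hF => ?_⟩
  set b := (EuclideanSpace.basisFun (Fin k) ℝ).toBasis with hb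
  set g : EuclideanSpace ℝ (Fin k) → ℝ := F ∘ torus k with hg
  have hgL : LipschitzWith (K * Real.toNNReal (2 * Real.pi)) g := hF.comp (torus_lipschitz k)
  have hper : ∀ (l : Submodule.span ℤ (Set.range b)) (x : EuclideanSpace ℝ (Fin k)),
      g (l +ᵥ x) = g x := by
    intro l x
    have hl : ∀ i, ∃ n : ℤ, (l : EuclideanSpace ℝ (Fin k)) i = n := by
      intro i
      have := (b.mem_span_iff_repr_mem ℤ (l : EuclideanSpace ℝ (Fin k))).1 l.2 i
      obtain ⟨n, hn⟩ := this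
      have hr : ∀ (y : EuclideanSpace ℝ (Fin k)) (i : Fin k),
          ((EuclideanSpace.basisFun (Fin k) ℝ).toBasis.repr y) i = y i := by
        intro y i
        simp
      refine ⟨n, ?_⟩
      have h1 := hn.trans (hr _ _)
      rw [← h1]
      simp
    simp only [hg, Function.comp_apply, Submodule.vadd_def, vadd_eq_add]
    rw [torus_add_int _ _ hl]
  have h1 : ∀ ε : Fin k → Bool, ∫⁻ x in cell k, ‖F (-torus k x) - F (torus k x)‖ₑ ^ p ≤
      ∫⁻ x in cell k, ‖fderiv ℝ g x (half ε)‖ₑ ^ p := by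
    intro ε
    have := shift_le_fderiv b volume hp hgL hper (half ε)
    refine le_trans (le_of_eq ?_) this
    refine lintegral_congr fun x => ?_
    simp only [hg, Function.comp_apply, torus_add_half]
  have h2 : (2 ^ k : ℝ≥0∞) * ∫⁻ x in cell k, ‖F (-torus k x) - F (torus k x)‖ₑ ^ p ≤
      ∫⁻ x in cell k, ∑ ε : Fin k → Bool, ‖fderiv ℝ g x (half ε)‖ₑ ^ p := by
    rw [lintegral_finsetSum]
    · calc (2 ^ k : ℝ≥0∞) * ∫⁻ x in cell k, ‖F (-torus k x) - F (torus k x)‖ₑ ^ p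
          = ∑ _ε : Fin k → Bool, ∫⁻ x in cell k, ‖F (-torus k x) - F (torus k x)‖ₑ ^ p := by
            rw [Finset.sum_const, Finset.card_univ, nsmul_eq_mul]
            simp only [Fintype.card_pi, Fintype.card_bool, Finset.prod_const, Finset.card_univ,
              Fintype.card_fin, Nat.cast_pow, Nat.cast_ofNat]
        _ ≤ _ := Finset.sum_le_sum fun ε _ => h1 ε
    · intro ε _
      exact (measurable_fderiv_apply_const ℝ g _).enorm.pow_const _
  have h3 : ∀ x, ∑ ε : Fin k → Bool, ‖fderiv ℝ g x (half ε)‖ₑ ^ p ≤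
      (2 ^ k : ℝ≥0∞) * ENNReal.ofReal (C * Real.pi ^ p * K ^ p) := by
    intro x
    set φ := fderiv ℝ g x with hφ
    set v : Fin k → ℝ := fun i => φ (EuclideanSpace.single i (1 : ℝ)) / 2 with hv
    have hhalf : ∀ ε : Fin k → Bool, φ (half ε) = ∑ i, v i * sg (ε i) := by
      intro ε
      have : half ε = ∑ i, (sg (ε i) / 2) • EuclideanSpace.single i (1 : ℝ) := by
        ext j
        simp only [half, WithLp.ofLp_sum, WithLp.ofLp_smul, PiLp.ofLp_single, Finset.sum_apply,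
          Pi.smul_apply, Pi.single_apply, smul_eq_mul, mul_ite, mul_one, mul_zero,
          Finset.sum_ite_eq, Finset.mem_univ, ↓reduceIte]
      rw [this, map_sum]
      refine Finset.sum_congr rfl fun i _ => ?_
      rw [map_smul, hv, smul_eq_mul]
      ring
    have hnormφ : ‖φ‖ ≤ 2 * Real.pi * K := by
      have := norm_fderiv_le_of_lipschitz ℝ hgL (x₀ := x)
      rw [NNReal.coe_mul, Real.coe_toNNReal _ (by positivity)] at this
      linarith only [this]
    have hsq : Real.sqrt (∑ i, v i ^ 2) ≤ Real.pi * K := by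
      set a : EuclideanSpace ℝ (Fin k) :=
        WithLp.toLp 2 fun i => φ (EuclideanSpace.single i (1 : ℝ)) with ha
      have ha1 : φ a = ‖a‖ ^ 2 := by
        have : a = ∑ i, (φ (EuclideanSpace.single i (1 : ℝ))) • EuclideanSpace.single i (1 : ℝ) := by
          ext j
          simp only [ha, WithLp.ofLp_sum, WithLp.ofLp_smul, PiLp.ofLp_single, Finset.sum_apply,
            Pi.smul_apply, Pi.single_apply, smul_eq_mul, mul_ite, mul_one, mul_zero,
            Finset.sum_ite_eq, Finset.mem_univ, ↓reduceIte]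
        rw [EuclideanSpace.norm_eq, Real.sq_sqrt (Finset.sum_nonneg fun i _ => sq_nonneg _)]
        conv_lhs => rw [this]
        rw [map_sum]
        refine Finset.sum_congr rfl fun i _ => ?_
        rw [map_smul, smul_eq_mul, Real.norm_eq_abs, sq_abs, ha]
        simp only
        ring
      have ha2 : ‖a‖ ≤ ‖φ‖ := by
        have h := φ.le_opNorm a
        rw [ha1, Real.norm_of_nonneg (sq_nonneg _)] at h
        rcases (norm_nonneg a).eq_or_lt with h0 | h0
        · rw [← h0]; exact norm_nonneg _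
        · nlinarith only [h, h0]
      have ha3 : Real.sqrt (∑ i, v i ^ 2) = ‖a‖ / 2 := by
        rw [EuclideanSpace.norm_eq]
        have : ∑ i, v i ^ 2 = (∑ i, ‖a i‖ ^ 2) / 2 ^ 2 := by
          rw [Finset.sum_div]
          refine Finset.sum_congr rfl fun i _ => ?_
          rw [Real.norm_eq_abs, sq_abs, hv]
          simp only [ha]
          ring
        rw [this, Real.sqrt_div (Finset.sum_nonneg fun i _ => sq_nonneg _), Real.sqrt_sq (by norm_num)]
      rw [ha3]
      linarith only [hnormφ, ha2]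
    have hk := hkh k v
    have e1 : ∀ ε : Fin k → Bool, ‖φ (half ε)‖ₑ ^ p =
        ENNReal.ofReal (|∑ i, v i * sg (ε i)| ^ p) := by
      intro ε
      rw [hhalf, ← ofReal_norm, Real.norm_eq_abs,
        ENNReal.ofReal_rpow_of_nonneg (abs_nonneg _) hp0.le]
    rw [Finset.sum_congr rfl fun ε _ => e1 ε, ← ENNReal.ofReal_sum_of_nonneg
      fun ε _ => Real.rpow_nonneg (abs_nonneg _) _]
    have e2 : (2 ^ k : ℝ≥0∞) = ENNReal.ofReal (2 ^ k) := by
      rw [ENNReal.ofReal_pow (by norm_num)]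
      simp
    rw [e2, ← ENNReal.ofReal_mul (by positivity)]
    refine ENNReal.ofReal_le_ofReal (hk.trans ?_)
    have hK0 : (0 : ℝ) ≤ K := K.2
    have : Real.sqrt (∑ i, v i ^ 2) ^ p ≤ Real.pi ^ p * K ^ p := by
      rw [← Real.mul_rpow (by positivity) hK0]
      exact Real.rpow_le_rpow (Real.sqrt_nonneg _) hsq hp0.le
    calc 2 ^ k * (C * Real.sqrt (∑ i, v i ^ 2) ^ p) ≤ 2 ^ k * (C * (Real.pi ^ p * K ^ p)) := by (clear * - hC this; gcongr)
      _ = _ := by ring
  have h4 : (2 ^ k : ℝ≥0∞) * ∫⁻ x in cell k, ‖F (-torus k x) - F (torus k x)‖ₑ ^ p ≤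
      (2 ^ k : ℝ≥0∞) * (ENNReal.ofReal (C * Real.pi ^ p * K ^ p) * volume (cell k)) := by
    refine h2.trans ((lintegral_mono h3).trans ?_)
    rw [lintegral_const, Measure.restrict_apply_univ, mul_assoc]
  exact (ENNReal.mul_le_mul_iff_right (by positivity) (by simp)).1 h4

/-- For finitely many Lipschitz functions on the torus some antipodal pair is barely separated. -/
theorem antipodal {p : ℝ} (hp : 1 ≤ p) : ∃ C : ℝ, 0 < C ∧ ∀ (k d : ℕ) (K : ℝ≥0)
    (F : Fin d → EuclideanSpace ℂ (Fin k) → ℝ), (∀ j, LipschitzWith K (F j)) →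
    ∃ u : EuclideanSpace ℝ (Fin k),
      ∑ j, |F j (-torus k u) - F j (torus k u)| ^ p ≤ d * (C * K ^ p) := by
  obtain ⟨C, hC, h⟩ := antipodal_one hp
  have hp0 : 0 < p := by linarith
  refine ⟨C, hC, fun k d K F hF => ?_⟩
  have hcont : ∀ j, Continuous fun x : EuclideanSpace ℝ (Fin k) =>
      F j (-torus k x) - F j (torus k x) := by
    intro j
    have h1 := (hF j).continuous
    have h2 := (torus_lipschitz k).continuous
    fun_prop
  obtain ⟨u, -, hu⟩ := exists_le_setLAverage (μ := (volume : Measure (EuclideanSpace ℝ (Fin k))))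
    (s := cell k) (f := fun x => ∑ j, ‖F j (-torus k x) - F j (torus k x)‖ₑ ^ p)
    (cell_ne_zero k) (cell_ne_top k)
    (by
      refine (Finset.measurable_sum _ fun j _ => ?_).aemeasurable
      exact ((hcont j).measurable.enorm.pow_const _))
  refine ⟨u, ?_⟩
  rw [setLAverage_eq, lintegral_finsetSum _
    (fun j _ => (hcont j).measurable.enorm.pow_const _)] at hu
  have h1 : ∑ j : Fin d, ∫⁻ x in cell k, ‖F j (-torus k x) - F j (torus k x)‖ₑ ^ p ≤
      ENNReal.ofReal (d * (C * K ^ p)) * volume (cell k) := by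
    calc ∑ j : Fin d, ∫⁻ x in cell k, ‖F j (-torus k x) - F j (torus k x)‖ₑ ^ p
        ≤ ∑ _j : Fin d, ENNReal.ofReal (C * K ^ p) * volume (cell k) :=
          Finset.sum_le_sum fun j _ => h k K (F j) (hF j)
      _ = ENNReal.ofReal (d * (C * K ^ p)) * volume (cell k) := by
          rw [Finset.sum_const, Finset.card_univ, nsmul_eq_mul, Fintype.card_fin,
            ENNReal.ofReal_mul (p := (d : ℝ)) (by (clear * -; positivity)), ENNReal.ofReal_natCast, mul_assoc]
  have h2 : ∑ j : Fin d, ‖F j (-torus k u) - F j (torus k u)‖ₑ ^ p ≤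
      ENNReal.ofReal (d * (C * K ^ p)) := by
    refine hu.trans ?_
    rw [ENNReal.div_le_iff (cell_ne_zero k) (cell_ne_top k)]
    exact h1
  have h3 : ∑ j : Fin d, ‖F j (-torus k u) - F j (torus k u)‖ₑ ^ p =
      ENNReal.ofReal (∑ j : Fin d, |F j (-torus k u) - F j (torus k u)| ^ p) := by
    rw [ENNReal.ofReal_sum_of_nonneg fun j _ => Real.rpow_nonneg (abs_nonneg _) _]
    refine Finset.sum_congr rfl fun j _ => ?_
    rw [← ofReal_norm, Real.norm_eq_abs, ENNReal.ofReal_rpow_of_nonneg (abs_nonneg _) hp0.le]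
  rw [h3] at h2
  exact (ENNReal.ofReal_le_ofReal_iff (by (clear * - hC; positivity))).1 h2

end Vale.Agent.P249
end
end

section

section

open MeasureTheory Set Filter Topology
open scoped ENNReal NNReal Pointwise RealInnerProductSpace

namespace Vale.Agent.P249

section Iso

variable {H : Type*} [NormedAddCommGroup H] [InnerProductSpace ℝ H] [FiniteDimensional ℝ H]
  [MeasurableSpace H] [BorelSpace H]

/-- Lebesgue measure restricted to the unit ball. -/
noncomputable def ballMeasure (H : Type*) [NormedAddCommGroup H] [InnerProductSpace ℝ H]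
    [FiniteDimensional ℝ H] [MeasurableSpace H] [BorelSpace H] : Measure H :=
  volume.restrict (Metric.ball (0 : H) 1)

instance : IsFiniteMeasure (ballMeasure H) :=
  ⟨by rw [ballMeasure, Measure.restrict_apply_univ]; exact measure_ball_lt_top⟩

theorem inner_aesm (x : H) : AEStronglyMeasurable (fun ω : H => ⟪x, ω⟫) (ballMeasure H) :=
  Continuous.aestronglyMeasurable (by fun_prop)

theorem memLp_inner (P : ℝ≥0∞) (x : H) : MemLp (fun ω : H => ⟪x, ω⟫) P (ballMeasure H) := by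
  refine MemLp.of_bound (inner_aesm x) ‖x‖ ?_
  refine (ae_restrict_iff' Metric.isOpen_ball.measurableSet).2 (Eventually.of_forall fun ω hω => ?_)
  have h1 : ‖ω‖ < 1 := by simpa only [Metric.mem_ball, dist_zero_right] using hω
  calc ‖⟪x, ω⟫‖ ≤ ‖x‖ * ‖ω‖ := norm_inner_le_norm _ _
    _ ≤ ‖x‖ * 1 := by (clear * - h1; gcongr)
    _ = ‖x‖ := mul_one _

theorem eLpNorm_inner_eq {P : ℝ≥0∞} {x y : H} (h : ‖x‖ = ‖y‖) :
    eLpNorm (fun ω : H => ⟪x, ω⟫) P (ballMeasure H) =
      eLpNorm (fun ω : H => ⟪y, ω⟫) P (ballMeasure H) := by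
  set ρ : H ≃ₗᵢ[ℝ] H := (Submodule.span ℝ {x - y})ᗮ.reflection with hρ
  have hρx : ρ x = y := Submodule.reflection_sub h
  have hmp : MeasurePreserving ρ (ballMeasure H) (ballMeasure H) := by
    have h0 : MeasurePreserving ρ (volume : Measure H) volume := ρ.measurePreserving
    have := h0.restrict_preimage (s := Metric.ball (0 : H) 1) Metric.isOpen_ball.measurableSet
    have e : ρ ⁻¹' Metric.ball (0 : H) 1 = Metric.ball (0 : H) 1 := by
      ext ω
      simp only [LinearIsometryEquiv.preimage_ball, map_zero, Metric.mem_ball, dist_zero_right]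
    rw [e] at this
    exact this
  have hcomp : (fun ω : H => ⟪x, ω⟫) = (fun ω : H => ⟪y, ω⟫) ∘ ρ := by
    funext ω
    rw [Function.comp_apply, ← hρx, LinearIsometryEquiv.inner_map_map]
  rw [hcomp]
  exact eLpNorm_comp_measurePreserving (inner_aesm y) hmp

theorem eLpNorm_inner_smul {P : ℝ≥0∞} (t : ℝ) (x : H) :
    eLpNorm (fun ω : H => ⟪t • x, ω⟫) P (ballMeasure H) =
      ‖t‖ₑ * eLpNorm (fun ω : H => ⟪x, ω⟫) P (ballMeasure H) := by
  have : (fun ω : H => ⟪t • x, ω⟫) = t • (fun ω : H => ⟪x, ω⟫) := by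
    funext ω
    simp only [real_inner_smul_left, Pi.smul_apply, smul_eq_mul]
  rw [this, eLpNorm_const_smul]

theorem eLpNorm_inner_ne_zero {P : ℝ≥0∞} (hP : P ≠ 0) {x : H} (hx : x ≠ 0) :
    eLpNorm (fun ω : H => ⟪x, ω⟫) P (ballMeasure H) ≠ 0 := by
  rw [Ne, eLpNorm_eq_zero_iff (inner_aesm x) hP]
  intro h
  have h1 : ∀ᵐ ω ∂(volume : Measure H), ω ∈ Metric.ball (0 : H) 1 → ⟪x, ω⟫ = 0 :=
    (ae_restrict_iff' Metric.isOpen_ball.measurableSet).1 h
  set U : Set H := Metric.ball (0 : H) 1 ∩ {ω | ⟪x, ω⟫ ≠ 0} with hU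
  have hUo : IsOpen U := by
    refine Metric.isOpen_ball.inter ?_
    exact isOpen_ne_fun (by fun_prop) continuous_const
  have hUne : U.Nonempty := by
    have hx0 : 0 < ‖x‖ := norm_pos_iff.2 hx
    refine ⟨(2 * ‖x‖)⁻¹ • x, ?_, ?_⟩
    · rw [mem_ball_zero_iff, norm_smul, norm_inv, Real.norm_of_nonneg (by positivity)]
      rw [inv_mul_lt_iff₀ (by positivity)]
      linarith only [hx0]
    · simp only [mem_ofPred_eq, real_inner_smul_right, real_inner_self_eq_norm_sq]
      positivity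
  have hpos : 0 < volume U := hUo.measure_pos volume hUne
  have hzero : volume U = 0 := by
    refine measure_mono_null ?_ (ae_iff.1 h1)
    rintro ω ⟨h2, h3⟩
    simp only [mem_ofPred_eq, Classical.not_imp]
    exact ⟨h2, h3⟩
  exact hpos.ne' hzero

/-- Hilbert spaces of finite dimension embed into `L_p` of the ball, isometrically up to a
constant factor. -/
theorem exists_scaled_isometry [Nontrivial H] (P : ℝ≥0∞) (hP : P ≠ 0) :
    ∃ c : ℝ, 0 < c ∧ ∃ J : H → Lp ℝ P (ballMeasure H), ∀ x y, ‖J x - J y‖ = c * ‖x - y‖ := by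
  obtain ⟨e, he⟩ := exists_norm_eq H (zero_le_one' ℝ)
  have he0 : e ≠ 0 := by
    rintro rfl
    simp only [norm_zero, zero_ne_one] at he
  set c := (eLpNorm (fun ω : H => ⟪e, ω⟫) P (ballMeasure H)).toReal with hc
  have hcpos : 0 < c := ENNReal.toReal_pos (eLpNorm_inner_ne_zero hP he0) (memLp_inner P e).2.ne
  refine ⟨c, hcpos, fun x => (memLp_inner P x).toLp _, fun x y => ?_⟩
  rw [← MemLp.toLp_sub, Lp.norm_toLp]
  have h1 : ((fun ω : H => ⟪x, ω⟫) - fun ω : H => ⟪y, ω⟫) = fun ω : H => ⟪x - y, ω⟫ := by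
    funext ω
    simp [inner_sub_left]
  rw [h1]
  have h2 : ‖x - y‖ = ‖(‖x - y‖) • e‖ := by
    rw [norm_smul, he, mul_one, norm_norm]
  rw [eLpNorm_inner_eq h2, eLpNorm_inner_smul, ENNReal.toReal_mul]
  simp [hc, mul_comm]

end Iso

end Vale.Agent.P249
end
end

section

section

/-!
# P249: importance sampling of a finite subset of `L_p` along a `p`-conductance spanner
-/

namespace Vale.Agent.P249

open MeasureTheory
open scoped ENNReal

section
variable {Ω : Type*} [MeasurableSpace Ω] {μ : Measure Ω}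

theorem toReal_pos_of {p : ℝ≥0∞} [hp : Fact (1 ≤ p)] (hpt : p ≠ ∞) : 0 < p.toReal :=
  ENNReal.toReal_pos (zero_lt_one.trans_le hp.out).ne' hpt

theorem integrable_abs_sub_rpow {p : ℝ≥0∞} [hp : Fact (1 ≤ p)] (hpt : p ≠ ∞)
    (x y : Lp ℝ p μ) : Integrable (fun ω => |x ω - y ω| ^ p.toReal) μ := by
  have h1 : MemLp (fun ω => x ω - y ω) p μ := (Lp.memLp x).sub (Lp.memLp y)
  have h2 := h1.integrable_norm_rpow (zero_lt_one.trans_le hp.out).ne' hpt
  simpa only [Real.norm_eq_abs] using h2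

theorem integral_abs_sub_rpow {p : ℝ≥0∞} [hp : Fact (1 ≤ p)] (hpt : p ≠ ∞)
    (x y : Lp ℝ p μ) : ∫ ω, |x ω - y ω| ^ p.toReal ∂μ = ‖x - y‖ ^ p.toReal := by
  have hp1 : 0 < p.toReal := toReal_pos_of hpt
  have h1 : MemLp (fun ω => x ω - y ω) p μ := (Lp.memLp x).sub (Lp.memLp y)
  have h2 := h1.eLpNorm_eq_integral_rpow_norm (zero_lt_one.trans_le hp.out).ne' hpt
  simp only [Real.norm_eq_abs] at h2
  have h3 : 0 ≤ ∫ ω, |x ω - y ω| ^ p.toReal ∂μ :=
    integral_nonneg fun ω => Real.rpow_nonneg (abs_nonneg _) _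
  have h4 : eLpNorm (⇑(x - y)) p μ =
      eLpNorm (fun ω => x ω - y ω) p μ := eLpNorm_congr_ae (Lp.coeFn_sub x y)
  rw [Lp.norm_def, h4, h2, ENNReal.toReal_ofReal (Real.rpow_nonneg h3 _),
    ← Real.rpow_mul h3, inv_mul_cancel₀ hp1.ne', Real.rpow_one]

theorem norm_sub_pos {p : ℝ≥0∞} [hp : Fact (1 ≤ p)] {x y : Lp ℝ p μ} (h : x ≠ y) :
    0 < ‖x - y‖ := norm_pos_iff.2 (sub_ne_zero.2 h)

/-- Sample points for a finite subset of `L_p`. -/
theorem exists_sample {P : ℝ≥0∞} [hP : Fact (1 ≤ P)] (hPt : P ≠ ∞) (X : Finset (Lp ℝ P μ))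
    (H : Finset (X × X)) (hH : ∀ e ∈ H, e.1 ≠ e.2)
    (hspan : ∀ φ : X → ℝ, ∀ i j : X, i ≠ j →
      |φ i - φ j| ^ P.toReal / ‖(i : Lp ℝ P μ) - j‖ ^ P.toReal ≤
        ∑ e ∈ H, |φ e.1 - φ e.2| ^ P.toReal / ‖(e.1 : Lp ℝ P μ) - e.2‖ ^ P.toReal)
    {ε : ℝ} (hε : 0 < ε) (hε1 : ε < 1) (m : ℕ)
    (hm : 4 * H.card * Real.log (2 * (X.card : ℝ) ^ 2) / ε ^ 2 ≤ m) (hm0 : 0 < m)
    (hX2 : ∃ i j : X, i ≠ j) :
    ∃ (z : Fin m → Ω) (c : Fin m → ℝ), (∀ k, 0 ≤ c k) ∧ ∀ x ∈ X, ∀ y ∈ X,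
      (1 - ε) * ‖x - y‖ ^ P.toReal ≤ ∑ k, c k * |x (z k) - y (z k)| ^ P.toReal ∧
      ∑ k, c k * |x (z k) - y (z k)| ^ P.toReal ≤ (1 + ε) * ‖x - y‖ ^ P.toReal := by
  classical
  have hp0 : 0 < P.toReal := toReal_pos_of hPt
  rcases H.eq_empty_or_nonempty with hHe | hHne
  · -- degenerate case: all points coincide
    subst hHe
    have hsub : ∀ i j : X, i = j := by
      intro i j
      by_contra hij
      have h1 := hspan (fun k => if k = i then 1 else 0) i j hij
      have h2 : 0 < ‖(i : Lp ℝ P μ) - j‖ :=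
        norm_sub_pos fun h => hij (Subtype.ext h)
      have h3 : 0 < ‖(i : Lp ℝ P μ) - j‖ ^ P.toReal := Real.rpow_pos_of_pos h2 _
      simp only [if_true, if_neg (Ne.symm hij), sub_zero, abs_one, Real.one_rpow,
        Finset.sum_empty] at h1
      have h4 : 0 < 1 / ‖(i : Lp ℝ P μ) - j‖ ^ P.toReal := by positivity
      linarith only [h1, h4]
    obtain ⟨i, j, hij⟩ := hX2
    exact (hij (hsub i j)).elim
  · -- main case
    have hKpos : (0 : ℝ) < H.card := by exact_mod_cast hHne.card_pos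
    set K : ℝ := (H.card : ℝ) with hK
    let dd : X → X → ℝ := fun i j => ‖(i : Lp ℝ P μ) - j‖
    have hdd : ∀ i j : X, i ≠ j → 0 < dd i j ^ P.toReal := fun i j hij =>
      Real.rpow_pos_of_pos (norm_sub_pos fun h => hij (Subtype.ext h)) _
    let a : X → X → Ω → ℝ := fun i j ω =>
      |(i : Lp ℝ P μ) ω - (j : Lp ℝ P μ) ω| ^ P.toReal / dd i j ^ P.toReal
    have ha0 : ∀ i j ω, 0 ≤ a i j ω := fun i j ω =>
      div_nonneg (Real.rpow_nonneg (abs_nonneg _) _)
        (Real.rpow_nonneg (norm_nonneg ((i : Lp ℝ P μ) - j)) _)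
    have hai : ∀ i j, Integrable (a i j) μ := fun i j =>
      (integrable_abs_sub_rpow hPt _ _).div_const _
    have ha1 : ∀ i j, i ≠ j → ∫ ω, a i j ω ∂μ = 1 := by
      intro i j hij
      have : ∫ ω, a i j ω ∂μ = (∫ ω, |(i : Lp ℝ P μ) ω -
          (j : Lp ℝ P μ) ω| ^ P.toReal ∂μ) / dd i j ^ P.toReal := integral_div _ _
      rw [this, integral_abs_sub_rpow hPt]
      exact div_self (hdd i j hij).ne'
    have ham : ∀ i j, Measurable (a i j) := by
      intro i j
      have h1 : Measurable fun ω => (i : Lp ℝ P μ) ω -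
          (j : Lp ℝ P μ) ω :=
        ((Lp.stronglyMeasurable _).measurable.sub (Lp.stronglyMeasurable _).measurable)
      have h2 : Measurable fun ω => |(i : Lp ℝ P μ) ω -
          (j : Lp ℝ P μ) ω| := continuous_abs.measurable.comp h1
      exact (h2.pow_const P.toReal).div_const _
    let h : Ω → ℝ := fun ω => (∑ e ∈ H, a e.1 e.2 ω) / K
    have hhm : Measurable h :=
      (Finset.measurable_fun_sum H fun e _ => ham e.1 e.2).div_const _
    have hh0 : ∀ ω, 0 ≤ h ω := fun ω =>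
      div_nonneg (Finset.sum_nonneg fun e _ => ha0 _ _ _) hKpos.le
    have hhi : Integrable h μ :=
      (integrable_finsetSum H fun e _ => hai e.1 e.2).div_const _
    have hh1 : ∫ ω, h ω ∂μ = 1 := by
      have e1 : ∫ ω, h ω ∂μ = (∫ ω, (∑ e ∈ H, a e.1 e.2 ω) ∂μ) / K := integral_div _ _
      rw [e1, integral_finsetSum H fun e _ => hai e.1 e.2]
      have e2 : ∑ e ∈ H, ∫ ω, a e.1 e.2 ω ∂μ = ∑ e ∈ H, (1 : ℝ) :=
        Finset.sum_congr rfl fun e he => ha1 _ _ (hH e he)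
      rw [e2, Finset.sum_const, nsmul_eq_mul, mul_one, ← hK]
      exact div_self hKpos.ne'
    have hdom : ∀ i j : X, i ≠ j → ∀ ω, a i j ω ≤ K * h ω := by
      intro i j hij ω
      have e1 : K * h ω = ∑ e ∈ H, a e.1 e.2 ω := by
        show K * ((∑ e ∈ H, a e.1 e.2 ω) / K) = _
        (clear * - hKpos; field_simp)
      rw [e1]
      exact hspan (fun x => (x : Lp ℝ P μ) ω) i j hij
    let ν : Measure Ω := μ.withDensity fun ω => ENNReal.ofReal (h ω)
    have hν : IsProbabilityMeasure ν := by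
      constructor
      show (μ.withDensity fun ω => ENNReal.ofReal (h ω)) Set.univ = 1
      rw [withDensity_apply _ MeasurableSet.univ, Measure.restrict_univ,
        ← ofReal_integral_eq_lintegral_ofReal hhi (Filter.Eventually.of_forall hh0), hh1,
        ENNReal.ofReal_one]
    let g : {e : X × X // e.1 ≠ e.2} → Ω → ℝ := fun e ω => a e.1.1 e.1.2 ω / h ω
    have hgm : ∀ e, Measurable (g e) := fun e => (ham _ _).div hhm
    have hg0 : ∀ e ω, 0 ≤ g e ω := fun e ω => div_nonneg (ha0 _ _ _) (hh0 ω)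
    have hgK : ∀ e ω, g e ω ≤ K := by
      intro e ω
      exact div_le_of_le_mul₀ (hh0 ω) hKpos.le (hdom _ _ e.2 ω)
    have hga : ∀ (e : {e : X × X // e.1 ≠ e.2}) ω, h ω * g e ω = a e.1.1 e.1.2 ω := by
      intro e ω
      rcases eq_or_ne (h ω) 0 with hz | hz
      · have h1 := hdom _ _ e.2 ω
        rw [hz, mul_zero] at h1
        have h2 := le_antisymm h1 (ha0 _ _ _)
        rw [hz, zero_mul, h2]
      · exact mul_div_cancel₀ _ hz
    have hg1 : ∀ e, ∫ ω, g e ω ∂ν = 1 := by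
      intro e
      have e1 : ∫ ω, g e ω ∂ν = ∫ ω, (ENNReal.ofReal (h ω)).toReal • g e ω ∂μ :=
        integral_withDensity_eq_integral_toReal_smul hhm.ennreal_ofReal
          (Filter.Eventually.of_forall fun ω => ENNReal.ofReal_lt_top) _
      rw [e1]
      have e2 : ∀ ω, (ENNReal.ofReal (h ω)).toReal • g e ω = a e.1.1 e.1.2 ω := by
        intro ω
        rw [ENNReal.toReal_ofReal (hh0 ω), smul_eq_mul, hga]
      simp_rw [e2]
      exact ha1 _ _ e.2
    have hXcard : 0 < X.card := by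
      obtain ⟨e, _⟩ := hHne
      exact Finset.card_pos.2 ⟨e.1, e.1.2⟩
    have hcard : 4 * K * Real.log (2 * Fintype.card {e : X × X // e.1 ≠ e.2}) / ε ^ 2 ≤ m := by
      refine le_trans ?_ hm
      have h1 : Fintype.card {e : X × X // e.1 ≠ e.2} ≤ X.card ^ 2 := by
        calc Fintype.card {e : X × X // e.1 ≠ e.2} ≤ Fintype.card (X × X) :=
              Fintype.card_subtype_le _
          _ = X.card ^ 2 := by rw [Fintype.card_prod, Fintype.card_coe, sq]
      have h2 : (Fintype.card {e : X × X // e.1 ≠ e.2} : ℝ) ≤ (X.card : ℝ) ^ 2 := by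
        exact_mod_cast h1
      have h3 : Real.log (2 * Fintype.card {e : X × X // e.1 ≠ e.2}) ≤
          Real.log (2 * (X.card : ℝ) ^ 2) := by
        obtain ⟨e, he⟩ := hHne
        have : Nonempty {e : X × X // e.1 ≠ e.2} := ⟨⟨e, hH e he⟩⟩
        have : 0 < Fintype.card {e : X × X // e.1 ≠ e.2} := Fintype.card_pos
        refine Real.log_le_log (by positivity) (by linarith only [h2])
      exact div_le_div_of_nonneg_right (mul_le_mul_of_nonneg_left h3 (by (clear * - hHne; positivity)))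
        (by positivity)
    obtain ⟨z, hz⟩ := chernoff ν g (fun e => (hgm e).aestronglyMeasurable) hKpos hg0 hgK hg1 hε
      (by linarith only [hε, hε1]) m hcard
    have hmR : (0 : ℝ) < m := by exact_mod_cast hm0
    refine ⟨z, fun k => 1 / (m * h (z k)), fun k => div_nonneg zero_le_one
      (mul_nonneg hmR.le (hh0 _)), fun x hx y hy => ?_⟩
    rcases eq_or_ne x y with hxy | hxy
    · subst hxy
      simp only [sub_self, norm_zero, ne_eq, hp0.ne', not_false_eq_true, Real.zero_rpow, mul_zero,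
        one_div, mul_inv_rev, abs_zero, Finset.sum_const_zero, Std.le_refl, and_self]
    · let i : X := ⟨x, hx⟩
      let j : X := ⟨y, hy⟩
      have hij : i ≠ j := fun hh => hxy (congrArg Subtype.val hh)
      have hb := hz ⟨(i, j), hij⟩
      rw [abs_le] at hb
      set S : ℝ := ∑ k, g ⟨(i, j), hij⟩ (z k) with hS
      have hdpos : 0 < ‖x - y‖ ^ P.toReal := Real.rpow_pos_of_pos (norm_sub_pos hxy) _
      have hterm : ∀ k : Fin m, 1 / (m * h (z k)) * |x (z k) - y (z k)| ^ P.toReal =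
          ‖x - y‖ ^ P.toReal / m * g ⟨(i, j), hij⟩ (z k) := by
        intro k
        show 1 / (m * h (z k)) * |x (z k) - y (z k)| ^ P.toReal =
          ‖x - y‖ ^ P.toReal / m * ((|x (z k) - y (z k)| ^ P.toReal / ‖x - y‖ ^ P.toReal) / h (z k))
        (clear * - hm0 hdpos; field_simp)
      simp_rw [hterm]
      rw [← Finset.mul_sum, ← hS]
      have hlow : 1 - ε ≤ S / m := by
        rw [le_div_iff₀ hmR]; nlinarith only [hb.1, hb]
      have hupp : S / m ≤ 1 + ε := by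
        rw [div_le_iff₀ hmR]; nlinarith only [hb.2, hb]
      have e1 : ‖x - y‖ ^ P.toReal / m * S = (S / m) * ‖x - y‖ ^ P.toReal := by ring
      rw [e1]
      exact ⟨mul_le_mul_of_nonneg_right hlow hdpos.le, mul_le_mul_of_nonneg_right hupp hdpos.le⟩

/-- Sampling coordinates with probability proportional to the energy of a set `H` of pairs that
controls all pairs. -/
theorem embed_of_spanner {P : ℝ≥0∞} [hP : Fact (1 ≤ P)] (hPt : P ≠ ∞) (X : Finset (Lp ℝ P μ))
    (H : Finset (X × X)) (hH : ∀ e ∈ H, e.1 ≠ e.2)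
    (hspan : ∀ φ : X → ℝ, ∀ i j : X, i ≠ j →
      |φ i - φ j| ^ P.toReal / ‖(i : Lp ℝ P μ) - j‖ ^ P.toReal ≤
        ∑ e ∈ H, |φ e.1 - φ e.2| ^ P.toReal / ‖(e.1 : Lp ℝ P μ) - e.2‖ ^ P.toReal)
    {ε : ℝ} (hε : 0 < ε) (hε1 : ε < 1) (m : ℕ)
    (hm : 4 * H.card * Real.log (2 * (X.card : ℝ) ^ 2) / ε ^ 2 ≤ m) (hm0 : 0 < m) :
    ∃ f : Lp ℝ P μ → PiLp P (fun _ : Fin m => ℝ),
      DistortionAtMost X f (((1 + ε) / (1 - ε)) ^ (1 / P.toReal)) := by
  have hp0 : 0 < P.toReal := toReal_pos_of hPt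
  by_cases hX2 : ∃ i j : X, i ≠ j
  swap
  · push Not at hX2
    refine ⟨fun _ => 0, 1, one_pos, fun x hx y hy => ?_⟩
    have hxy : x = y := congrArg Subtype.val (hX2 ⟨x, hx⟩ ⟨y, hy⟩)
    subst hxy
    simp only [sub_self, norm_zero, mul_zero, Std.le_refl, one_div, mul_one, and_self]
  obtain ⟨z, c, hc, hz⟩ := exists_sample hPt X H hH hspan hε hε1 m hm hm0 hX2
  refine ⟨fun x => WithLp.toLp P fun k => c k ^ (1 / P.toReal) * x (z k),
      (1 - ε) ^ (1 / P.toReal), Real.rpow_pos_of_pos (by linarith only [hε1]) _, fun x hx y hy => ?_⟩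
  obtain ⟨h1, h2⟩ := hz x hx y hy
  have hterm : ∀ k : Fin m, |c k ^ (1 / P.toReal) * x (z k) -
      c k ^ (1 / P.toReal) * y (z k)| ^ P.toReal = c k * |x (z k) - y (z k)| ^ P.toReal := by
    intro k
    rw [← mul_sub, abs_mul, abs_of_nonneg (Real.rpow_nonneg (hc k) _),
      Real.mul_rpow (Real.rpow_nonneg (hc k) _) (abs_nonneg _), ← Real.rpow_mul (hc k),
      one_div_mul_cancel hp0.ne', Real.rpow_one]
  have hnorm : ‖(WithLp.toLp P fun k : Fin m => c k ^ (1 / P.toReal) * x (z k)) -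
      (WithLp.toLp P fun k : Fin m => c k ^ (1 / P.toReal) * y (z k))‖ =
        (∑ k, c k * |x (z k) - y (z k)| ^ P.toReal) ^ (1 / P.toReal) := by
    rw [PiLp.norm_eq_sum hp0]
    simp only [PiLp.sub_apply, Real.norm_eq_abs]
    simp_rw [hterm]
  have hroot : ∀ t : ℝ, 0 ≤ t → (t * ‖x - y‖ ^ P.toReal) ^ (1 / P.toReal) =
      t ^ (1 / P.toReal) * ‖x - y‖ := by
    intro t ht
    rw [Real.mul_rpow ht (Real.rpow_nonneg (norm_nonneg _) _),
          ← Real.rpow_mul (norm_nonneg _), mul_one_div_cancel hp0.ne', Real.rpow_one]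
  have hS0 : 0 ≤ ∑ k, c k * |x (z k) - y (z k)| ^ P.toReal :=
    Finset.sum_nonneg fun k _ => mul_nonneg (hc k) (Real.rpow_nonneg (abs_nonneg _) _)
  dsimp only
  rw [hnorm]
  constructor
  · rw [← hroot _ (by linarith only [hε1])]
    exact Real.rpow_le_rpow (mul_nonneg (by linarith only [hε1]) (Real.rpow_nonneg (norm_nonneg _) _)) h1
      (by positivity)
  · rw [← Real.mul_rpow (div_nonneg (by linarith only [hε, hε1]) (by linarith only [hε1])) (by linarith only [hε1]),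
      div_mul_cancel₀ _ (by linarith only [hε1] : (1 - ε) ≠ 0), ← hroot _ (by linarith only [hε, hε1])]
    exact Real.rpow_le_rpow hS0 h2 (by positivity)

/-- Sampling with all pairs: polynomial dimension with any distortion `> 1`. -/
theorem embed_all_pairs {P : ℝ≥0∞} [hP : Fact (1 ≤ P)] (hPt : P ≠ ∞) (X : Finset (Lp ℝ P μ))
    {ε : ℝ} (hε : 0 < ε) (hε1 : ε < 1) (m : ℕ)
    (hm : 4 * (X.card : ℝ) ^ 2 * Real.log (2 * (X.card : ℝ) ^ 2) / ε ^ 2 ≤ m) (hm0 : 0 < m) :
    ∃ f : Lp ℝ P μ → PiLp P (fun _ : Fin m => ℝ),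
      DistortionAtMost X f (((1 + ε) / (1 - ε)) ^ (1 / P.toReal)) := by
  classical
  have h1 : ((Finset.univ : Finset X).offDiag.card : ℝ) ≤ (X.card : ℝ) ^ 2 := by
    have : (Finset.univ : Finset X).offDiag.card ≤ X.card ^ 2 := by
      rw [Finset.offDiag_card, Finset.card_univ, Fintype.card_coe, sq]
      exact Nat.sub_le _ _
    exact_mod_cast this
  refine embed_of_spanner hPt X (Finset.univ : Finset X).offDiag
    (fun e he => (Finset.mem_offDiag.1 he).2.2) (fun φ i j hij => ?_) hε hε1 m ?_ hm0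
  · have hmem : (i, j) ∈ (Finset.univ : Finset X).offDiag :=
      Finset.mem_offDiag.2 ⟨Finset.mem_univ i, Finset.mem_univ j, hij⟩
    exact Finset.single_le_sum (f := fun e : X × X => |φ e.1 - φ e.2| ^ P.toReal /
      ‖(e.1 : Lp ℝ P μ) - e.2‖ ^ P.toReal)
      (fun e _ => div_nonneg (Real.rpow_nonneg (abs_nonneg _) _)
        (Real.rpow_nonneg (norm_nonneg _) _)) hmem
  · refine le_trans ?_ hm
    rcases X.eq_empty_or_nonempty with hX | hX
    · subst hX
      simp
    · have hX1 : (1 : ℝ) ≤ X.card := by exact_mod_cast hX.card_pos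
      have h2 : 0 ≤ Real.log (2 * (X.card : ℝ) ^ 2) := Real.log_nonneg (by nlinarith only [hε,
                                                                             hε1, hX1])
      exact div_le_div_of_nonneg_right (mul_le_mul_of_nonneg_right (by linarith only [h1]) h2)
        (by positivity)

/-- Every `n`-point subset of `L_p` embeds with distortion `2` in `ℓ_p^N` for `N = 72 n ^ 3`. -/
theorem exists_embed_poly {P : ℝ≥0∞} [hP : Fact (1 ≤ P)] (hPt : P ≠ ∞) (X : Finset (Lp ℝ P μ))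
    (hX : 0 < X.card) :
    ∃ f : Lp ℝ P μ → PiLp P (fun _ : Fin (72 * X.card ^ 3) => ℝ), DistortionAtMost X f 2 := by
  have hn : (1 : ℝ) ≤ X.card := by exact_mod_cast hX
  have hlog : Real.log (2 * (X.card : ℝ) ^ 2) ≤ 2 * X.card := by
    have h1 : Real.log (2 * (X.card : ℝ) ^ 2) = Real.log 2 + 2 * Real.log X.card := by
      rw [Real.log_mul (by norm_num) (by (clear * - hX; positivity)), Real.log_pow]
      norm_num
    have h2 : Real.log X.card ≤ X.card - 1 := Real.log_le_sub_one_of_pos (by linarith only [hn])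
    have h3 := Real.log_two_lt_d9
    rw [h1]
    linarith
  obtain ⟨f, s, hs, hf⟩ := embed_all_pairs hPt X (ε := 1 / 3) (by norm_num) (by norm_num)
    (72 * X.card ^ 3) (by
      push_cast
      have h1 : 4 * (X.card : ℝ) ^ 2 * Real.log (2 * (X.card : ℝ) ^ 2) ≤
          4 * (X.card : ℝ) ^ 2 * (2 * X.card) := mul_le_mul_of_nonneg_left hlog (by positivity)
      have h2 : 4 * (X.card : ℝ) ^ 2 * Real.log (2 * (X.card : ℝ) ^ 2) / (1 / 3) ^ 2 ≤
          4 * (X.card : ℝ) ^ 2 * (2 * X.card) / (1 / 3) ^ 2 :=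
        div_le_div_of_nonneg_right h1 (by norm_num)
      refine h2.trans (le_of_eq ?_)
      ring) (by (clear * - hX; positivity))
  refine ⟨f, s, hs, fun x hx y hy => ⟨(hf x hx y hy).1, (hf x hx y hy).2.trans ?_⟩⟩
  have h1 : ((1 + 1 / 3) / (1 - 1 / 3) : ℝ) ^ (1 / P.toReal) ≤ 2 := by
    have e1 : ((1 + 1 / 3) / (1 - 1 / 3) : ℝ) = 2 := by norm_num
    rw [e1]
    have hp1 : 1 ≤ P.toReal := by
      rw [← ENNReal.toReal_one]
      exact ENNReal.toReal_mono hPt hP.out
    calc (2 : ℝ) ^ (1 / P.toReal) ≤ (2 : ℝ) ^ (1 : ℝ) :=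
          Real.rpow_le_rpow_of_exponent_le (by norm_num)
            ((div_le_one (by linarith only [hp1])).2 hp1)
      _ = 2 := Real.rpow_one 2
  have h2 : 0 ≤ s * ‖x - y‖ := mul_nonneg hs.le (norm_nonneg _)
  calc ((1 + 1 / 3) / (1 - 1 / 3) : ℝ) ^ (1 / P.toReal) * s * ‖x - y‖
      = ((1 + 1 / 3) / (1 - 1 / 3) : ℝ) ^ (1 / P.toReal) * (s * ‖x - y‖) := by ring
    _ ≤ 2 * (s * ‖x - y‖) := mul_le_mul_of_nonneg_right h1 h2
    _ = 2 * s * ‖x - y‖ := by ring

end

end Vale.Agent.P249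
end
end

section

section

/-!
# P249: a linear-size set of pairs dominating all pairs, and the bound `C n log n`
-/

open MeasureTheory
open scoped ENNReal

namespace Vale.Agent.P249

theorem critical_inside_le {V : Type*} [DecidableEq V] {p : ℝ} {q r : ℕ} (hp : 0 < p)
    (hpq : p ≤ q) {H : Finset (V × V)} (hH : Critical p H) {B c M : ℝ} (hr : r = 2 * q + 1)
    (hc : c = 1 / ((r : ℝ) ^ 2 * 2 ^ r)) (hM : M = (16 / c) ^ p) (hB : B = 4 * r * M)
    (W : Finset V) :
    ((inside H W).card : ℝ) ≤ B * (W.card - (W.card : ℝ) ^ (1 - 1 / (r : ℝ))) := by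
  have hq1 : 1 ≤ q := by
    rcases Nat.eq_zero_or_pos q with h | h
    · subst h
      simp only [CharP.cast_eq_zero] at hpq
      linarith only [hp, hpq]
    · exact h
  have hrpos : (0 : ℝ) < r := by
    have : 0 < r := by omega
    exact_mod_cast this
  have hr1 : (1 : ℝ) < r := by
    have : 1 < r := by omega
    exact_mod_cast this
  have hcpos : 0 < c := by rw [hc]; (clear * - hrpos; positivity)
  have hBpos : 0 < B := by rw [hB, hM]; (clear * - hrpos hcpos; positivity)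
  set s : ℝ := 1 - 1 / (r : ℝ) with hs
  have hs1 : s ≤ 1 := by
    have : 0 < 1 / (r : ℝ) := by positivity
    linarith only [this]
  have hs0 : 0 < s := by
    have : 1 / (r : ℝ) < 1 := by rw [div_lt_one hrpos]; exact hr1
    linarith only [this]
  induction W using Finset.strongInduction with
  | H W ih =>
    by_contra hcon
    push Not at hcon
    -- the number of vertices
    have hnonneg : ∀ k : ℕ, 0 ≤ (k : ℝ) - (k : ℝ) ^ s := by
      intro k
      rcases Nat.eq_zero_or_pos k with h | h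
      · subst h
        simp [Real.zero_rpow hs0.ne']
      · have h1 : (1 : ℝ) ≤ k := by exact_mod_cast h
        have h2 : (k : ℝ) ^ s ≤ (k : ℝ) ^ (1 : ℝ) := Real.rpow_le_rpow_of_exponent_le h1 hs1
        rw [Real.rpow_one] at h2
        linarith only [h2]
    have hpos : (0 : ℝ) < (inside H W).card :=
      lt_of_le_of_lt (mul_nonneg hBpos.le (hnonneg _)) hcon
    have hne : (inside H W).Nonempty := by
      rw [← Finset.card_pos]
      exact_mod_cast hpos
    have hHW : inside H W ⊆ H := Finset.filter_subset _ _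
    obtain ⟨e, he, x, hx⟩ := hH (inside H W) hHW hne
    have heW := mem_inside.1 he
    set Δ : ℝ := x e.1 - x e.2 with hΔ
    have hΔ0 : Δ ≠ 0 := by
      intro h
      rw [h, abs_zero, Real.zero_rpow hp.ne'] at hx
      have : 0 ≤ ∑ f ∈ (inside H W).erase e, |x f.1 - x f.2| ^ p :=
        Finset.sum_nonneg fun f _ => Real.rpow_nonneg (abs_nonneg _) _
      linarith only [hx, this]
    have hΔp : 0 < |Δ| ^ p := Real.rpow_pos_of_pos (abs_pos.2 hΔ0) _
    -- cut bound
    have hcut : ∀ A ⊆ W, A.Nonempty → 2 * A.card ≤ W.card →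
        B / r * (A.card : ℝ) ^ s ≤ (crossing H W A).card := by
      intro A hAW hAne hA2
      have hApos := hAne.card_pos
      have hAss : A ⊂ W := by
        rw [Finset.ssubset_iff_subset_ne]
        refine ⟨hAW, fun h => ?_⟩
        rw [h] at hA2 hApos
        omega
      have hss : W \ A ⊂ W := Finset.sdiff_ssubset hAW hAne
      have h1 := ih A hAss
      have h2 := ih (W \ A) hss
      have h3 := card_split H hAW
      have h4 : (W \ A).card = W.card - A.card := Finset.card_sdiff_of_subset hAW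
      have hAle : A.card ≤ W.card := Finset.card_le_card hAW
      have h5 : ((W \ A).card : ℝ) = W.card - A.card := by rw [h4, Nat.cast_sub hAle]
      have h6 : ((inside H W).card : ℝ) = (inside H A).card + (inside H (W \ A)).card +
          (crossing H W A).card := by exact_mod_cast h3
      rw [h5] at h2
      set a : ℝ := (A.card : ℝ) with ha
      set w : ℝ := (W.card : ℝ) with hw
      have ha0 : 0 < a := by rw [ha]; exact_mod_cast hApos
      have hab : a ≤ w - a := by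
        have : 2 * a ≤ w := by rw [ha, hw]; exact_mod_cast hA2
        linarith only [this]
      have h7 := rpow_concave_aux ha0 hab hs0.le hs1
      have e1 : a + (w - a) = w := by ring
      rw [e1] at h7
      have e2 : 1 - s = 1 / r := by rw [hs]; ring
      rw [e2] at h7
      have h8 := mul_le_mul_of_nonneg_left h7 hBpos.le
      have e3 : B * (1 / r * a ^ s) = B / r * a ^ s := by ring
      rw [e3] at h8
      nlinarith only [h6, h1, hcon, h2, h8]
    have hin : ∀ A ⊆ W, 2 * A.card ≤ W.card → ((inside H A).card : ℝ) ≤ B * A.card := by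
      intro A hAW hA2
      rcases A.eq_empty_or_nonempty with hA | hA
      · subst hA
        simp [inside]
      · have hApos := hA.card_pos
        have hAss : A ⊂ W := by
          rw [Finset.ssubset_iff_subset_ne]
          refine ⟨hAW, fun h => ?_⟩
          rw [h] at hA2 hApos
          omega
        have h1 := ih A hAss
        have h2 : 0 ≤ (A.card : ℝ) ^ s := Real.rpow_nonneg (Nat.cast_nonneg _) _
        have h3 := mul_nonneg hBpos.le h2
        linarith only [h1, h3]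
    have hdisj : (W.filter fun v => 1 / 2 < (x v - x e.2) / Δ).card +
        (W.filter fun v => 1 / 2 < 1 - (x v - x e.2) / Δ).card ≤ W.card := by
      rw [← Finset.card_union_of_disjoint]
      · exact Finset.card_le_card (Finset.union_subset (Finset.filter_subset _ _)
          (Finset.filter_subset _ _))
      · rw [Finset.disjoint_left]
        intro v hv hv'
        rw [Finset.mem_filter] at hv hv'
        linarith only [hv.2, hv'.2, hv, hv']
    have hsum : ∑ f ∈ (inside H W).erase e,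
        |(x f.1 - x e.2) / Δ - (x f.2 - x e.2) / Δ| ^ p ≤ 1 := by
      have h1 : ∀ f : V × V, |(x f.1 - x e.2) / Δ - (x f.2 - x e.2) / Δ| ^ p =
          |x f.1 - x f.2| ^ p / |Δ| ^ p := by
        intro f
        rw [← sub_div, abs_div, Real.div_rpow (abs_nonneg _) (abs_nonneg _)]
        congr 3
        ring
      simp_rw [h1]
      rw [← Finset.sum_div, div_le_one hΔp]
      exact hx.le
    rcases le_total (2 * (W.filter fun v => 1 / 2 < (x v - x e.2) / Δ).card) W.card with h | h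
    · exact core hp hpq H W e (fun v => (x v - x e.2) / Δ) hr hc hM hB hcut hin heW.2.1
        (by rw [← hΔ, div_self hΔ0]) hsum h
    · refine core hp hpq H W e (fun v => 1 - (x v - x e.2) / Δ) hr hc hM hB hcut hin heW.2.2
        (by simp) ?_ (by omega)
      refine le_trans (le_of_eq ?_) hsum
      refine Finset.sum_congr rfl fun f _ => ?_
      have e1 : 1 - (x f.1 - x e.2) / Δ - (1 - (x f.2 - x e.2) / Δ) =
          -((x f.1 - x e.2) / Δ - (x f.2 - x e.2) / Δ) := by ring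
      rw [e1, abs_neg]

/-- Greedily critical sets of pairs have linear size. -/
theorem critical_card_le {p : ℝ} (hp : 0 < p) : ∃ B : ℝ, 0 < B ∧ ∀ (V : Type*) [Fintype V]
    [DecidableEq V] (H : Finset (V × V)), Critical p H → (H.card : ℝ) ≤ B * Fintype.card V := by
  obtain ⟨q, hq⟩ := exists_nat_ge p
  set r : ℕ := 2 * q + 1 with hr
  set c : ℝ := 1 / ((r : ℝ) ^ 2 * 2 ^ r) with hc
  set M : ℝ := (16 / c) ^ p with hM
  have hrpos : (0 : ℝ) < r := by
    have : 0 < r := by omega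
    exact_mod_cast this
  have hcpos : 0 < c := by rw [hc]; positivity
  refine ⟨4 * r * M, by rw [hM]; positivity, fun V _ _ H hH => ?_⟩
  have h1 := critical_inside_le hp hq hH hr hc hM rfl Finset.univ
  have h2 : inside H Finset.univ = H := by
    ext e; simp only [mem_inside, Finset.mem_univ, and_self, and_true]
  rw [h2, Finset.card_univ] at h1
  have hB : 0 ≤ 4 * (r : ℝ) * M := by rw [hM]; (clear * -; positivity)
  have h3 : 0 ≤ (Fintype.card V : ℝ) ^ (1 - 1 / (r : ℝ)) := Real.rpow_nonneg (Nat.cast_nonneg _) _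
  have h4 := mul_nonneg hB h3
  linarith only [h1, h4]

/-- For every `p > 0` there is `B` such that for every finite set with positive numbers `d i j`
attached to the pairs, some `B * |V|` pairs dominate all pairs in the `p`-energy. -/
theorem exists_dominating {p : ℝ} (hp : 0 < p) : ∃ B : ℝ, 0 < B ∧ ∀ (V : Type*) [Fintype V]
    [DecidableEq V] (d : V → V → ℝ), (∀ i j, i ≠ j → 0 < d i j) →
      ∃ H : Finset (V × V), (∀ e ∈ H, e.1 ≠ e.2) ∧ (H.card : ℝ) ≤ B * Fintype.card V ∧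
        ∀ x : V → ℝ, ∀ i j, i ≠ j → |x i - x j| ^ p / d i j ^ p ≤
          ∑ e ∈ H, |x e.1 - x e.2| ^ p / d e.1 e.2 ^ p := by
  obtain ⟨B, hB, h⟩ := critical_card_le hp
  refine ⟨B, hB, fun V _ _ d hd => ?_⟩
  obtain ⟨H, hHS, hcrit, hdom⟩ := exists_greedy p hp.le (fun e : V × V => d e.1 e.2)
    (Finset.univ : Finset V).offDiag (fun e he => hd _ _ (Finset.mem_offDiag.1 he).2.2)
  refine ⟨H, fun e he => (Finset.mem_offDiag.1 (hHS he)).2.2, h V H hcrit, fun x i j hij => ?_⟩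
  have hmem : (i, j) ∈ (Finset.univ : Finset V).offDiag :=
    Finset.mem_offDiag.2 ⟨Finset.mem_univ i, Finset.mem_univ j, hij⟩
  exact hdom (i, j) hmem x

/-- `d_p(n, D) ≤ C n log n` for every `1 ≤ p < ∞` and every `D > 1`. -/
theorem upper_nlogn (p : ℝ≥0∞) [Fact (1 ≤ p)] (hpt : p ≠ ∞) (D : ℝ) (hD : 1 < D) :
    ∃ C : ℝ, 0 < C ∧ ∀ n : ℕ, 2 ≤ n → ∃ d : ℕ, Admissible p n D d ∧ (d : ℝ) ≤ C * n * Real.log n := by
  have hp0 : 0 < p.toReal := toReal_pos_of hpt
  have hp1 : 1 ≤ p.toReal := by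
    rw [← ENNReal.toReal_one]
    exact ENNReal.toReal_mono hpt (Fact.out : 1 ≤ p)
  obtain ⟨B, hB, hdom⟩ := exists_dominating hp0
  set ε : ℝ := (D - 1) / (D + 1) with hε
  have hε0 : 0 < ε := div_pos (by linarith only [hD]) (by linarith only [hD])
  have hε1 : ε < 1 := by rw [hε, div_lt_one (by linarith only [hD])]; linarith
  have hratio : (1 + ε) / (1 - ε) = D := by
    have h1 : D + 1 ≠ 0 := by linarith only [hD, hε0, hε1]
    rw [hε]
    field_simp
    ring
  refine ⟨12 * B / ε ^ 2 + 2, by positivity, fun n hn => ?_⟩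
  have hnR : (2 : ℝ) ≤ n := by exact_mod_cast hn
  have hlog2 : Real.log 2 ≤ Real.log n := Real.log_le_log (by norm_num) hnR
  have hlog2' := Real.log_two_gt_d9
  have hlogn : 1 / 2 ≤ Real.log n := by linarith only [hε0, hε1, hlog2, hlog2']
  set m : ℕ := ⌈4 * (B * n) * Real.log (2 * (n : ℝ) ^ 2) / ε ^ 2⌉₊ + 1 with hm
  refine ⟨m, ?_, ?_⟩
  · intro Ω _ μ X hX
    classical
    obtain ⟨H, hHne, hHcard, hHdom⟩ := hdom X (fun i j => ‖(i : Lp ℝ p μ) - j‖)
      (fun i j hij => norm_sub_pos fun h => hij (Subtype.ext h))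
    rw [Fintype.card_coe, hX] at hHcard
    obtain ⟨f, s, hs, hf⟩ := embed_of_spanner hpt X H hHne hHdom hε0 hε1 m (by
      rw [hX]
      have h1 : 0 ≤ Real.log (2 * (n : ℝ) ^ 2) := Real.log_nonneg (by nlinarith only [hε0, hε1, hnR])
      have h2 : 4 * (H.card : ℝ) * Real.log (2 * (n : ℝ) ^ 2) / ε ^ 2 ≤
          4 * (B * n) * Real.log (2 * (n : ℝ) ^ 2) / ε ^ 2 :=
        div_le_div_of_nonneg_right (mul_le_mul_of_nonneg_right (by linarith only [hHcard]) h1) (by positivity)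
      refine h2.trans ((Nat.le_ceil _).trans ?_)
      rw [hm]
      push_cast
      linarith only [hε0, hε1]) (by omega)
    rw [hratio] at hf
    refine ⟨f, s, hs, fun x hx y hy => ⟨(hf x hx y hy).1, (hf x hx y hy).2.trans ?_⟩⟩
    have h1 : D ^ (1 / p.toReal) ≤ D := by
      calc D ^ (1 / p.toReal) ≤ D ^ (1 : ℝ) :=
            Real.rpow_le_rpow_of_exponent_le hD.le ((div_le_one hp0).2 hp1)
        _ = D := Real.rpow_one D
    have h2 : 0 ≤ s * ‖x - y‖ := mul_nonneg hs.le (norm_nonneg _)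
    calc D ^ (1 / p.toReal) * s * ‖x - y‖ = D ^ (1 / p.toReal) * (s * ‖x - y‖) := by ring
      _ ≤ D * (s * ‖x - y‖) := mul_le_mul_of_nonneg_right h1 h2
      _ = D * s * ‖x - y‖ := by ring
  · have h0 : 0 ≤ 4 * (B * n) * Real.log (2 * (n : ℝ) ^ 2) / ε ^ 2 := by
      have h1 : 0 ≤ Real.log (2 * (n : ℝ) ^ 2) := Real.log_nonneg (by nlinarith only [hε0, hε1, hnR])
      (clear * - hD hB hn h1; positivity)
    have h1 : (m : ℝ) ≤ 4 * (B * n) * Real.log (2 * (n : ℝ) ^ 2) / ε ^ 2 + 2 := by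
      rw [hm]
      push_cast
      have := (Nat.ceil_lt_add_one h0).le
      linarith only [this]
    have h2 : Real.log (2 * (n : ℝ) ^ 2) ≤ 3 * Real.log n := by
      rw [Real.log_mul (by norm_num) (by positivity), Real.log_pow]
      push_cast
      linarith only [hlog2]
    have h3 : 4 * (B * n) * Real.log (2 * (n : ℝ) ^ 2) / ε ^ 2 ≤
        4 * (B * n) * (3 * Real.log n) / ε ^ 2 :=
      div_le_div_of_nonneg_right (mul_le_mul_of_nonneg_left h2 (by positivity)) (by positivity)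
    have h4 : (2 : ℝ) ≤ 2 * (n * Real.log n) := by nlinarith only [hε0, hε1, hnR, hlog2, hlog2']
    calc (m : ℝ) ≤ 4 * (B * n) * (3 * Real.log n) / ε ^ 2 + 2 * (n * Real.log n) := by linarith only [h1,
                                                                                         h3, h4]
      _ = (12 * B / ε ^ 2 + 2) * n * Real.log n := by ring

end Vale.Agent.P249
end
end

section

section

open MeasureTheory Filter
open scoped ENNReal BigOperators

namespace Vale.Agent.P249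

/-- `((1 + x) / (1 - x)) ≤ exp (4 x)` for `0 ≤ x ≤ 1 / 2`. -/
theorem one_add_div_one_sub_le {x : ℝ} (hx0 : 0 ≤ x) (hx : x ≤ 1 / 2) :
    (1 + x) / (1 - x) ≤ Real.exp (4 * x) := by
  have h1 : 0 < 1 - x := by linarith only [hx]
  rw [div_le_iff₀ h1]
  have h2 : 1 + x ≤ Real.exp x := by linarith only [Real.add_one_le_exp x]
  have h3 : 1 + 3 * x ≤ Real.exp (3 * x) := by linarith only [Real.add_one_le_exp (3 * x)]
  have h4 : Real.exp (4 * x) = Real.exp x * Real.exp (3 * x) := by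
    rw [← Real.exp_add]; congr 1; ring
  have h5 : 1 ≤ Real.exp (3 * x) * (1 - x) := by
    have : 1 ≤ (1 + 3 * x) * (1 - x) := by nlinarith only [hx0, hx]
    exact this.trans (mul_le_mul_of_nonneg_right h3 h1.le)
  rw [h4, mul_assoc]
  calc 1 + x ≤ Real.exp x := h2
    _ = Real.exp x * 1 := (mul_one _).symm
    _ ≤ _ := mul_le_mul_of_nonneg_left h5 (Real.exp_pos _).le

/-- To prove admissibility of `⌊U⌋₊` it suffices to embed every set into dimension `≤ U`. -/
theorem admissible_floor (p : ℝ≥0∞) [Fact (1 ≤ p)] (hp : p ≠ ∞) {n : ℕ} {D U : ℝ}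
    (h : ∀ (Ω : Type) [MeasurableSpace Ω] (μ : Measure Ω) (X : Finset (Lp ℝ p μ)),
      X.card = n → ∃ (d : ℕ) (f : Lp ℝ p μ → PiLp p (fun _ : Fin d => ℝ)),
        (d : ℝ) ≤ U ∧ DistortionAtMost X f D) :
    Admissible p n D ⌊U⌋₊ := by
  intro Ω _ μ X hX
  obtain ⟨d, f, hd, s, hs, hf⟩ := h Ω μ X hX
  have hd' : d ≤ ⌊U⌋₊ := Nat.le_floor hd
  refine ⟨fun x => padL (f x), s, hs, fun x hx y hy => ?_⟩
  rw [norm_padL_sub hp hd']
  exact hf x hx y hy

/-- Iterating the near-isometric halving `k` times. -/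
theorem near_iterate (p : ℝ≥0∞) [Fact (1 ≤ p)] {η E M : ℝ} {V : Type}
    (hη : 0 ≤ η) (hη1 : η ≤ 1) (hE : 1 ≤ E) (hEM : E ≤ M)
    (H : ∀ (N : ℕ) (f : V → PiLp p (fun _ : Fin N => ℝ)),
        0 < N → (N : ℝ) ≤ M ^ 2 →
        ∃ (d : ℕ) (F : V → PiLp p (fun _ : Fin d => ℝ)), 0 < d ∧
          (d : ℝ) ≤ Real.sqrt N * E ∧
          ∀ x y, (1 - η) * ‖f x - f y‖ ^ p.toReal ≤ ‖F x - F y‖ ^ p.toReal ∧
            ‖F x - F y‖ ^ p.toReal ≤ (1 + η) * ‖f x - f y‖ ^ p.toReal)
    (N : ℕ) (f : V → PiLp p (fun _ : Fin N => ℝ)) (hN : 0 < N)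
    (hNC : (N : ℝ) ≤ M ^ 2) (k : ℕ) :
    ∃ (d : ℕ) (F : V → PiLp p (fun _ : Fin d => ℝ)), 0 < d ∧ (d : ℝ) ≤ M ^ 2 ∧
      (d : ℝ) ≤ E ^ 2 * (N : ℝ) ^ ((1 : ℝ) / 2 ^ k) ∧
      ∀ x y, (1 - η) ^ k * ‖f x - f y‖ ^ p.toReal ≤ ‖F x - F y‖ ^ p.toReal ∧
        ‖F x - F y‖ ^ p.toReal ≤ (1 + η) ^ k * ‖f x - f y‖ ^ p.toReal := by
  have hM : 0 ≤ M := by linarith only [hE, hEM]
  induction k with
  | zero =>
    refine ⟨N, f, hN, hNC, ?_, fun x y => ⟨by simp, by simp⟩⟩
    have h1 : (1 : ℝ) ≤ E ^ 2 := one_le_pow₀ hE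
    simp only [pow_zero, div_one, Real.rpow_one]
    have h2 : (0 : ℝ) ≤ N := Nat.cast_nonneg N
    nlinarith only [h1]
  | succ k ih =>
    obtain ⟨d, F, hd, hdC, hdN, hF⟩ := ih
    obtain ⟨d', F', hd', hdN', hF'⟩ := H d F hd hdC
    refine ⟨d', F', hd', ?_, ?_, fun x y => ⟨?_, ?_⟩⟩
    · have h1 : Real.sqrt d ≤ M := by
        rw [Real.sqrt_le_left hM]; exact hdC
      calc (d' : ℝ) ≤ Real.sqrt d * E := hdN'
        _ ≤ M * M := mul_le_mul h1 hEM (by linarith only [hE]) hM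
        _ = M ^ 2 := by ring
    · have h0 : (0 : ℝ) ≤ N := Nat.cast_nonneg N
      have hpos : 0 ≤ E := by linarith only [hE]
      have h1 : Real.sqrt d ≤ E * (N : ℝ) ^ ((1 : ℝ) / 2 ^ (k + 1)) := by
        rw [Real.sqrt_le_left (by positivity)]
        refine hdN.trans (le_of_eq ?_)
        have h2 : ((N : ℝ) ^ ((1 : ℝ) / 2 ^ (k + 1))) ^ 2 = (N : ℝ) ^ ((1 : ℝ) / 2 ^ k) := by
          rw [← Real.rpow_natCast, ← Real.rpow_mul h0]
          congr 1
          push_cast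
          rw [pow_succ]
          field_simp
        rw [← h2]
        ring
      calc (d' : ℝ) ≤ Real.sqrt d * E := hdN'
        _ ≤ (E * (N : ℝ) ^ ((1 : ℝ) / 2 ^ (k + 1))) * E := mul_le_mul_of_nonneg_right h1 hpos
        _ = _ := by ring
    · calc (1 - η) ^ (k + 1) * ‖f x - f y‖ ^ p.toReal
          = (1 - η) * ((1 - η) ^ k * ‖f x - f y‖ ^ p.toReal) := by ring
        _ ≤ (1 - η) * ‖F x - F y‖ ^ p.toReal :=
          mul_le_mul_of_nonneg_left (hF x y).1 (by linarith only [hη1])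
        _ ≤ _ := (hF' x y).1
    · calc ‖F' x - F' y‖ ^ p.toReal ≤ (1 + η) * ‖F x - F y‖ ^ p.toReal := (hF' x y).2
        _ ≤ (1 + η) * ((1 + η) ^ k * ‖f x - f y‖ ^ p.toReal) :=
          mul_le_mul_of_nonneg_left (hF x y).2 (by linarith only [hη])
        _ = _ := by ring

/-- Composing a distortion `A ^ (1 / p)` map with a map of `p`-distortion `b / a`. -/
theorem distortion_comp (p : ℝ≥0∞) [Fact (1 ≤ p)] (hp : p ≠ ∞) {Ω : Type} [MeasurableSpace Ω]
    {μ : Measure Ω} {X : Finset (Lp ℝ p μ)} {N d : ℕ}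
    {f : Lp ℝ p μ → PiLp p (fun _ : Fin N => ℝ)} {F : Lp ℝ p μ → PiLp p (fun _ : Fin d => ℝ)}
    {A a b D : ℝ} (hA : 1 ≤ A) (ha : 0 < a) (hab : a ≤ b) (hD : A * (b / a) ≤ D)
    (hf : DistortionAtMost X f (A ^ (1 / p.toReal)))
    (hF : ∀ x ∈ X, ∀ y ∈ X, a * ‖f x - f y‖ ^ p.toReal ≤ ‖F x - F y‖ ^ p.toReal ∧
        ‖F x - F y‖ ^ p.toReal ≤ b * ‖f x - f y‖ ^ p.toReal) :
    DistortionAtMost X F D := by
  have hP : 0 < p.toReal := toReal_pos_of_fact hp
  have hP1 : 1 ≤ p.toReal := one_le_toReal_of_fact hp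
  have hb : 0 < b := lt_of_lt_of_le ha hab
  obtain ⟨s, hs, hf⟩ := hf
  have hroot : ∀ {u v c : ℝ}, 0 ≤ u → 0 ≤ v → 0 ≤ c → (c * u ^ p.toReal ≤ v ^ p.toReal) →
      c ^ (1 / p.toReal) * u ≤ v := by
    intro u v c hu hv hc h
    have h1 : (c * u ^ p.toReal) ^ (1 / p.toReal) ≤ (v ^ p.toReal) ^ (1 / p.toReal) :=
      Real.rpow_le_rpow (mul_nonneg hc (Real.rpow_nonneg hu _)) h (by positivity)
    rw [Real.mul_rpow hc (Real.rpow_nonneg hu _), one_div, Real.rpow_rpow_inv hu hP.ne',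
      Real.rpow_rpow_inv hv hP.ne'] at h1
    rwa [one_div]
  have hroot' : ∀ {u v c : ℝ}, 0 ≤ u → 0 ≤ v → 0 ≤ c → (v ^ p.toReal ≤ c * u ^ p.toReal) →
      v ≤ c ^ (1 / p.toReal) * u := by
    intro u v c hu hv hc h
    have h1 : (v ^ p.toReal) ^ (1 / p.toReal) ≤ (c * u ^ p.toReal) ^ (1 / p.toReal) :=
      Real.rpow_le_rpow (Real.rpow_nonneg hv _) h (by positivity)
    rw [Real.mul_rpow hc (Real.rpow_nonneg hu _), one_div, Real.rpow_rpow_inv hu hP.ne',
      Real.rpow_rpow_inv hv hP.ne'] at h1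
    rwa [one_div]
  have ha' : 0 < a ^ (1 / p.toReal) := Real.rpow_pos_of_pos ha _
  refine ⟨a ^ (1 / p.toReal) * s, mul_pos ha' hs, fun x hx y hy => ⟨?_, ?_⟩⟩
  · have h1 := hroot (norm_nonneg _) (norm_nonneg _) ha.le (hF x hx y hy).1
    calc a ^ (1 / p.toReal) * s * ‖x - y‖ = a ^ (1 / p.toReal) * (s * ‖x - y‖) := by ring
      _ ≤ a ^ (1 / p.toReal) * ‖f x - f y‖ := mul_le_mul_of_nonneg_left (hf x hx y hy).1 ha'.le
      _ ≤ _ := h1
  · have h1 := hroot' (norm_nonneg _) (norm_nonneg _) hb.le (hF x hx y hy).2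
    have hb' : 0 < b ^ (1 / p.toReal) := Real.rpow_pos_of_pos hb _
    have h2 : A ^ (1 / p.toReal) * (b / a) ^ (1 / p.toReal) ≤ D := by
      rw [← Real.mul_rpow (by linarith only [hA]) (by positivity)]
      have h3 : 1 ≤ b / a := by rw [one_le_div ha]; exact hab
      have h4 : 1 ≤ A * (b / a) := by nlinarith only [hA, h3]
      refine le_trans ?_ hD
      have h5 : (A * (b / a)) ^ (1 / p.toReal) ≤ (A * (b / a)) ^ (1 : ℝ) :=
        Real.rpow_le_rpow_of_exponent_le h4 (by rw [div_le_one hP]; exact hP1)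
      rwa [Real.rpow_one] at h5
    have h3 : b ^ (1 / p.toReal) = (b / a) ^ (1 / p.toReal) * a ^ (1 / p.toReal) := by
      rw [← Real.mul_rpow (by positivity) ha.le, div_mul_cancel₀ _ ha.ne']
    calc ‖F x - F y‖ ≤ b ^ (1 / p.toReal) * ‖f x - f y‖ := h1
      _ ≤ b ^ (1 / p.toReal) * (A ^ (1 / p.toReal) * s * ‖x - y‖) :=
        mul_le_mul_of_nonneg_left (hf x hx y hy).2 hb'.le
      _ = (A ^ (1 / p.toReal) * (b / a) ^ (1 / p.toReal)) *
          (a ^ (1 / p.toReal) * s * ‖x - y‖) := by rw [h3]; ring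
      _ ≤ D * (a ^ (1 / p.toReal) * s * ‖x - y‖) :=
        mul_le_mul_of_nonneg_right h2 (by positivity)
      _ = _ := by ring

/-- Upper bound for the number of iterations. -/
theorem exists_iterations {l : ℝ} (hl : 1 ≤ l) : ∃ k : ℕ, 1 ≤ k ∧ l ≤ 2 ^ k ∧
    (k : ℝ) ≤ 2 + 2 * Real.log l := by
  have hlog : 0 ≤ Real.log l := Real.log_nonneg hl
  have h2 : (1 : ℝ) / 2 < Real.log 2 := by linarith [Real.log_two_gt_d9]
  refine ⟨⌈Real.log l / Real.log 2⌉₊ + 1, by omega, ?_, ?_⟩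
  · have h1 : Real.log l / Real.log 2 ≤ ⌈Real.log l / Real.log 2⌉₊ := Nat.le_ceil _
    have h3 : Real.log l ≤ (⌈Real.log l / Real.log 2⌉₊ + 1 : ℕ) * Real.log 2 := by
      rw [div_le_iff₀ (by linarith only [h2])] at h1
      push_cast
      nlinarith
    rw [← Real.log_pow] at h3
    exact (Real.log_le_log_iff (by linarith only [hl]) (by positivity)).1 h3
  · have h1 : (⌈Real.log l / Real.log 2⌉₊ : ℝ) < Real.log l / Real.log 2 + 1 :=
      Nat.ceil_lt_add_one (by positivity)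
    have h3 : Real.log l / Real.log 2 ≤ 2 * Real.log l := by
      rw [div_le_iff₀ (by linarith only [h2])]
      nlinarith only [hlog, h2]
    push_cast
    linarith

/-- `l ^ θ (2 + 2 log l) ≤ C l ^ θ'` for `l ≥ 1`. -/
theorem rpow_mul_log_le {θ θ' : ℝ} (h : θ < θ') : ∃ K : ℝ, 0 < K ∧ ∀ l : ℝ, 1 ≤ l →
    l ^ θ * (2 + 2 * Real.log l) ≤ K * l ^ θ' := by
  have hη : 0 < θ' - θ := by linarith only [h]
  refine ⟨2 + 2 / (θ' - θ), by (clear * - h; positivity), fun l hl => ?_⟩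
  have hl0 : 0 < l := by linarith
  have h1 : Real.log l ≤ l ^ (θ' - θ) / (θ' - θ) := Real.log_le_rpow_div hl0.le hη
  have h2 : 1 ≤ l ^ (θ' - θ) := Real.one_le_rpow hl hη.le
  have h3 : l ^ θ' = l ^ θ * l ^ (θ' - θ) := by rw [← Real.rpow_add hl0]; congr 1; ring
  rw [h3]
  have h4 : 0 < l ^ θ := Real.rpow_pos_of_pos hl0 _
  calc l ^ θ * (2 + 2 * Real.log l)
      ≤ l ^ θ * (2 * l ^ (θ' - θ) + 2 * (l ^ (θ' - θ) / (θ' - θ))) := by
        refine mul_le_mul_of_nonneg_left ?_ h4.le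
        linarith
    _ = _ := by ring

/-- `l ^ θ (2 + 2 log l) K ≤ l` for large `l`. -/
theorem rpow_mul_log_le' {θ : ℝ} (h : θ < 1) (K : ℝ) (hK : 0 ≤ K) :
    ∀ᶠ l : ℝ in atTop, K * (l ^ θ * (2 + 2 * Real.log l)) ≤ l := by
  obtain ⟨K', hK', h1⟩ := rpow_mul_log_le (θ := θ) (θ' := (1 + θ) / 2) (by linarith only [h])
  have h2 : Tendsto (fun l : ℝ => l ^ ((1 - θ) / 2)) atTop atTop :=
    tendsto_rpow_atTop (by linarith)
  filter_upwards [h2.eventually_ge_atTop (K * K'), eventually_ge_atTop 1] with l hl hl1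
  have hl0 : 0 < l := by linarith only [hl1]
  calc K * (l ^ θ * (2 + 2 * Real.log l)) ≤ K * (K' * l ^ ((1 + θ) / 2)) :=
        mul_le_mul_of_nonneg_left (h1 l hl1) hK
    _ = (K * K') * l ^ ((1 + θ) / 2) := by ring
    _ ≤ l ^ ((1 - θ) / 2) * l ^ ((1 + θ) / 2) :=
        mul_le_mul_of_nonneg_right hl (Real.rpow_nonneg hl0.le _)
    _ = l := by
        rw [← Real.rpow_add hl0]
        have : (1 - θ) / 2 + (1 + θ) / 2 = 1 := by ring
        rw [this, Real.rpow_one]

/-- Step 0: number of samples. -/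
theorem exists_N0 {ε : ℝ} (hε : 0 < ε) : ∀ᶠ n : ℕ in atTop, ∃ m : ℕ, 0 < m ∧
    4 * (n : ℝ) ^ 2 * Real.log (2 * (n : ℝ) ^ 2) / ε ^ 2 ≤ m ∧
    (m : ℝ) ≤ Real.exp (4 * (1 + Real.log n)) := by
  obtain ⟨n0, hn0⟩ := exists_nat_ge (10 * (1 / ε ^ 2 + 1))
  filter_upwards [eventually_ge_atTop n0, eventually_ge_atTop 1] with n hn hn1
  have hnr : (1 : ℝ) ≤ n := by exact_mod_cast hn1
  have hn0' : (0 : ℝ) < n := by linarith only [hnr]
  have hnn : 10 * (1 / ε ^ 2 + 1) ≤ (n : ℝ) := hn0.trans (by exact_mod_cast hn)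
  have hlog : Real.log (2 * (n : ℝ) ^ 2) ≤ 2 * n := by
    rw [Real.log_mul (by norm_num) (by positivity), Real.log_pow]
    have h1 : Real.log n ≤ n - 1 := Real.log_le_sub_one_of_pos hn0'
    have h2 : Real.log 2 < 1 := by linarith only [Real.log_two_lt_d9]
    push_cast
    linarith only [h1, h2]
  have hlog0 : 0 ≤ Real.log (2 * (n : ℝ) ^ 2) := Real.log_nonneg (by nlinarith only [hnr])
  set T : ℝ := 4 * (n : ℝ) ^ 2 * Real.log (2 * (n : ℝ) ^ 2) / ε ^ 2 with hT
  have hT0 : 0 ≤ T := by positivity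
  refine ⟨⌈T⌉₊ + 1, by omega, ?_, ?_⟩
  · have := Nat.le_ceil T
    push_cast
    linarith only [this]
  · have h1 : (⌈T⌉₊ : ℝ) < T + 1 := Nat.ceil_lt_add_one hT0
    have h2 : T ≤ 8 * (n : ℝ) ^ 3 * (1 / ε ^ 2) := by
      rw [hT]
      have : 4 * (n : ℝ) ^ 2 * Real.log (2 * (n : ℝ) ^ 2) ≤ 8 * (n : ℝ) ^ 3 := by
        calc 4 * (n : ℝ) ^ 2 * Real.log (2 * (n : ℝ) ^ 2) ≤ 4 * (n : ℝ) ^ 2 * (2 * n) :=
              mul_le_mul_of_nonneg_left hlog (by positivity)
          _ = _ := by ring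
      rw [mul_one_div]
      exact div_le_div_of_nonneg_right this (by positivity)
    have h3 : (1 : ℝ) ≤ (n : ℝ) ^ 3 := one_le_pow₀ hnr
    have h4 : Real.exp (4 * (1 + Real.log n)) = Real.exp 4 * (n : ℝ) ^ 4 := by
      have : 4 * (1 + Real.log n) = 4 + Real.log ((n : ℝ) ^ 4) := by
        rw [Real.log_pow]; push_cast; ring
      rw [this, Real.exp_add, Real.exp_log (by positivity)]
    rw [h4]
    have h5 : (1 : ℝ) ≤ Real.exp 4 := Real.one_le_exp (by norm_num)
    have h6 : (n : ℝ) ^ 4 = (n : ℝ) ^ 3 * n := by ring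
    have h7 : 0 < 1 / ε ^ 2 := by positivity
    push_cast
    calc (⌈T⌉₊ : ℝ) + 1 ≤ 8 * (n : ℝ) ^ 3 * (1 / ε ^ 2) + 2 := by linarith only [h1, h2]
      _ ≤ (n : ℝ) ^ 3 * (10 * (1 / ε ^ 2 + 1)) := by nlinarith only [hT0, h2, h3]
      _ ≤ (n : ℝ) ^ 3 * n := mul_le_mul_of_nonneg_left hnn (by positivity)
      _ = 1 * (n : ℝ) ^ 4 := by rw [h6, one_mul]
      _ ≤ _ := mul_le_mul_of_nonneg_right h5 (by positivity)

/-- The main construction for one set `X` with `n` points, for large `n`. -/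
theorem near_embed (p : ℝ≥0∞) [Fact (1 ≤ p)] (hp : p ≠ ∞) {θ C δ ε D : ℝ} (hC : 1 ≤ C)
    (hδ0 : 0 < δ) (hδ : δ ≤ 1 / 2) (hε0 : 0 < ε) (hε : ε < 1)
    (hD : (1 + ε) / (1 - ε) * Real.exp (4 * δ) ≤ D)
    (H : ∀ δ : ℝ, 0 < δ → δ ≤ 1 → ∀ (V : Type) [Fintype V] [Nonempty V] (N : ℕ)
      (f : V → PiLp p (fun _ : Fin N => ℝ)), 0 < N →
      (N : ℝ) ≤ Real.exp (4 * (1 + Real.log (Fintype.card V))) →
      ∃ (d : ℕ) (F : V → PiLp p (fun _ : Fin d => ℝ)), 0 < d ∧
        (d : ℝ) ≤ Real.sqrt N * Real.exp (C * (1 + Real.log (Fintype.card V)) ^ θ / δ) ∧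
        ∀ x y, (1 - δ) * ‖f x - f y‖ ^ p.toReal ≤ ‖F x - F y‖ ^ p.toReal ∧
          ‖F x - F y‖ ^ p.toReal ≤ (1 + δ) * ‖f x - f y‖ ^ p.toReal)
    {n : ℕ} (hn : 1 ≤ n) {m : ℕ} (hm0 : 0 < m)
    (hm1 : 4 * (n : ℝ) ^ 2 * Real.log (2 * (n : ℝ) ^ 2) / ε ^ 2 ≤ m)
    (hm2 : (m : ℝ) ≤ Real.exp (4 * (1 + Real.log n)))
    (hbig : C / δ * ((1 + Real.log n) ^ θ * (2 + 2 * Real.log (1 + Real.log n))) ≤
      2 * (1 + Real.log n))
    (Ω : Type) [MeasurableSpace Ω] (μ : Measure Ω) (X : Finset (Lp ℝ p μ)) (hX : X.card = n) :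
    ∃ (d : ℕ) (f : Lp ℝ p μ → PiLp p (fun _ : Fin d => ℝ)),
      (d : ℝ) ≤ Real.exp (4 + 2 * (C / δ * ((1 + Real.log n) ^ θ *
        (2 + 2 * Real.log (1 + Real.log n))))) ∧ DistortionAtMost X f D := by
  classical
  have hnr : (1 : ℝ) ≤ n := by exact_mod_cast hn
  set l : ℝ := 1 + Real.log n with hl
  have hl1 : 1 ≤ l := by have := Real.log_nonneg hnr; linarith only [this]
  obtain ⟨k, hk1, hlk, hk⟩ := exists_iterations hl1
  have hk0 : (0 : ℝ) < k := by exact_mod_cast hk1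
  have hk1' : (1 : ℝ) ≤ k := by exact_mod_cast hk1
  set Y : ℝ := C / δ * (l ^ θ * (2 + 2 * Real.log l)) with hY
  have hlθ : 0 < l ^ θ := Real.rpow_pos_of_pos (by linarith only [hδ0, hδ, hl1]) _
  have hY1 : C * l ^ θ / (δ / k) ≤ Y := by
    rw [hY, div_div_eq_mul_div, div_mul_eq_mul_div]
    refine div_le_div_of_nonneg_right ?_ hδ0.le
    have : C * l ^ θ * k ≤ C * l ^ θ * (2 + 2 * Real.log l) :=
      mul_le_mul_of_nonneg_left hk (by (clear * - hC; positivity))
    linarith only [this]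
  have hY0 : 0 ≤ Y := le_trans (by positivity) hY1
  obtain ⟨f, hf⟩ := embed_all_pairs hp X hε0 hε m (by rw [hX]; exact hm1) hm0
  have hδk : δ / k ≤ δ := div_le_self hδ0.le hk1'
  have hδk0 : 0 < δ / k := by positivity
  have : Nonempty X := by
    have : X.Nonempty := by rw [← Finset.card_pos]; omega
    exact this.to_subtype
  have hcardX : Fintype.card X = n := by rw [Fintype.card_coe, hX]
  have hstep : ∀ (N : ℕ) (g : X → PiLp p (fun _ : Fin N => ℝ)),
        0 < N → (N : ℝ) ≤ (Real.exp (2 * l)) ^ 2 →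
        ∃ (d : ℕ) (F : X → PiLp p (fun _ : Fin d => ℝ)), 0 < d ∧
          (d : ℝ) ≤ Real.sqrt N * Real.exp Y ∧
          ∀ x y, (1 - δ / k) * ‖g x - g y‖ ^ p.toReal ≤ ‖F x - F y‖ ^ p.toReal ∧
            ‖F x - F y‖ ^ p.toReal ≤ (1 + δ / k) * ‖g x - g y‖ ^ p.toReal := by
    intro N g hN hNM
    have h1 : (Real.exp (2 * l)) ^ 2 = Real.exp (4 * (1 + Real.log (Fintype.card X))) := by
      rw [← Real.exp_nat_mul, hcardX]
      congr 1
      push_cast
      ring
    obtain ⟨d, F, hd, hdN, hF⟩ := H (δ / k) hδk0 (by linarith only [hδ0, hδ, hδk]) X N g hN (by rw [← h1]; exact hNM)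
    refine ⟨d, F, hd, hdN.trans ?_, hF⟩
    refine mul_le_mul_of_nonneg_left (Real.exp_le_exp.2 ?_) (Real.sqrt_nonneg _)
    rw [hcardX]
    exact hY1
  obtain ⟨d, F, hd, -, hdN, hF⟩ := near_iterate p hδk0.le (by linarith only [hδ0, hδ, hδk])
    (Real.one_le_exp hY0) (Real.exp_le_exp.2 hbig) hstep m (fun x => f x) hm0
    (by
      rw [← Real.exp_nat_mul]
      refine hm2.trans (Real.exp_le_exp.2 ?_)
      push_cast
      linarith only []) k
  refine ⟨d, fun x => if h : x ∈ X then F ⟨x, h⟩ else 0, ?_, ?_⟩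
  · have h1 : (m : ℝ) ^ ((1 : ℝ) / 2 ^ k) ≤ Real.exp 4 := by
      calc (m : ℝ) ^ ((1 : ℝ) / 2 ^ k) ≤ (Real.exp (4 * l)) ^ ((1 : ℝ) / 2 ^ k) :=
            Real.rpow_le_rpow (Nat.cast_nonneg _) hm2 (by positivity)
        _ = Real.exp (4 * (l / 2 ^ k)) := by rw [← Real.exp_mul]; congr 1; ring
        _ ≤ Real.exp 4 := by
          refine Real.exp_le_exp.2 ?_
          have : l / 2 ^ k ≤ 1 := by rw [div_le_one (by positivity)]; exact hlk
          linarith only [this]
    calc (d : ℝ) ≤ Real.exp Y ^ 2 * (m : ℝ) ^ ((1 : ℝ) / 2 ^ k) := hdN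
      _ ≤ Real.exp Y ^ 2 * Real.exp 4 := mul_le_mul_of_nonneg_left h1 (by positivity)
      _ = Real.exp (4 + 2 * Y) := by
        rw [← Real.exp_nat_mul, ← Real.exp_add]; congr 1; push_cast; ring
  · have hδk1 : 0 < 1 - δ / k := by linarith only [hδ0, hδ, hδk]
    refine distortion_comp p hp (A := (1 + ε) / (1 - ε)) (a := (1 - δ / k) ^ k)
      (b := (1 + δ / k) ^ k) ?_ (pow_pos hδk1 k) (pow_le_pow_left₀ hδk1.le (by linarith only [hδk0]) k) ?_ hf
      fun x hx y hy => ?_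
    · rw [one_le_div (by linarith only [hε])]; linarith only [hε0]
    · have h1 : (1 + δ / k) ^ k / (1 - δ / k) ^ k ≤ Real.exp (4 * δ) := by
        rw [← div_pow]
        calc ((1 + δ / k) / (1 - δ / k)) ^ k ≤ (Real.exp (4 * (δ / k))) ^ k :=
              pow_le_pow_left₀ (by (clear * - hδ0 hk1 hδk1; positivity))
                (one_add_div_one_sub_le hδk0.le (by linarith only [hδ, hδk])) k
          _ = Real.exp (4 * δ) := by
            rw [← Real.exp_nat_mul]; congr 1; field_simp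
      refine le_trans (mul_le_mul_of_nonneg_left h1 ?_) hD
      exact div_nonneg (by linarith only [hδ0, hδ, hε0]) (by linarith only [hε])
    · rw [dif_pos hx, dif_pos hy]
      exact hF ⟨x, hx⟩ ⟨y, hy⟩

theorem subpoly_of (p : ℝ≥0∞) [Fact (1 ≤ p)] (hp : p ≠ ∞) (θ θ' : ℝ) (hθ0 : 0 < θ) (hθ : θ < θ')
    (hθ1 : θ < 1) (hhalf : NearHalvingStatement p θ) (D : ℝ) (hD : 1 < D) :
    ∃ C : ℝ, 0 < C ∧ ∀ n : ℕ, 2 ≤ n →
      ∃ d : ℕ, Admissible p n D d ∧ (d : ℝ) ≤ Real.exp (C * Real.log n ^ θ') := by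
  obtain ⟨C, hC, H⟩ := hhalf
  -- parameters
  have hsq : 1 < Real.sqrt D := by rw [Real.lt_sqrt (by norm_num)]; linarith only [hD]
  obtain ⟨ε, hε0, hε1, hε⟩ : ∃ ε : ℝ, 0 < ε ∧ ε < 1 ∧ (1 + ε) / (1 - ε) = Real.sqrt D := by
    have h1 : 0 < Real.sqrt D + 1 := by linarith
    refine ⟨(Real.sqrt D - 1) / (Real.sqrt D + 1), div_pos (by linarith) h1, ?_, ?_⟩
    · rw [div_lt_one h1]; linarith
    · have h2 : 1 - (Real.sqrt D - 1) / (Real.sqrt D + 1) = 2 / (Real.sqrt D + 1) := by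
        field_simp; ring
      have h3 : 1 + (Real.sqrt D - 1) / (Real.sqrt D + 1) =
          2 * Real.sqrt D / (Real.sqrt D + 1) := by
        field_simp; ring
      rw [h2, h3]
      field_simp
  obtain ⟨δ, hδ0, hδ1, hδ⟩ : ∃ δ : ℝ, 0 < δ ∧ δ ≤ 1 / 2 ∧ Real.exp (4 * δ) ≤ Real.sqrt D := by
    have h1 : 0 < Real.log (Real.sqrt D) := Real.log_pos hsq
    refine ⟨min (1 / 2) (Real.log (Real.sqrt D) / 4), by positivity, min_le_left _ _, ?_⟩
    have h2 : 4 * min (1 / 2) (Real.log (Real.sqrt D) / 4) ≤ Real.log (Real.sqrt D) := by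
      have := min_le_right (1 / 2 : ℝ) (Real.log (Real.sqrt D) / 4)
      linarith only [this]
    calc _ ≤ Real.exp (Real.log (Real.sqrt D)) := Real.exp_le_exp.2 h2
      _ = Real.sqrt D := Real.exp_log (by linarith only [hθ0, hθ1, hsq])
  have hDD : (1 + ε) / (1 - ε) * Real.exp (4 * δ) ≤ D := by
    rw [hε]
    calc Real.sqrt D * Real.exp (4 * δ) ≤ Real.sqrt D * Real.sqrt D :=
          mul_le_mul_of_nonneg_left hδ (Real.sqrt_nonneg _)
      _ = D := Real.mul_self_sqrt (by linarith only [hθ0, hθ1, hD])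
  -- large n
  have hlim : Tendsto (fun n : ℕ => 1 + Real.log n) atTop atTop :=
    tendsto_atTop_add_const_left _ _ (Real.tendsto_log_atTop.comp tendsto_natCast_atTop_atTop)
  have hev1 := hlim.eventually (rpow_mul_log_le' hθ1 (C / δ) (by positivity))
  obtain ⟨n0, hn0⟩ := eventually_atTop.1 (hev1.and (exists_N0 hε0))
  obtain ⟨K, hK, hKl⟩ := rpow_mul_log_le hθ
  obtain ⟨C1, hC1, hupper⟩ := upper_nlogn p hp D hD
  have hlog2 : 0 < Real.log 2 := Real.log_pos (by norm_num)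
  have hlog2θ : 0 < Real.log 2 ^ θ' := Real.rpow_pos_of_pos hlog2 _
  have hθ'0 : 0 < θ' := by linarith only [hθ0, hθ]
  set CA : ℝ := (4 + 2 * (C / δ * K)) * 3 ^ θ' with hCA
  set CB : ℝ := C1 * n0 * n0 / Real.log 2 ^ θ' with hCB
  have hCA0 : 0 < CA := by positivity
  have hCB0 : 0 ≤ CB := by (clear * - hC1; positivity)
  refine ⟨CA + CB, by linarith only [hCA0, hCB0], fun n hn => ?_⟩
  have hnr : (2 : ℝ) ≤ n := by exact_mod_cast hn
  have hlogn : Real.log 2 ≤ Real.log n := Real.log_le_log (by norm_num) hnr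
  have hlognθ : Real.log 2 ^ θ' ≤ Real.log n ^ θ' := Real.rpow_le_rpow hlog2.le hlogn hθ'0.le
  rcases lt_or_ge n n0 with hlt | hge
  · obtain ⟨d, hd, hdn⟩ := hupper n hn
    refine ⟨d, hd, hdn.trans ?_⟩
    have h1 : C1 * n * Real.log n ≤ C1 * n0 * n0 := by
      have h2 : (n : ℝ) ≤ n0 := by exact_mod_cast hlt.le
      have h3 : Real.log n ≤ n0 := by
        have := Real.log_le_sub_one_of_pos (show (0 : ℝ) < n by linarith only [hθ0, hθ1, hnr])
        linarith only [hθ0, hθ1, h2, this]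
      have h4 : 0 ≤ Real.log n := by linarith only [hlog2, hlogn]
      exact mul_le_mul (mul_le_mul_of_nonneg_left h2 hC1.le) h3 h4 (by (clear * - hC1; positivity))
    calc C1 * n * Real.log n ≤ C1 * n0 * n0 := h1
      _ = CB * Real.log 2 ^ θ' := by rw [hCB, div_mul_cancel₀ _ hlog2θ.ne']
      _ ≤ CB * Real.log n ^ θ' := mul_le_mul_of_nonneg_left hlognθ hCB0
      _ ≤ (CA + CB) * Real.log n ^ θ' :=
        mul_le_mul_of_nonneg_right (by linarith only [hCA0]) (by linarith only [hlog2θ, hlognθ])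
      _ ≤ (CA + CB) * Real.log n ^ θ' + 1 := by linarith only [hθ0, hθ1]
      _ ≤ _ := Real.add_one_le_exp _
  · obtain ⟨hbig, m, hm0, hm1, hm2⟩ := hn0 n hge
    refine ⟨_, admissible_floor p hp (fun Ω _ μ X hX => near_embed p hp hC hδ0 hδ1 hε0 hε1 hDD H
      (by omega) hm0 hm1 hm2 ?_ Ω μ X hX), (Nat.floor_le (Real.exp_pos _).le).trans ?_⟩
    · have : 0 ≤ Real.log n := by linarith only [hlog2, hlogn]
      linarith only [hθ0, hθ1, hlog2, hlogn, hbig]
    · refine Real.exp_le_exp.2 ?_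
      have hl1 : 1 ≤ 1 + Real.log n := by linarith only [hlog2, hlogn]
      have hl3 : 1 + Real.log n ≤ 3 * Real.log n := by
        have : (1 : ℝ) / 2 < Real.log 2 := by linarith only [Real.log_two_gt_d9, hθ0, hθ1]
        linarith only [hlogn, this]
      have h1 := hKl _ hl1
      have h2 : 1 ≤ (1 + Real.log n) ^ θ' := Real.one_le_rpow hl1 hθ'0.le
      have h3 : (1 + Real.log n) ^ θ' ≤ 3 ^ θ' * Real.log n ^ θ' := by
        rw [← Real.mul_rpow (by norm_num) (by linarith only [hlog2, hlogn])]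
        exact Real.rpow_le_rpow (by linarith only [hθ0, hθ1, hlog2, hlogn]) hl3 hθ'0.le
      have h4 : 0 < C / δ := by positivity
      calc 4 + 2 * (C / δ * ((1 + Real.log n) ^ θ * (2 + 2 * Real.log (1 + Real.log n))))
          ≤ 4 * (1 + Real.log n) ^ θ' + 2 * (C / δ * (K * (1 + Real.log n) ^ θ')) := by
            have h5 := mul_le_mul_of_nonneg_left h1 h4.le
            linarith only [h2, h5]
        _ = (4 + 2 * (C / δ * K)) * (1 + Real.log n) ^ θ' := by ring
        _ ≤ (4 + 2 * (C / δ * K)) * (3 ^ θ' * Real.log n ^ θ') :=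
            mul_le_mul_of_nonneg_left h3 (by positivity)
        _ = CA * Real.log n ^ θ' := by rw [hCA]; ring
        _ ≤ _ := mul_le_mul_of_nonneg_right (by linarith only [hCB0]) (by linarith only [hlog2θ, hlognθ])

end Vale.Agent.P249
end
end

section

section

open MeasureTheory
open scoped ENNReal BigOperators

namespace Vale.Agent.P249

/-- The conclusion of the halving step, as a predicate (to be supplied by `halving`). -/
def HalvingStatement (p : ℝ≥0∞) [Fact (1 ≤ p)] : Prop :=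
    ∃ C₄ : ℝ, 1 ≤ C₄ ∧ ∀ C₀ : ℝ, 2 ≤ C₀ → ∃ (B D₀ : ℝ) (L₀ : ℕ), 1 ≤ B ∧ 1 ≤ D₀ ∧
      ∀ L : ℕ, L₀ ≤ L → ∀ (V : Type) [Fintype V] (N : ℕ) (f : V → PiLp p (fun _ : Fin N => ℝ)),
        0 < N → (N : ℝ) ≤ C₀ ^ (4 * L) → 2 * (Fintype.card V : ℝ) ≤ C₀ ^ L →
        ∃ (d : ℕ) (F : V → PiLp p (fun _ : Fin d => ℝ)), 0 < d ∧
          (d : ℝ) ≤ B * C₄ ^ L * Real.sqrt N ∧
          ∀ x y, ‖f x - f y‖ ≤ ‖F x - F y‖ ∧ ‖F x - F y‖ ≤ D₀ * ‖f x - f y‖

/-- The conclusion of step 0. -/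
def Step0Statement (p : ℝ≥0∞) [Fact (1 ≤ p)] : Prop :=
  ∃ C : ℝ, 1 ≤ C ∧
    ∀ (Ω : Type) [MeasurableSpace Ω] (μ : Measure Ω) (X : Finset (Lp ℝ p μ)), X.Nonempty →
      ∃ (N : ℕ) (f : Lp ℝ p μ → PiLp p (fun _ : Fin N => ℝ)), 0 < N ∧
        (N : ℝ) ≤ C * (X.card : ℝ) ^ 3 ∧
        ∀ x ∈ X, ∀ y ∈ X, ‖x - y‖ ≤ ‖f x - f y‖ ∧ ‖f x - f y‖ ≤ 2 * ‖x - y‖

/-- Step 0: importance sampling of coordinates with respect to all pairs. -/
theorem step0 (p : ℝ≥0∞) [Fact (1 ≤ p)] (hp : p ≠ ∞) : Step0Statement p := by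
  refine ⟨72, by norm_num, fun Ω _ μ X hX => ?_⟩
  have hcard : 0 < X.card := hX.card_pos
  obtain ⟨f, s, hs, hf⟩ := exists_embed_poly hp X hcard
  refine ⟨72 * X.card ^ 3, fun x => s⁻¹ • f x, by positivity, by push_cast; rfl,
    fun x hx y hy => ?_⟩
  obtain ⟨h1, h2⟩ := hf x hx y hy
  rw [← smul_sub, norm_smul, norm_inv, Real.norm_of_nonneg hs.le]
  constructor
  · rw [le_inv_mul_iff₀ hs]; exact h1
  · rw [inv_mul_le_iff₀ hs]; linarith

/-- Iterating the halving step `k` times. -/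
theorem halving_iterate (p : ℝ≥0∞) [Fact (1 ≤ p)] {C₄ C₀ B D₀ : ℝ} {L : ℕ}
    (hC₄ : 1 ≤ C₄) (hC₀ : 1 ≤ C₀) (hB : 1 ≤ B) (hD₀ : 1 ≤ D₀)
    (hBL : B * C₄ ^ L ≤ C₀ ^ (2 * L))
    (H : ∀ (V : Type) [Fintype V] (N : ℕ) (f : V → PiLp p (fun _ : Fin N => ℝ)),
        0 < N → (N : ℝ) ≤ C₀ ^ (4 * L) → 2 * (Fintype.card V : ℝ) ≤ C₀ ^ L →
        ∃ (d : ℕ) (F : V → PiLp p (fun _ : Fin d => ℝ)), 0 < d ∧
          (d : ℝ) ≤ B * C₄ ^ L * Real.sqrt N ∧
          ∀ x y, ‖f x - f y‖ ≤ ‖F x - F y‖ ∧ ‖F x - F y‖ ≤ D₀ * ‖f x - f y‖)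
    (V : Type) [Fintype V] (N : ℕ) (f : V → PiLp p (fun _ : Fin N => ℝ)) (hN : 0 < N)
    (hNC : (N : ℝ) ≤ C₀ ^ (4 * L)) (hV : 2 * (Fintype.card V : ℝ) ≤ C₀ ^ L) (k : ℕ) :
    ∃ (d : ℕ) (F : V → PiLp p (fun _ : Fin d => ℝ)), 0 < d ∧ (d : ℝ) ≤ C₀ ^ (4 * L) ∧
      (d : ℝ) ≤ (B * C₄ ^ L) ^ 2 * (N : ℝ) ^ ((1 : ℝ) / 2 ^ k) ∧
      ∀ x y, ‖f x - f y‖ ≤ ‖F x - F y‖ ∧ ‖F x - F y‖ ≤ D₀ ^ k * ‖f x - f y‖ := by
  have hA : 1 ≤ B * C₄ ^ L := by
    have h1 : 1 ≤ C₄ ^ L := one_le_pow₀ hC₄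
    nlinarith only [hB, h1]
  induction k with
  | zero =>
    refine ⟨N, f, hN, hNC, ?_, fun x y => ⟨le_rfl, by simp⟩⟩
    have h1 : (1 : ℝ) ≤ (B * C₄ ^ L) ^ 2 := one_le_pow₀ hA
    simp only [pow_zero, div_one, Real.rpow_one]
    have h2 : (0 : ℝ) ≤ N := Nat.cast_nonneg N
    nlinarith only [h1]
  | succ k ih =>
    obtain ⟨d, F, hd, hdC, hdN, hF⟩ := ih
    obtain ⟨d', F', hd', hdN', hF'⟩ := H V d F hd hdC hV
    refine ⟨d', F', hd', ?_, ?_, fun x y => ⟨(hF x y).1.trans (hF' x y).1, ?_⟩⟩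
    · have h1 : Real.sqrt d ≤ C₀ ^ (2 * L) := by
        rw [Real.sqrt_le_left (by positivity), ← pow_mul]
        refine hdC.trans (le_of_eq ?_)
        congr 1
        ring
      calc (d' : ℝ) ≤ B * C₄ ^ L * Real.sqrt d := hdN'
        _ ≤ C₀ ^ (2 * L) * C₀ ^ (2 * L) := by
          refine mul_le_mul hBL h1 (Real.sqrt_nonneg _) (by positivity)
        _ = C₀ ^ (4 * L) := by ring
    · have h0 : (0 : ℝ) ≤ N := Nat.cast_nonneg N
      have hpos : 0 ≤ B * C₄ ^ L := by linarith only [hA]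
      have h1 : Real.sqrt d ≤ (B * C₄ ^ L) * (N : ℝ) ^ ((1 : ℝ) / 2 ^ (k + 1)) := by
        rw [Real.sqrt_le_left (by positivity)]
        refine hdN.trans (le_of_eq ?_)
        have h2 : ((N : ℝ) ^ ((1 : ℝ) / 2 ^ (k + 1))) ^ 2 = (N : ℝ) ^ ((1 : ℝ) / 2 ^ k) := by
          rw [← Real.rpow_natCast, ← Real.rpow_mul h0]
          congr 1
          push_cast
          rw [pow_succ]
          field_simp
        rw [← h2]
        ring
      calc (d' : ℝ) ≤ B * C₄ ^ L * Real.sqrt d := hdN'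
        _ ≤ B * C₄ ^ L * ((B * C₄ ^ L) * (N : ℝ) ^ ((1 : ℝ) / 2 ^ (k + 1))) :=
          mul_le_mul_of_nonneg_left h1 hpos
        _ = _ := by ring
    · calc ‖F' x - F' y‖ ≤ D₀ * ‖F x - F y‖ := (hF' x y).2
        _ ≤ D₀ * (D₀ ^ k * ‖f x - f y‖) :=
          mul_le_mul_of_nonneg_left (hF x y).2 (by linarith only [hD₀])
        _ = D₀ ^ (k + 1) * ‖f x - f y‖ := by ring

/-- From halving and polynomial sampling to dimension `n ^ ε`. -/
theorem power_bound_of (p : ℝ≥0∞) [Fact (1 ≤ p)] (hp : p ≠ ∞) (hhalf : HalvingStatement p)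
    (hstep : Step0Statement p) (ε : ℝ) (hε : 0 < ε) :
    ∃ D C : ℝ, 1 ≤ D ∧ 0 < C ∧ ∀ n : ℕ, 1 ≤ n →
      ∃ d : ℕ, Admissible p n D d ∧ (d : ℝ) ≤ C * (n : ℝ) ^ ε := by
  classical
  obtain ⟨C₄, hC₄, hhalf⟩ := hhalf
  obtain ⟨C, hC, hstep⟩ := hstep
  -- the number of factors
  obtain ⟨K, hK⟩ := exists_nat_ge (8 / ε)
  have hK0 : (0 : ℝ) < K := lt_of_lt_of_le (by positivity) hK
  have hK1 : K ≠ 0 := by
    rintro rfl
    simp at hK0
  have hKε : 2 / (K : ℝ) ≤ ε / 2 := by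
    rw [div_le_div_iff₀ hK0 two_pos]
    rw [div_le_iff₀ hε] at hK
    nlinarith only [hK]
  obtain ⟨k, hk⟩ : ∃ k : ℕ, 3 * ((1 : ℝ) / 2 ^ k) ≤ ε / 2 := by
    obtain ⟨k, hk⟩ := pow_unbounded_of_one_lt (6 / ε) (one_lt_two : (1 : ℝ) < 2)
    refine ⟨k, ?_⟩
    have h2k : (0 : ℝ) < 2 ^ k := by positivity
    rw [div_lt_iff₀ hε] at hk
    rw [mul_one_div, div_le_div_iff₀ h2k two_pos]
    linarith only [hk]
  set C₀ : ℝ := (C₄ + 1) ^ K with hC₀def
  have hC₀2 : 2 ≤ C₀ := by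
    calc (2 : ℝ) ≤ C₄ + 1 := by linarith only [hC₄]
      _ = (C₄ + 1) ^ 1 := (pow_one _).symm
      _ ≤ (C₄ + 1) ^ K := pow_le_pow_right₀ (by linarith only [hC₄]) (Nat.one_le_iff_ne_zero.2 hK1)
  have hC₄K : C₄ ^ K ≤ C₀ := pow_le_pow_left₀ (by linarith only [hC₄]) (by linarith only []) K
  have hC₄C₀ : C₄ ≤ C₀ := by
    calc C₄ = C₄ ^ 1 := (pow_one _).symm
      _ ≤ C₄ ^ K := pow_le_pow_right₀ hC₄ (Nat.one_le_iff_ne_zero.2 hK1)
      _ ≤ C₀ := hC₄K
  obtain ⟨B, D₀, L₀, hB, hD₀, hH⟩ := hhalf C₀ hC₀2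
  obtain ⟨L₁, hL₁⟩ := pow_unbounded_of_one_lt (max B C) (show (1 : ℝ) < C₀ by linarith only [hC₀2])
  set L₂ : ℕ := max L₀ L₁ with hL₂
  have hC₀1 : 1 ≤ C₀ := by linarith only [hC₀2]
  have hC₀0 : 0 < C₀ := by linarith only [hC₀2]
  refine ⟨2 * D₀ ^ k, B ^ 2 * (C₄ ^ L₂) ^ 2 * (2 * C₀) ^ ((2 : ℝ) / K) * C ^ ((1 : ℝ) / 2 ^ k),
    ?_, ?_, fun n hn => ?_⟩
  · have : 1 ≤ D₀ ^ k := one_le_pow₀ hD₀
    linarith only [this]
  · have h1 : 0 < C₄ := by linarith only [hC₄]
    have h2 : 0 < B := by linarith only [hB]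
    have h3 : 0 < C := by linarith only [hC]
    (clear * - hC₄ hC hB; positivity)
  -- the number of levels
  have hn1 : (1 : ℝ) ≤ n := by exact_mod_cast hn
  have hex : ∃ M : ℕ, 2 * (n : ℝ) ≤ C₀ ^ M := by
    obtain ⟨M, hM⟩ := pow_unbounded_of_one_lt (2 * (n : ℝ)) (show (1 : ℝ) < C₀ by linarith only [hC₀2])
    exact ⟨M, hM.le⟩
  obtain ⟨M, hM, hM'⟩ : ∃ M : ℕ, 2 * (n : ℝ) ≤ C₀ ^ M ∧ C₀ ^ M ≤ 2 * C₀ * n := by
    refine ⟨Nat.find hex, Nat.find_spec hex, ?_⟩
    have h0 : Nat.find hex ≠ 0 := by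
      intro h
      have := Nat.find_spec hex
      rw [h, pow_zero] at this
      linarith only [hn1, this]
    obtain ⟨M', hM'⟩ := Nat.exists_eq_succ_of_ne_zero h0
    have h1 := Nat.find_min hex (m := M') (by omega)
    push Not at h1
    rw [hM', pow_succ]
    nlinarith only [hC₀2, h1]
  set L : ℕ := L₂ + M with hL
  have hLL₀ : L₀ ≤ L := (le_max_left _ _).trans (Nat.le_add_right _ _)
  have hLL₁ : L₁ ≤ L := (le_max_right _ _).trans (Nat.le_add_right _ _)
  have hLM : M ≤ L := Nat.le_add_left _ _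
  have hBC : max B C ≤ C₀ ^ L := hL₁.le.trans (pow_le_pow_right₀ hC₀1 hLL₁)
  have hnL : 2 * (n : ℝ) ≤ C₀ ^ L := hM.trans (pow_le_pow_right₀ hC₀1 hLM)
  have hBL : B * C₄ ^ L ≤ C₀ ^ (2 * L) := by
    calc B * C₄ ^ L ≤ C₀ ^ L * C₀ ^ L := by
          refine mul_le_mul ((le_max_left _ _).trans hBC) ?_ (by positivity) (by positivity)
          exact pow_le_pow_left₀ (by linarith only [hC₄]) hC₄C₀ L
      _ = C₀ ^ (2 * L) := by ring
  -- the target dimension: uniform in the space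
  have hmain : ∀ (Ω : Type) [MeasurableSpace Ω] (μ : Measure Ω) (X : Finset (Lp ℝ p μ)),
      X.card = n → ∃ (d : ℕ) (f : Lp ℝ p μ → PiLp p (fun _ : Fin d => ℝ)),
        (d : ℝ) ≤ (B * C₄ ^ L) ^ 2 * (C * (n : ℝ) ^ 3) ^ ((1 : ℝ) / 2 ^ k) ∧
        DistortionAtMost X f (2 * D₀ ^ k) := by
    intro Ω _ μ X hX
    have hXne : X.Nonempty := by
      rw [← Finset.card_pos]; omega
    obtain ⟨N, f, hN, hNC, hf⟩ := hstep Ω μ X hXne
    rw [hX] at hNC
    have hN4 : (N : ℝ) ≤ C₀ ^ (4 * L) := by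
      have h1 : (n : ℝ) ^ 3 ≤ (C₀ ^ L) ^ 3 := pow_le_pow_left₀ (by positivity) (by linarith only [hn1,
                                                                                     hnL]) 3
      calc (N : ℝ) ≤ C * (n : ℝ) ^ 3 := hNC
        _ ≤ C₀ ^ L * (C₀ ^ L) ^ 3 :=
          mul_le_mul ((le_max_right _ _).trans hBC) h1 (by positivity) (by positivity)
        _ = C₀ ^ (4 * L) := by ring
    have hcard : 2 * (Fintype.card X : ℝ) ≤ C₀ ^ L := by
      rw [Fintype.card_coe, hX]; exact hnL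
    obtain ⟨d, F, hd, -, hdN, hF⟩ := halving_iterate p hC₄ hC₀1 hB hD₀ hBL
      (fun V _ N f => hH L hLL₀ V N f) X N (fun x => f x) hN hN4 hcard k
    refine ⟨d, fun x => if h : x ∈ X then F ⟨x, h⟩ else 0, hdN.trans ?_, 1, one_pos,
      fun x hx y hy => ?_⟩
    · refine mul_le_mul_of_nonneg_left ?_ (by positivity)
      exact Real.rpow_le_rpow (by positivity) hNC (by positivity)
    · obtain ⟨h1, h2⟩ := hf x hx y hy
      obtain ⟨h3, h4⟩ := hF ⟨x, hx⟩ ⟨y, hy⟩
      dsimp only at h3 h4 ⊢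
      rw [dif_pos hx, dif_pos hy]
      constructor
      · rw [one_mul]; exact h1.trans h3
      · have h5 : 0 ≤ D₀ ^ k := by positivity
        calc ‖F ⟨x, hx⟩ - F ⟨y, hy⟩‖ ≤ D₀ ^ k * ‖f x - f y‖ := h4
          _ ≤ D₀ ^ k * (2 * ‖x - y‖) := mul_le_mul_of_nonneg_left h2 h5
          _ = 2 * D₀ ^ k * 1 * ‖x - y‖ := by ring
  -- the size of the bound
  set U : ℝ := (B * C₄ ^ L) ^ 2 * (C * (n : ℝ) ^ 3) ^ ((1 : ℝ) / 2 ^ k) with hU
  have hU0 : 0 ≤ U := by (clear * - hC₄ hC hB hn; positivity)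
  have hUn : U ≤ B ^ 2 * (C₄ ^ L₂) ^ 2 * (2 * C₀) ^ ((2 : ℝ) / K) * C ^ ((1 : ℝ) / 2 ^ k) *
      (n : ℝ) ^ ε := by
    have hn0 : (0 : ℝ) < n := by linarith only [hn1]
    have h1 : (C * (n : ℝ) ^ 3) ^ ((1 : ℝ) / 2 ^ k) ≤
        C ^ ((1 : ℝ) / 2 ^ k) * (n : ℝ) ^ (ε / 2) := by
      rw [Real.mul_rpow (by linarith only [hC]) (by positivity)]
      refine mul_le_mul_of_nonneg_left ?_ (by positivity)
      rw [← Real.rpow_natCast, ← Real.rpow_mul hn0.le]
      exact Real.rpow_le_rpow_of_exponent_le hn1 (by push_cast; exact hk)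
    have h2 : (C₄ ^ M) ^ 2 ≤ (2 * C₀) ^ ((2 : ℝ) / K) * (n : ℝ) ^ (ε / 2) := by
      have h3 : (C₄ ^ M) ^ K ≤ 2 * C₀ * n := by
        calc (C₄ ^ M) ^ K = (C₄ ^ K) ^ M := by rw [← pow_mul, ← pow_mul, mul_comm]
          _ ≤ C₀ ^ M := pow_le_pow_left₀ (by positivity) hC₄K M
          _ ≤ _ := hM'
      have h4 : C₄ ^ M ≤ (2 * C₀ * n) ^ ((1 : ℝ) / K) := by
        have h5 : ((C₄ ^ M) ^ K) ^ ((1 : ℝ) / K) ≤ (2 * C₀ * n) ^ ((1 : ℝ) / K) :=
          Real.rpow_le_rpow (by positivity) h3 (by positivity)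
        have h6 : ((C₄ ^ M) ^ K) ^ ((1 : ℝ) / K) = C₄ ^ M := by
          rw [one_div]
          exact Real.pow_rpow_inv_natCast (by positivity) hK1
        rwa [h6] at h5
      calc (C₄ ^ M) ^ 2 ≤ ((2 * C₀ * n) ^ ((1 : ℝ) / K)) ^ 2 :=
            pow_le_pow_left₀ (by positivity) h4 2
        _ = (2 * C₀ * n) ^ ((2 : ℝ) / K) := by
          rw [← Real.rpow_natCast, ← Real.rpow_mul (by positivity)]
          congr 1
          push_cast
          ring
        _ = (2 * C₀) ^ ((2 : ℝ) / K) * (n : ℝ) ^ ((2 : ℝ) / K) :=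
          Real.mul_rpow (by positivity) hn0.le
        _ ≤ _ := by
          refine mul_le_mul_of_nonneg_left ?_ (by positivity)
          exact Real.rpow_le_rpow_of_exponent_le hn1 hKε
    have h3 : (n : ℝ) ^ ε = (n : ℝ) ^ (ε / 2) * (n : ℝ) ^ (ε / 2) := by
      rw [← Real.rpow_add hn0]; congr 1; ring
    calc U = B ^ 2 * (C₄ ^ L₂) ^ 2 * (C₄ ^ M) ^ 2 * (C * (n : ℝ) ^ 3) ^ ((1 : ℝ) / 2 ^ k) := by
          rw [hU, hL, pow_add]; ring
      _ ≤ B ^ 2 * (C₄ ^ L₂) ^ 2 * ((2 * C₀) ^ ((2 : ℝ) / K) * (n : ℝ) ^ (ε / 2)) *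
          (C ^ ((1 : ℝ) / 2 ^ k) * (n : ℝ) ^ (ε / 2)) := by
          refine mul_le_mul (mul_le_mul_of_nonneg_left h2 (by positivity)) h1 (by positivity)
            (by positivity)
      _ = _ := by rw [h3]; ring
  refine ⟨⌊U⌋₊, fun Ω _ μ X hX => ?_, (Nat.floor_le hU0).trans hUn⟩
  obtain ⟨d, f, hd, s, hs, hf⟩ := hmain Ω μ X hX
  have hd' : d ≤ ⌊U⌋₊ := Nat.le_floor hd
  refine ⟨fun x => padL (f x), s, hs, fun x hx y hy => ?_⟩
  rw [norm_padL_sub hp hd']
  exact hf x hx y hy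

end Vale.Agent.P249
end
end

section

section

open MeasureTheory
open scoped ENNReal

namespace Vale.Agent.P249

/-- For every finite `p ≥ 1` and every `ε > 0` there is a distortion `D` such that `n`-point
subsets of `L_p` embed into `ℓ_p^d` with distortion `D` and `d ≤ C n ^ ε`. -/
theorem power_bound (p : ℝ≥0∞) [Fact (1 ≤ p)] (hp : p ≠ ∞) (ε : ℝ) (hε : 0 < ε) :
    ∃ D C : ℝ, 1 ≤ D ∧ 0 < C ∧ ∀ n : ℕ, 1 ≤ n →
      ∃ d : ℕ, Admissible p n D d ∧ (d : ℝ) ≤ C * (n : ℝ) ^ ε :=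
  power_bound_of p hp (halving p hp) (step0 p hp) ε hε

end Vale.Agent.P249
end
end

section

section

open MeasureTheory Set Filter Topology
open scoped ENNReal NNReal Pointwise

namespace Vale.Agent.P249

theorem pilp_norm_le {p : ℝ≥0∞} (hp : 0 < p.toReal) {d : ℕ} (v : PiLp p (fun _ : Fin d => ℝ))
    {B : ℝ} (hB : 0 ≤ B) (h : ∑ j, |v j| ^ p.toReal ≤ B ^ p.toReal) : ‖v‖ ≤ B := by
  rw [PiLp.norm_eq_sum hp]
  have h0 : 0 ≤ ∑ j, ‖v j‖ ^ p.toReal :=
    Finset.sum_nonneg fun j _ => Real.rpow_nonneg (norm_nonneg _) _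
  calc (∑ j, ‖v j‖ ^ p.toReal) ^ (1 / p.toReal) ≤ (B ^ p.toReal) ^ (1 / p.toReal) :=
        Real.rpow_le_rpow h0 h (by positivity)
    _ = B := by rw [← Real.rpow_mul hB, mul_one_div_cancel hp.ne', Real.rpow_one]

theorem pilp_norm_le_of_forall {p : ℝ≥0∞} (hp : 0 < p.toReal) {d : ℕ}
    (v : PiLp p (fun _ : Fin d => ℝ)) {M : ℝ} (hM : 0 ≤ M) (h : ∀ j, |v j| ≤ M) :
    ‖v‖ ≤ (d : ℝ) ^ (1 / p.toReal) * M := by
  refine pilp_norm_le hp v (by positivity) ?_
  rw [Real.mul_rpow (by positivity) hM, ← Real.rpow_mul (by positivity),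
    one_div_mul_cancel hp.ne', Real.rpow_one]
  calc ∑ j, |v j| ^ p.toReal ≤ ∑ _j : Fin d, M ^ p.toReal :=
        Finset.sum_le_sum fun j _ => Real.rpow_le_rpow (abs_nonneg _) (h j) hp.le
    _ = d * M ^ p.toReal := by simp only [Finset.sum_const, Finset.card_univ, Fintype.card_fin,
                                 nsmul_eq_mul]

/-- The grid point of index `a`. -/
noncomputable def gridPt (k m : ℕ) (a : Fin k → Fin m) : EuclideanSpace ℂ (Fin k) :=
  torus k (WithLp.toLp 2 fun i => ((a i : ℕ) : ℝ) / m)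

/-- Rounding on the torus. -/
theorem exists_grid (k m : ℕ) (hm : 0 < m) (u : EuclideanSpace ℝ (Fin k)) :
    ∃ a : Fin k → Fin m, ‖torus k u - gridPt k m a‖ ≤ 2 * Real.pi * (Real.sqrt k / m) := by
  have hm' : (0 : ℝ) < m := by exact_mod_cast hm
  have hfl : ∀ i, ⌊(m : ℝ) * Int.fract (u i)⌋₊ < m := by
    intro i
    rw [Nat.floor_lt (mul_nonneg hm'.le (Int.fract_nonneg _))]
    calc (m : ℝ) * Int.fract (u i) < m * 1 := by
          exact mul_lt_mul_of_pos_left (Int.fract_lt_one _) hm'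
      _ = m := mul_one _
  refine ⟨fun i => ⟨⌊(m : ℝ) * Int.fract (u i)⌋₊, hfl i⟩, ?_⟩
  set v : EuclideanSpace ℝ (Fin k) := WithLp.toLp 2 fun i => Int.fract (u i) with hv
  have h1 : torus k u = torus k v := by
    have : torus k ((WithLp.toLp 2 fun i => ((⌊u i⌋ : ℤ) : ℝ)) + v) = torus k v :=
      torus_add_int _ _ fun i => ⟨⌊u i⌋, rfl⟩
    rw [← this]
    congr 1
    ext i
    simp [hv]
  rw [h1, gridPt]
  refine (torus_sub_le _ _).trans ?_
  have hpi : (0 : ℝ) ≤ 2 * Real.pi := by positivity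
  refine mul_le_mul_of_nonneg_left ?_ hpi
  rw [EuclideanSpace.norm_eq]
  have h2 : ∀ i : Fin k, ‖(v - WithLp.toLp 2 fun i => ((⌊(m : ℝ) * Int.fract (u i)⌋₊ : ℕ) : ℝ) / m) i‖ ^ 2
      ≤ (1 / (m : ℝ)) ^ 2 := by
    intro i
    have e : (v - WithLp.toLp 2 fun i => ((⌊(m : ℝ) * Int.fract (u i)⌋₊ : ℕ) : ℝ) / m) i =
        Int.fract (u i) - ((⌊(m : ℝ) * Int.fract (u i)⌋₊ : ℕ) : ℝ) / m := rfl
    rw [e, Real.norm_eq_abs, sq_abs]
    set t := Int.fract (u i) with ht
    have ht0 : 0 ≤ t := Int.fract_nonneg _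
    have h3 : ((⌊(m : ℝ) * t⌋₊ : ℕ) : ℝ) ≤ m * t := Nat.floor_le (by (clear * - hm; positivity))
    have h4 : (m : ℝ) * t < (⌊(m : ℝ) * t⌋₊ : ℕ) + 1 := Nat.lt_floor_add_one _
    have h5 : t - ((⌊(m : ℝ) * t⌋₊ : ℕ) : ℝ) / m = (m * t - (⌊(m : ℝ) * t⌋₊ : ℕ)) / m := by
      field_simp
    rw [h5]
    have h6 : 0 ≤ (m * t - (⌊(m : ℝ) * t⌋₊ : ℕ)) / m := div_nonneg (by linarith only [h3]) hm'.le
    have h7 : (m * t - (⌊(m : ℝ) * t⌋₊ : ℕ)) / m ≤ 1 / m := by
      gcongr
      linarith only [h4]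
    exact pow_le_pow_left₀ h6 h7 2
  calc Real.sqrt (∑ i, ‖(v - WithLp.toLp 2 fun i =>
          ((⌊(m : ℝ) * Int.fract (u i)⌋₊ : ℕ) : ℝ) / m) i‖ ^ 2)
      ≤ Real.sqrt (∑ _i : Fin k, (1 / (m : ℝ)) ^ 2) :=
        Real.sqrt_le_sqrt (Finset.sum_le_sum fun i _ => h2 i)
    _ = Real.sqrt k / m := by
        rw [Finset.sum_const, Finset.card_univ, Fintype.card_fin, nsmul_eq_mul,
          Real.sqrt_mul (by positivity), Real.sqrt_sq (by positivity)]
        ring

/-- The antipodally symmetric grid in `ℂ^k`. -/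
noncomputable def gridSet (k m : ℕ) : Finset (EuclideanSpace ℂ (Fin k)) := by
  classical
  exact (Finset.univ.image (gridPt k m)) ∪ (Finset.univ.image fun a => -gridPt k m a)

theorem gridSet_card_le (k m : ℕ) : (gridSet k m).card ≤ 2 * m ^ k := by
  classical
  have h1 : ((Finset.univ.image (gridPt k m)) : Finset (EuclideanSpace ℂ (Fin k))).card ≤ m ^ k := by
    refine Finset.card_image_le.trans ?_
    simp only [Finset.card_univ, Fintype.card_pi, Fintype.card_fin, Finset.prod_const, Std.le_refl]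
  have h2 : ((Finset.univ.image fun a => -gridPt k m a) :
      Finset (EuclideanSpace ℂ (Fin k))).card ≤ m ^ k := by
    refine Finset.card_image_le.trans ?_
    simp only [Finset.card_univ, Fintype.card_pi, Fintype.card_fin, Finset.prod_const, Std.le_refl]
  unfold gridSet
  refine (Finset.card_union_le _ _).trans ?_
  omega

theorem gridPt_mem (k m : ℕ) (a : Fin k → Fin m) : gridPt k m a ∈ gridSet k m := by
  classical
  unfold gridSet
  exact Finset.mem_union_left _ (Finset.mem_image_of_mem _ (Finset.mem_univ a))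

theorem neg_gridPt_mem (k m : ℕ) (a : Fin k → Fin m) : -gridPt k m a ∈ gridSet k m := by
  classical
  unfold gridSet
  exact Finset.mem_union_right _ (Finset.mem_image_of_mem (fun a => -gridPt k m a)
    (Finset.mem_univ a))

/-- Any embedding of the symmetric torus grid, with the Euclidean metric, into `ℓ_p^d` with
distortion at most `D` needs `d ≥ c k^(p/2)`. -/
theorem grid_lower {p : ℝ≥0∞} [hp1 : Fact (1 ≤ p)] (hptop : p ≠ ∞) {D : ℝ} (hD : 1 ≤ D) :
    ∃ c : ℝ, 0 < c ∧ ∀ (k m : ℕ), 0 < m → Real.sqrt k ≤ m →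
      ∀ (d : ℕ) (f : EuclideanSpace ℂ (Fin k) → PiLp p (fun _ : Fin d => ℝ)) (s : ℝ), 0 < s →
      (∀ x ∈ gridSet k m, ∀ y ∈ gridSet k m,
        s * ‖x - y‖ ≤ ‖f x - f y‖ ∧ ‖f x - f y‖ ≤ D * s * ‖x - y‖) →
      c * (k : ℝ) ^ (p.toReal / 2) ≤ d := by
  have hp0 : 0 < p.toReal := ENNReal.toReal_pos (zero_lt_one.trans_le hp1.out).ne' hptop
  have hp1' : 1 ≤ p.toReal := by
    have := ENNReal.toReal_mono hptop hp1.out
    simpa only [ge_iff_le, ENNReal.toReal_one] using this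
  obtain ⟨C, hC, hanti⟩ := antipodal hp1'
  set q := p.toReal with hq
  set B : ℝ := D * (C ^ (1 / q) + 4 * Real.pi) / 2 with hB
  have hBpos : 0 < B := by
    have : 0 < C ^ (1 / q) := by positivity
    have := Real.pi_pos
    positivity
  refine ⟨(B ^ q)⁻¹, by positivity, fun k m hm hkm d f s hs hf => ?_⟩
  have hm' : (0 : ℝ) < m := by exact_mod_cast hm
  have hD0 : 0 < D := by linarith only [hD]
  set K : ℝ≥0 := Real.toNNReal (D * s) with hK
  have hKr : (K : ℝ) = D * s := Real.coe_toNNReal _ (by (clear * - hD hs; positivity))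
  -- coordinates are Lipschitz
  have hcoord : ∀ j : Fin d, LipschitzOnWith K (fun x => f x j)
      (gridSet k m : Set (EuclideanSpace ℂ (Fin k))) := by
    intro j
    refine LipschitzOnWith.of_dist_le_mul fun x hx y hy => ?_
    rw [dist_eq_norm, dist_eq_norm, hKr]
    have h1 : ‖f x j - f y j‖ ≤ ‖f x - f y‖ := PiLp.norm_apply_le (f x - f y) j
    exact h1.trans (hf x hx y hy).2
  choose F hFL hFeq using fun j => (hcoord j).extend_real
  obtain ⟨u, hu⟩ := hanti k d K F hFL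
  obtain ⟨a, ha⟩ := exists_grid k m hm u
  set z := gridPt k m a with hz
  have hδ : ‖torus k u - z‖ ≤ 2 * Real.pi := by
    refine ha.trans ?_
    have : Real.sqrt k / m ≤ 1 := by rw [div_le_one hm']; exact hkm
    have hpi : (0 : ℝ) ≤ 2 * Real.pi := by positivity
    nlinarith only [this, hpi]
  let Φ : EuclideanSpace ℂ (Fin k) → PiLp p (fun _ : Fin d => ℝ) := fun x =>
    WithLp.toLp p fun j => F j x
  have hΦf : ∀ x ∈ gridSet k m, Φ x = f x := by
    intro x hx
    ext j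
    exact (hFeq j hx).symm
  have hΦ : ∀ x y, ‖Φ x - Φ y‖ ≤ (d : ℝ) ^ (1 / q) * (K * ‖x - y‖) := by
    intro x y
    refine pilp_norm_le_of_forall hp0 _ (by (clear * - hD hs; positivity)) fun j => ?_
    have := (hFL j).norm_sub_le x y
    exact this
  have hmid : ‖Φ (-torus k u) - Φ (torus k u)‖ ≤ (d : ℝ) ^ (1 / q) * (C ^ (1 / q) * K) := by
    refine pilp_norm_le hp0 _ (by (clear * - hD hC hs; positivity)) ?_
    rw [Real.mul_rpow (by (clear * -; positivity)) (by positivity), Real.mul_rpow (by positivity) (by positivity),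
      ← Real.rpow_mul (by (clear * -; positivity)), ← Real.rpow_mul hC.le, one_div_mul_cancel hp0.ne',
      Real.rpow_one, Real.rpow_one]
    exact hu
  have hup : ‖f (-z) - f z‖ ≤ (d : ℝ) ^ (1 / q) * (K * (C ^ (1 / q) + 4 * Real.pi)) := by
    rw [← hΦf _ (neg_gridPt_mem k m a), ← hΦf _ (gridPt_mem k m a)]
    have h1 : ‖Φ (-z) - Φ (-torus k u)‖ ≤ (d : ℝ) ^ (1 / q) * (K * (2 * Real.pi)) := by
      refine (hΦ _ _).trans ?_
      have : ‖-z - -torus k u‖ = ‖torus k u - z‖ := by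
        congr 1; abel
      rw [this]
      (clear * - hD hs hδ; gcongr)
    have h2 : ‖Φ (torus k u) - Φ z‖ ≤ (d : ℝ) ^ (1 / q) * (K * (2 * Real.pi)) := by
      refine (hΦ _ _).trans ?_
      gcongr
    have h3 : Φ (-z) - Φ z = (Φ (-z) - Φ (-torus k u)) + (Φ (-torus k u) - Φ (torus k u)) +
        (Φ (torus k u) - Φ z) := by abel
    rw [h3]
    refine (norm_add₃_le).trans ?_
    calc ‖Φ (-z) - Φ (-torus k u)‖ + ‖Φ (-torus k u) - Φ (torus k u)‖ + ‖Φ (torus k u) - Φ z‖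
        ≤ (d : ℝ) ^ (1 / q) * (K * (2 * Real.pi)) + (d : ℝ) ^ (1 / q) * (C ^ (1 / q) * K) +
          (d : ℝ) ^ (1 / q) * (K * (2 * Real.pi)) := by (clear * - hmid h1 h2; gcongr)
      _ = _ := by ring
  have hlow : s * (2 * Real.sqrt k) ≤ ‖f (-z) - f z‖ := by
    have h1 := (hf _ (neg_gridPt_mem k m a) _ (gridPt_mem k m a)).1
    have h2 : ‖-z - z‖ = 2 * Real.sqrt k := by
      have : -z - z = (-2 : ℝ) • z := by
        rw [neg_smul, two_smul]; abel
      rw [this, norm_smul, hz, gridPt, norm_torus]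
      norm_num
    rwa [h2] at h1
  have hmain : Real.sqrt k ≤ (d : ℝ) ^ (1 / q) * B := by
    have h1 : s * (2 * Real.sqrt k) ≤ s * (2 * ((d : ℝ) ^ (1 / q) * B)) := by
      refine (hlow.trans hup).trans (le_of_eq ?_)
      rw [hKr, hB]
      ring
    have h2 := le_of_mul_le_mul_left h1 hs
    linarith only [h2]
  have hpow : (k : ℝ) ^ (q / 2) ≤ d * B ^ q := by
    have h1 : Real.sqrt k ^ q ≤ ((d : ℝ) ^ (1 / q) * B) ^ q :=
      Real.rpow_le_rpow (Real.sqrt_nonneg _) hmain hp0.le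
    rw [Real.mul_rpow (by (clear * -; positivity)) hBpos.le, ← Real.rpow_mul (by (clear * -; positivity)),
      one_div_mul_cancel hp0.ne', Real.rpow_one, Real.sqrt_eq_rpow, ← Real.rpow_mul (by (clear * -; positivity))]
      at h1
    have e : 1 / 2 * q = q / 2 := by ring
    rwa [e] at h1
  rw [inv_mul_le_iff₀ (by positivity)]
  linarith only [hpow]

end Vale.Agent.P249
end
end

section

section

open MeasureTheory Set Filter Topology
open scoped ENNReal NNReal Pointwise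

namespace Vale.Agent.P249

theorem infinite_Lp (k : ℕ) (hk : 0 < k) (p : ℝ≥0∞) [hp1 : Fact (1 ≤ p)] :
    Infinite (Lp ℝ p (ballMeasure (EuclideanSpace ℂ (Fin k)))) := by
  have : Nonempty (Fin k) := ⟨⟨0, hk⟩⟩
  have : Nontrivial (EuclideanSpace ℂ (Fin k)) := inferInstance
  obtain ⟨c, hc, J, hJ⟩ := exists_scaled_isometry (H := EuclideanSpace ℂ (Fin k)) p
    (zero_lt_one.trans_le hp1.out).ne'
  have hinj : Function.Injective J := by
    intro x y hxy
    have := hJ x y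
    rw [hxy, sub_self, norm_zero] at this
    have h2 : ‖x - y‖ = 0 := by
      rcases mul_eq_zero.1 this.symm with h | h
      · exact absurd h hc.ne'
      · exact h
    exact sub_eq_zero.1 (norm_eq_zero.1 h2)
  have : Infinite (EuclideanSpace ℂ (Fin k)) := Module.Free.infinite ℂ _
  exact Infinite.of_injective J hinj

/-- For every `k ≥ 1` and `n ≥ 2 k^k` there are `n` points of an `L_p` space every embedding of
which into `ℓ_p^d` with distortion at most `D` needs `d ≥ c k^(p/2)`. -/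
theorem lower_of_pow {p : ℝ≥0∞} [hp1 : Fact (1 ≤ p)] (hptop : p ≠ ∞) {D : ℝ} (hD : 1 ≤ D) :
    ∃ c : ℝ, 0 < c ∧ ∀ (k n : ℕ), 0 < k → 2 * k ^ k ≤ n →
      ∃ X : Finset (Lp ℝ p (ballMeasure (EuclideanSpace ℂ (Fin k)))), X.card = n ∧
      ∀ (d : ℕ) (f : Lp ℝ p (ballMeasure (EuclideanSpace ℂ (Fin k))) →
        PiLp p (fun _ : Fin d => ℝ)), DistortionAtMost X f D →
      c * (k : ℝ) ^ (p.toReal / 2) ≤ d := by
  classical
  obtain ⟨c, hc, hlow⟩ := grid_lower (p := p) hptop hD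
  refine ⟨c, hc, fun k n hk hn => ?_⟩
  have hne : Nonempty (Fin k) := ⟨⟨0, hk⟩⟩
  have hnt : Nontrivial (EuclideanSpace ℂ (Fin k)) := inferInstance
  have hinf := infinite_Lp k hk p
  obtain ⟨c', hc', J, hJ⟩ := exists_scaled_isometry (H := EuclideanSpace ℂ (Fin k)) p
    (zero_lt_one.trans_le hp1.out).ne'
  have hcard : ((gridSet k k).image J).card ≤ n :=
    (Finset.card_image_le.trans (gridSet_card_le k k)).trans hn
  obtain ⟨X, hX, hXn⟩ := Infinite.exists_superset_card_eq ((gridSet k k).image J) n hcard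
  refine ⟨X, hXn, fun d f hf => ?_⟩
  obtain ⟨s, hs, hsf⟩ := hf
  have hkk : Real.sqrt k ≤ k := by
    have h1 : (1 : ℝ) ≤ k := by exact_mod_cast hk
    rw [Real.sqrt_le_left (by positivity)]
    nlinarith only [h1]
  refine hlow k k hk hkk d (fun x => f (J x)) (s * c') (by positivity) fun x hx y hy => ?_
  have h := hsf (J x) (hX (Finset.mem_image_of_mem J hx)) (J y) (hX (Finset.mem_image_of_mem J hy))
  rw [hJ] at h
  refine ⟨le_trans (le_of_eq (by ring)) h.1, h.2.trans (le_of_eq (by ring))⟩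

/-- Elementary estimate choosing `k` in terms of `n`. -/
theorem exists_k {n : ℕ} (hn : 16 ≤ n) : ∃ k : ℕ, 0 < k ∧ 2 * k ^ k ≤ n ∧
    Real.log n / Real.log (Real.log n) ≤ 4 * k := by
  have hn' : (16 : ℝ) ≤ n := by exact_mod_cast hn
  set L := Real.log n with hL
  have hlog2 : (0.6931471803 : ℝ) < Real.log 2 := Real.log_two_gt_d9
  have hL1 : 4 * Real.log 2 ≤ L := by
    have : Real.log 16 = 4 * Real.log 2 := by
      rw [show (16 : ℝ) = 2 ^ 4 by norm_num, Real.log_pow]; norm_num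
    rw [← this]
    exact Real.log_le_log (by norm_num) hn'
  have hL2 : (2.7725 : ℝ) < L := by linarith only [hlog2, hL1]
  have hLL : 1 < Real.log L := by
    have h1 : Real.exp 1 < L := by
      have := Real.exp_one_lt_d9
      linarith only [hL2, this]
    exact (Real.lt_log_iff_exp_lt (by linarith only [hL2])).2 h1
  set LL := Real.log L with hLLd
  have hL0 : 0 < L := by linarith only [hL2]
  -- L ≥ 2 LL
  have h2LL : 2 * LL ≤ L := by
    have h1 : Real.log (L / 2) ≤ L / 2 - 1 := Real.log_le_sub_one_of_pos (by linarith)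
    rw [Real.log_div hL0.ne' (by norm_num)] at h1
    have : Real.log 2 < 1 := by linarith only [Real.log_two_lt_d9]
    linarith only [h1, this]
  set y := L / LL with hy
  have hy2 : 2 ≤ y := by
    rw [hy, le_div_iff₀ (by linarith only [hLL])]
    exact h2LL
  set k := ⌊y / 2⌋₊ with hk
  have hk1 : 1 ≤ k := by
    rw [hk, Nat.one_le_floor_iff]
    linarith only [hy2]
  have hkle : (k : ℝ) ≤ y / 2 := Nat.floor_le (by linarith only [hy2])
  have hklt : y / 2 < k + 1 := Nat.lt_floor_add_one _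
  have hk1' : (1 : ℝ) ≤ k := by exact_mod_cast hk1
  refine ⟨k, hk1, ?_, ?_⟩
  · have hkL : (k : ℝ) ≤ L := by
      have : y ≤ L := by
        rw [hy]
        exact div_le_self hL0.le hLL.le
      linarith only [hLL, h2LL, hkle, this]
    have hlogk : Real.log k ≤ LL := Real.log_le_log (by linarith only [hk1']) hkL
    have h1 : (k : ℝ) * Real.log k ≤ L / 2 := by
      calc (k : ℝ) * Real.log k ≤ (y / 2) * LL := by
            have : 0 ≤ Real.log k := Real.log_nonneg hk1'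
            (clear * - hL2 hLL hkle hlogk; gcongr)
        _ = L / 2 := by
            rw [hy]
            field_simp
    have h2 : Real.log (2 * (k : ℝ) ^ k) ≤ Real.log n := by
      rw [Real.log_mul (by norm_num) (by positivity), Real.log_pow]
      have : Real.log 2 ≤ L / 2 := by linarith only [hL1, hLL, h2LL]
      linarith only [hL1, hLL, h2LL, h1]
    have h3 : 2 * (k : ℝ) ^ k ≤ n :=
      (Real.log_le_log_iff (by positivity) (by linarith only [hn'])).1 h2
    exact_mod_cast h3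
  · linarith only [hklt, hk1']

/-- **Lower bound.** For every finite `p ≥ 1` and `D ≥ 1` there is `c > 0` such that for all
`n ≥ 3` some `n`-point subset of an `L_p` space only admits maps of distortion at most `D` into
`ℓ_p^d` when `d ≥ c (log n / log log n)^(p/2)`. -/
theorem lower_main {p : ℝ≥0∞} [hp1 : Fact (1 ≤ p)] (hptop : p ≠ ∞) {D : ℝ} (hD : 1 ≤ D) :
    ∃ c : ℝ, 0 < c ∧ ∀ n : ℕ, 3 ≤ n →
      ∃ (Ω : Type) (_ : MeasurableSpace Ω) (μ : Measure Ω) (X : Finset (Lp ℝ p μ)),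
        X.card = n ∧ ∀ (d : ℕ) (f : Lp ℝ p μ → PiLp p (fun _ : Fin d => ℝ)),
          DistortionAtMost X f D →
            c * (Real.log n / Real.log (Real.log n)) ^ (p.toReal / 2) ≤ d := by
  obtain ⟨c, hc, hlow⟩ := lower_of_pow (p := p) hptop hD
  set q := p.toReal / 2 with hq
  have hq0 : 0 ≤ q := by (clear * -; positivity)
  set S : ℝ := ∑ n ∈ Finset.range 16, |(Real.log n / Real.log (Real.log n)) ^ q| with hS
  have hS0 : 0 ≤ S := Finset.sum_nonneg fun _ _ => abs_nonneg _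
  refine ⟨min (c / 4 ^ q) (1 / (1 + S)), by (clear * - hc; positivity), fun n hn => ?_⟩
  rcases lt_or_ge n 16 with h16 | h16
  · -- small n
    have hinf := infinite_Lp 1 one_pos p
    obtain ⟨X, hX⟩ := Infinite.exists_subset_card_eq
      (Lp ℝ p (ballMeasure (EuclideanSpace ℂ (Fin 1)))) n
    refine ⟨EuclideanSpace ℂ (Fin 1), inferInstance, ballMeasure _, X, hX, fun d f hf => ?_⟩
    have hd : 1 ≤ d := by
      by_contra hd
      have hd0 : d = 0 := by (clear * - hd; omega)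
      subst hd0
      obtain ⟨s, hs, hsf⟩ := hf
      have h1 : 1 < X.card := by omega
      obtain ⟨x, hx, y, hy, hxy⟩ := Finset.one_lt_card.1 h1
      have h2 := (hsf x hx y hy).1
      have h3 : f x - f y = 0 := by
        ext j
        exact j.elim0
      rw [h3, norm_zero] at h2
      have h4 : 0 < ‖x - y‖ := norm_pos_iff.2 (sub_ne_zero.2 hxy)
      nlinarith only [mul_pos hs h4, hp1, hs, h2, h4]
    have hd' : (1 : ℝ) ≤ d := by exact_mod_cast hd
    have h1 : (Real.log n / Real.log (Real.log n)) ^ q ≤ 1 + S := by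
      have : |(Real.log n / Real.log (Real.log n)) ^ q| ≤ S :=
        Finset.single_le_sum (f := fun n : ℕ => |(Real.log n / Real.log (Real.log n)) ^ q|)
          (fun _ _ => abs_nonneg _) (Finset.mem_range.2 h16)
      linarith only [le_abs_self ((Real.log n / Real.log (Real.log n)) ^ q), this]
    rcases le_total 0 ((Real.log n / Real.log (Real.log n)) ^ q) with h0 | h0
    · calc min (c / 4 ^ q) (1 / (1 + S)) * (Real.log n / Real.log (Real.log n)) ^ q
          ≤ (1 / (1 + S)) * (1 + S) := by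
            gcongr
            exact min_le_right _ _
        _ = 1 := by field_simp
        _ ≤ d := hd'
    · have : min (c / 4 ^ q) (1 / (1 + S)) * (Real.log n / Real.log (Real.log n)) ^ q ≤ 0 :=
        mul_nonpos_of_nonneg_of_nonpos (by (clear * - hc; positivity)) h0
      linarith only [hd', this]
  · obtain ⟨k, hk, hkn, hkl⟩ := exists_k h16
    obtain ⟨X, hX, hXf⟩ := hlow k n hk hkn
    refine ⟨EuclideanSpace ℂ (Fin k), inferInstance, ballMeasure _, X, hX, fun d f hf => ?_⟩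
    have h1 := hXf d f hf
    have hn' : (16 : ℝ) ≤ n := by exact_mod_cast h16
    have hlogn : 1 < Real.log n := by
      rw [Real.lt_log_iff_exp_lt (by linarith only [hn'])]
      linarith only [Real.exp_one_lt_d9, hn']
    have hLL : 0 ≤ Real.log (Real.log n) := Real.log_nonneg hlogn.le
    have hy0 : 0 ≤ Real.log n / Real.log (Real.log n) := div_nonneg (by linarith only [hlogn]) hLL
    have h4 : (0 : ℝ) < 4 ^ q := by positivity
    calc min (c / 4 ^ q) (1 / (1 + S)) * (Real.log n / Real.log (Real.log n)) ^ q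
        ≤ (c / 4 ^ q) * (4 * k) ^ q := by
          gcongr
          exact min_le_left _ _
      _ = c * (k : ℝ) ^ q := by
          rw [Real.mul_rpow (by norm_num) (by positivity)]
          field_simp
      _ ≤ d := h1

end Vale.Agent.P249
end
end

section

section

open MeasureTheory Filter Asymptotics
open scoped ENNReal

namespace Vale.Agent.P249

theorem DistortionAtMost.mono {A B : Type*} [NormedAddCommGroup A] [NormedAddCommGroup B]
    {X : Finset A} {f : A → B} {D D' : ℝ} (h : DistortionAtMost X f D) (hD : D ≤ D') :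
    DistortionAtMost X f D' := by
  obtain ⟨s, hs, h⟩ := h
  refine ⟨s, hs, fun x hx y hy => ⟨(h x hx y hy).1, (h x hx y hy).2.trans ?_⟩⟩
  have : 0 ≤ s * ‖x - y‖ := mul_nonneg hs.le (norm_nonneg _)
  nlinarith only [hD, this]

theorem Admissible.mono {p : ℝ≥0∞} [Fact (1 ≤ p)] {n d : ℕ} {D D' : ℝ}
    (h : Admissible p n D d) (hD : D ≤ D') : Admissible p n D' d := by
  intro Ω _ μ X hX
  obtain ⟨f, hf⟩ := h Ω μ X hX
  exact ⟨f, hf.mono hD⟩

theorem Admissible.dimLp_le {p : ℝ≥0∞} [Fact (1 ≤ p)] {n d : ℕ} {D : ℝ}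
    (h : Admissible p n D d) : dimLp p n D ≤ d := Nat.sInf_le h

theorem Admissible.dimLp_mem {p : ℝ≥0∞} [Fact (1 ≤ p)] {n d : ℕ} {D : ℝ}
    (h : Admissible p n D d) : Admissible p n D (dimLp p n D) :=
  Nat.sInf_mem (s := {d : ℕ | Admissible p n D d}) ⟨d, h⟩

theorem dimLp_le_power (p : ℝ≥0∞) [Fact (1 ≤ p)] (hptop : p ≠ ∞) (ε : ℝ) (hε : 0 < ε) :
    ∃ D₀ C : ℝ, 1 ≤ D₀ ∧ 0 < C ∧ ∀ D : ℝ, D₀ ≤ D → ∀ n : ℕ, 1 ≤ n →
      Admissible p n D (dimLp p n D) ∧ (dimLp p n D : ℝ) ≤ C * (n : ℝ) ^ ε := by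
  obtain ⟨D₀, C, hD₀, hC, h⟩ := power_bound p hptop ε hε
  refine ⟨D₀, C, hD₀, hC, fun D hD n hn => ?_⟩
  obtain ⟨d, hd, hdn⟩ := h n hn
  have hd' : Admissible p n D d := hd.mono hD
  exact ⟨hd'.dimLp_mem, le_trans (by exact_mod_cast hd'.dimLp_le) hdn⟩

theorem dimLp_isLittleO (p : ℝ≥0∞) [Fact (1 ≤ p)] (hptop : p ≠ ∞) :
    ∃ D₀ : ℝ, 1 ≤ D₀ ∧ ∀ D : ℝ, D₀ ≤ D →
      (fun n : ℕ => (dimLp p n D : ℝ)) =o[atTop] (fun n : ℕ => (n : ℝ)) := by
  obtain ⟨D₀, C, hD₀, hC, h⟩ := dimLp_le_power p hptop (1 / 2) (by norm_num)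
  refine ⟨D₀, hD₀, fun D hD => ?_⟩
  have h1 : (fun n : ℕ => (dimLp p n D : ℝ)) =O[atTop] (fun n : ℕ => (n : ℝ) ^ (1 / 2 : ℝ)) := by
    refine IsBigO.of_bound C ?_
    filter_upwards [eventually_ge_atTop 1] with n hn
    rw [Real.norm_of_nonneg (Nat.cast_nonneg _), Real.norm_of_nonneg (by positivity)]
    exact (h D hD n hn).2
  refine h1.trans_isLittleO ?_
  have h2 : Tendsto (fun n : ℕ => (n : ℝ) ^ (-(1 / 2) : ℝ)) atTop (nhds 0) :=
    (tendsto_rpow_neg_atTop (by norm_num)).comp tendsto_natCast_atTop_atTop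
  rw [isLittleO_iff_tendsto' (by
    filter_upwards [eventually_ge_atTop 1] with n hn h0
    have : (0 : ℝ) < n := by exact_mod_cast hn
    exact absurd h0 this.ne')]
  refine h2.congr' ?_
  filter_upwards [eventually_ge_atTop 1] with n hn
  have hn0 : (0 : ℝ) < n := by exact_mod_cast hn
  rw [eq_div_iff hn0.ne', ← Real.rpow_add_one hn0.ne']
  norm_num

theorem dimLp_le_nlogn (p : ℝ≥0∞) [Fact (1 ≤ p)] (hptop : p ≠ ∞) (D : ℝ) (hD : 1 < D) :
    ∃ C : ℝ, 0 < C ∧ ∀ n : ℕ, 2 ≤ n →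
      Admissible p n D (dimLp p n D) ∧ (dimLp p n D : ℝ) ≤ C * n * Real.log n := by
  obtain ⟨C, hC, h⟩ := upper_nlogn p hptop D hD
  refine ⟨C, hC, fun n hn => ?_⟩
  obtain ⟨d, hd, hdn⟩ := h n hn
  exact ⟨hd.dimLp_mem, le_trans (by exact_mod_cast hd.dimLp_le) hdn⟩

theorem lower_admissible (p : ℝ≥0∞) [Fact (1 ≤ p)] (hptop : p ≠ ∞) (D : ℝ) (hD : 1 ≤ D) :
    ∃ c : ℝ, 0 < c ∧ ∀ n : ℕ, 3 ≤ n → ∀ d : ℕ, Admissible p n D d →
      c * (Real.log n / Real.log (Real.log n)) ^ (p.toReal / 2) ≤ d := by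
  obtain ⟨c, hc, h⟩ := lower_main hptop hD
  refine ⟨c, hc, fun n hn d hd => ?_⟩
  obtain ⟨Ω, _, μ, X, hX, hf⟩ := h n hn
  obtain ⟨f, hf'⟩ := hd Ω μ X hX
  exact hf d f hf'

end Vale.Agent.P249
end
end

section

section

open MeasureTheory Filter Asymptotics
open scoped ENNReal

namespace Vale.Agent.P249

/-- A bound `exp (C (log n) ^ θ)` with `θ < 1` is `o(n ^ ε)` for every `ε > 0`. -/
theorem isLittleO_rpow_of_subpoly {u : ℕ → ℝ} {C θ : ℝ} (hθ1 : θ < 1)
    (hu0 : ∀ n, 0 ≤ u n) (hu : ∀ n : ℕ, 2 ≤ n → u n ≤ Real.exp (C * Real.log n ^ θ))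
    {ε : ℝ} (hε : 0 < ε) : u =o[atTop] (fun n : ℕ => (n : ℝ) ^ ε) := by
  have hlog : Tendsto (fun n : ℕ => Real.log n) atTop atTop :=
    Real.tendsto_log_atTop.comp tendsto_natCast_atTop_atTop
  -- `log n * (C * (log n) ^ (θ - 1) - ε) → -∞`
  have h1 : Tendsto (fun n : ℕ => C * Real.log n ^ (θ - 1) - ε) atTop (nhds (-ε)) := by
    have h2 : Tendsto (fun x : ℝ => x ^ (-(1 - θ))) atTop (nhds 0) :=
      tendsto_rpow_neg_atTop (by linarith)
    have h3 := ((h2.comp hlog).const_mul C).sub_const ε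
    simp only [mul_zero, zero_sub, neg_sub] at h3
    exact h3
  have h4 : Tendsto (fun n : ℕ => Real.log n * (C * Real.log n ^ (θ - 1) - ε)) atTop atBot :=
    hlog.atTop_mul_neg (neg_lt_zero.2 hε) h1
  have h5 : Tendsto (fun n : ℕ => Real.exp (Real.log n * (C * Real.log n ^ (θ - 1) - ε)))
      atTop (nhds 0) := Real.tendsto_exp_atBot.comp h4
  have h6 : ∀ᶠ n : ℕ in atTop, u n / (n : ℝ) ^ ε ≤
      Real.exp (Real.log n * (C * Real.log n ^ (θ - 1) - ε)) := by
    filter_upwards [eventually_ge_atTop 2, hlog.eventually_gt_atTop 0] with n hn hl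
    have hn0 : (0 : ℝ) < n := by exact_mod_cast (by omega : 0 < n)
    have h7 : (0 : ℝ) < (n : ℝ) ^ ε := Real.rpow_pos_of_pos hn0 _
    rw [div_le_iff₀ h7]
    refine (hu n hn).trans (le_of_eq ?_)
    rw [Real.rpow_def_of_pos hn0 ε, ← Real.exp_add]
    congr 1
    have h8 : Real.log n ^ θ = Real.log n * Real.log n ^ (θ - 1) := by
      have h9 := Real.rpow_add_one hl.ne' (θ - 1)
      rw [sub_add_cancel] at h9
      rw [h9, mul_comm]
    rw [h8]
    ring
  rw [isLittleO_iff_tendsto' (by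
    filter_upwards [eventually_ge_atTop 1] with n hn h0
    have hn0 : (0 : ℝ) < n := by exact_mod_cast hn
    exact absurd h0 (Real.rpow_pos_of_pos hn0 _).ne')]
  refine squeeze_zero' ?_ h6 h5
  filter_upwards with n
  exact div_nonneg (hu0 n) (Real.rpow_nonneg (Nat.cast_nonneg _) _)

theorem dimLp_le_of_subpoly {p : ℝ≥0∞} [Fact (1 ≤ p)] {D θ : ℝ}
    (h : ∃ C : ℝ, 0 < C ∧ ∀ n : ℕ, 2 ≤ n →
      ∃ d : ℕ, Admissible p n D d ∧ (d : ℝ) ≤ Real.exp (C * Real.log n ^ θ)) :
    ∃ C : ℝ, 0 < C ∧ ∀ n : ℕ, 2 ≤ n → Admissible p n D (dimLp p n D) ∧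
      (dimLp p n D : ℝ) ≤ Real.exp (C * Real.log n ^ θ) := by
  obtain ⟨C, hC, h⟩ := h
  refine ⟨C, hC, fun n hn => ?_⟩
  obtain ⟨d, hd, hdn⟩ := h n hn
  exact ⟨hd.dimLp_mem, le_trans (by exact_mod_cast hd.dimLp_le) hdn⟩

theorem dimLp_isLittleO_rpow_of_subpoly {p : ℝ≥0∞} [Fact (1 ≤ p)] {D θ : ℝ} (hθ : θ < 1)
    (h : ∃ C : ℝ, 0 < C ∧ ∀ n : ℕ, 2 ≤ n →
      ∃ d : ℕ, Admissible p n D d ∧ (d : ℝ) ≤ Real.exp (C * Real.log n ^ θ))
    {ε : ℝ} (hε : 0 < ε) :
    (fun n : ℕ => (dimLp p n D : ℝ)) =o[atTop] (fun n : ℕ => (n : ℝ) ^ ε) := by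
  obtain ⟨C, -, h⟩ := dimLp_le_of_subpoly h
  exact isLittleO_rpow_of_subpoly hθ (fun _ => Nat.cast_nonneg _) (fun n hn => (h n hn).2) hε

/-- The exponent of `log n` in the near-isometric upper bound is less than `1`. -/
theorem exponent_lt_one {p : ℝ≥0∞} (hp1 : 1 < p) (hp : p ≠ ∞) :
    (if p.toReal ≤ 2 then 1 / p.toReal else 1 / 2 + 1 / p.toReal) < 1 := by
  have hP1 : 1 < p.toReal := by
    have := (ENNReal.toReal_lt_toReal (by norm_num) hp).2 hp1
    simpa using this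
  split_ifs with h2
  · rw [div_lt_one (by linarith only [hP1])]; exact hP1
  · have : 1 / p.toReal < 1 / 2 := one_div_lt_one_div_of_lt (by norm_num) (by linarith)
    linarith

end Vale.Agent.P249
end
end

section

section

open MeasureTheory
open scoped ENNReal BigOperators

namespace Vale.Agent.P249

/-- Kernels at all scales for `P > 2`. -/
theorem kernels_gt_two (P : ℝ) (hP : 2 < P) : ∃ C : ℝ, 0 < C ∧
    ∀ {V : Type*} [Fintype V] [Nonempty V] {N : ℕ} (f : V → Fin N → ℝ),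
      HasKernels P (lpd P f) (C * (1 + Real.log (Fintype.card V)) ^ (1 + P / 2)) := by
  obtain ⟨C₁, hC₁, h₁⟩ := crude_kernel P hP
  obtain ⟨C₂, hC₂, h₂⟩ := gibbs_mix P (by linarith only [hP])
  refine ⟨C₂ * (1 + C₁), by positivity, ?_⟩
  intro V _ _ N f
  set l := Real.log (Fintype.card V) with hl
  have hcard : (1 : ℝ) ≤ Fintype.card V := by exact_mod_cast Fintype.card_pos
  have hl0 : 0 ≤ l := Real.log_nonneg hcard
  have h := h₂ (lpd P f) (lpd_self f (by linarith only [hP])) (lpd_comm f) (lpd_triangle f (by linarith))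
    (C₁ * (1 + l) ^ (P / 2)) (by positivity) (h₁ f)
  intro J
  obtain ⟨K, hK1, hK2, hK3⟩ := h J
  refine ⟨K, hK1, hK2, fun x => (hK3 x).trans ?_⟩
  have h1 : 1 ≤ (1 + l) ^ (P / 2) := Real.one_le_rpow (by linarith only [hl0]) (by linarith only [hP])
  calc C₂ * (1 + C₁ * (1 + l) ^ (P / 2)) * l
      ≤ C₂ * ((1 + C₁) * (1 + l) ^ (P / 2)) * (1 + l) := by
        have : 1 + C₁ * (1 + l) ^ (P / 2) ≤ (1 + C₁) * (1 + l) ^ (P / 2) := by linarith
        gcongr
        linarith only []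
    _ = C₂ * (1 + C₁) * (1 + l) ^ (1 + P / 2) := by
        rw [Real.rpow_add (by linarith), Real.rpow_one]; ring

theorem exists_kernels (P : ℝ) (hP : 1 < P) (θ : ℝ)
    (hθ : θ = if P ≤ 2 then 1 / P else 1 / 2 + 1 / P) :
    ∃ C : ℝ, 0 < C ∧ ∀ {V : Type*} [Fintype V] [Nonempty V] {N : ℕ} (f : V → Fin N → ℝ),
      HasKernels P (lpd P f) (C * (1 + Real.log (Fintype.card V)) ^ (θ * P)) := by
  split_ifs at hθ with h2
  · obtain ⟨C, hC, h⟩ := kernels_le_two P hP.le h2
    refine ⟨C, hC, fun {V} _ _ {N} f => ?_⟩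
    have hcard : (1 : ℝ) ≤ Fintype.card V := by exact_mod_cast Fintype.card_pos
    have hl0 : 0 ≤ Real.log (Fintype.card V) := Real.log_nonneg hcard
    intro J
    obtain ⟨K, hK1, hK2, hK3⟩ := h f J
    refine ⟨K, hK1, hK2, fun x => (hK3 x).trans ?_⟩
    have : θ * P = 1 := by rw [hθ]; field_simp
    rw [this, Real.rpow_one]
    gcongr
    linarith only []
  · obtain ⟨C, hC, h⟩ := kernels_gt_two P (by linarith only [h2])
    refine ⟨C, hC, fun {V} _ _ {N} f => ?_⟩
    have : θ * P = 1 + P / 2 := by rw [hθ]; field_simp; ring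
    rw [this]
    exact h f

/-- Main theorem: for `1 < p < ∞` and every `D > 1`,
`d_p(n, D) ≤ exp (C (log n) ^ θ')` for every `θ' > θ_p`, where `θ_p = 1/p` for `p ≤ 2` and
`θ_p = 1/2 + 1/p` for `p > 2`. -/
theorem subpoly (p : ℝ≥0∞) [Fact (1 ≤ p)] (hp1 : 1 < p) (hp : p ≠ ∞) (θ' : ℝ)
    (hθ' : (if p.toReal ≤ 2 then 1 / p.toReal else 1 / 2 + 1 / p.toReal) < θ')
    (D : ℝ) (hD : 1 < D) :
    ∃ C : ℝ, 0 < C ∧ ∀ n : ℕ, 2 ≤ n →
      ∃ d : ℕ, Admissible p n D d ∧ (d : ℝ) ≤ Real.exp (C * Real.log n ^ θ') := by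
  have hP1 : 1 < p.toReal := by
    have := (ENNReal.toReal_lt_toReal (by norm_num) hp).2 hp1
    simpa using this
  set θ : ℝ := if p.toReal ≤ 2 then 1 / p.toReal else 1 / 2 + 1 / p.toReal with hθ
  have hθ0 : 0 < θ := by rw [hθ]; split_ifs <;> positivity
  have hθ1 : θ < 1 := by
    rw [hθ]; split_ifs with h2
    · rw [div_lt_one (by linarith only [hP1])]; exact hP1
    · have : 1 / p.toReal < 1 / 2 := one_div_lt_one_div_of_lt (by norm_num) (by linarith only [h2])
      linarith only [this]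
  obtain ⟨C, hC, h⟩ := exists_kernels p.toReal hP1 θ hθ
  exact subpoly_of p hp θ θ' hθ0 hθ' hθ1 (near_halving p hp θ hθ0 hθ1.le ⟨C, hC, fun f => h f⟩)
    D hD

end Vale.Agent.P249
end
end
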